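import Vale.Agent.P146.H646.VaB
import Vale.Agent.P146.H347.Mod3
import Vale.Agent.P146.H615.Easm

/-! Block [W0] (P146) for the modulated SK system of `H347.Mod2`: the inputs `hI2`, `hI2f` of the
assembly `H615.Easm`. -/

open MeasureTheory ProbabilityTheory

namespace Vale.Agent.P146.H646

open Vale.Agent.P146.H196 Vale.Agent.P146.H475 Vale.Agent.P157.Lv Vale.Agent.P146.H325

set_option linter.unusedSectionVars false

variable {n : ℕ} {LB LF : Type} [Fintype LB] [DecidableEq LB] [Fintype LF] [DecidableEq LF]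
variable {b s η lam c x r0 : ℝ} {cB : LB → ℝ} {cF : LF → ℝ} {BL : Finset LB} {FL : Finset LF}

lemma abs_sp_le (σ : H347.Xs n) (i : Fin n) : |sp σ i| ≤ 1 := by
  have h := sp_mul_self σ i
  rw [abs_le]
  constructor <;> nlinarith

lemma sp_sq (σ : H347.Xs n) (i : Fin n) : sp σ i ^ 2 = 1 := by
  rw [sq]; exact sp_mul_self σ i

/-- the standing bounds hold for some constant. -/
lemma ab_sk (b : ℝ) (cB : LB → ℝ) (cF : LF → ℝ) (s : ℝ) (hη : 0 ≤ η) :
    ∃ M0, AB (κ := H347.Kp n LB LF) (H347.S0 b cB cF) (fun j σ => sp σ j) s η M0 := by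
  refine ⟨∑ e : H347.Kp n LB LF, ∑ σ, |H347.S0 b cB cF e σ| + (1 + η) * |s|, ?_, ?_, ?_⟩
  · positivity
  · intro e σ
    have h1 : |H347.S0 b cB cF e σ| ≤ ∑ σ, |H347.S0 b cB cF e σ| :=
      Finset.single_le_sum (f := fun σ => |H347.S0 b cB cF e σ|) (fun _ _ => abs_nonneg _)
        (Finset.mem_univ σ)
    have h2 : ∑ σ, |H347.S0 b cB cF e σ|
        ≤ ∑ e : H347.Kp n LB LF, ∑ σ, |H347.S0 b cB cF e σ| :=
      Finset.single_le_sum (f := fun e : H347.Kp n LB LF => ∑ σ, |H347.S0 b cB cF e σ|)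
        (fun _ _ => Finset.sum_nonneg fun _ _ => abs_nonneg _) (Finset.mem_univ e)
    have h3 : 0 ≤ (1 + η) * |s| := by positivity
    linarith
  · intro j σ
    have h1 : 0 ≤ ∑ e : H347.Kp n LB LF, ∑ σ, |H347.S0 b cB cF e σ| :=
      Finset.sum_nonneg fun _ _ => Finset.sum_nonneg fun _ _ => abs_nonneg _
    have h2 := abs_sp_le σ j
    have h3 : 0 ≤ (1 + η) * |s| := by positivity
    nlinarith

/-- the sites of the modulated SK system are exchangeable. -/
theorem sites_sk (hl : 0 < lam) (hη : 0 ≤ η) (c b : ℝ) (cB : LB → ℝ) (cF : LF → ℝ) (s : ℝ) :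
    Sites (muA (H347.Xs n) lam η c) (H347.Sm b cB cF s η) (H347.cP LB LF)
      (fun (i : Fin n) w => sp w.2 i) (fun w => al η w.1) (fun π => π)
      (fun (j : Fin n) w => sp w.2 j) where
  sym π := ⟨fun w => (w.1, fun i => w.2 (π i)), H347.symP b cB cF s η hl c π,
    fun _ _ => rfl, fun _ => rfl, fun _ _ => rfl⟩
  ms i := by
    have := H347.dmx n
    exact (measurable_of_finite (fun σ : H347.Xs n => sp σ i)).comp measurable_snd
  bs i w := abs_sp_le w.2 i
  ma := (measurable_al η).comp measurable_fst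
  ba := ⟨1 + η, fun w => by
    have h1 := al_mem hη w.1
    rw [abs_le]; constructor <;> linarith [h1.1, h1.2]⟩
  mt i := by
    have := H347.dmx n
    exact (measurable_of_finite (fun σ : H347.Xs n => sp σ i)).comp measurable_snd
  bt i w := abs_sp_le w.2 i

theorem rev_sk (BL : Finset LB) (FL : Finset LF) :
    Rev (H347.cP (n := n) LB LF) (fun S => H347.Kset S BL FL) where
  mem π _ _ h e := H347.cP_memK π h e
  fix π _ h _ he := H347.cP_fixK π h he
  mono _ _ h := H347.Kset_mono h (Finset.Subset.refl _) (Finset.Subset.refl _)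

/-! ### notation for the modulated SK law -/

/-- the thermal average -/
noncomputable abbrev avS (b : ℝ) (cB : LB → ℝ) (cF : LF → ℝ) (s η lam c : ℝ) :
    (ℝ × H347.Xs n → ℝ) → (H347.Co n LB LF → ℝ) → ℝ :=
  avm (muA (H347.Xs n) lam η c) 1 (H347.Sm b cB cF s η)

/-- the weight -/
noncomputable abbrev wS (n : ℕ) (b : ℝ) (cB : LB → ℝ) (cF : LF → ℝ) (s η lam c x : ℝ) :
    (H347.Co n LB LF → ℝ) → ℝ :=
  Zxm (muA (H347.Xs n) lam η c) 1 (H347.Sm b cB cF s η) x

/-- expectation -/
noncomputable abbrev exS (n : ℕ) (b : ℝ) (cB : LB → ℝ) (cF : LF → ℝ) (s η lam c x : ℝ)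
    (Ψ : (H347.Co n LB LF → ℝ) → ℝ) : ℝ :=
  ex (H347.g1 (H347.Co n LB LF)) (wS n b cB cF s η lam c x) Ψ

/-- conditional expectation -/
noncomputable abbrev cxS (n : ℕ) (b : ℝ) (cB : LB → ℝ) (cF : LF → ℝ) (s η lam c x : ℝ)
    (K : Finset (H347.Co n LB LF)) (Ψ : (H347.Co n LB LF → ℝ) → ℝ) :
    (H347.Co n LB LF → ℝ) → ℝ :=
  cx (H347.g1 (H347.Co n LB LF)) K (wS n b cB cF s η lam c x) Ψ

/-- the mean squared Frobenius norm of the matrix of conditional two-point functions
(`= n² E R_AB²` over all the sites) -/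
noncomputable def R2 (n : ℕ) (b : ℝ) (cB : LB → ℝ) (cF : LF → ℝ) (s η lam c x : ℝ)
    (K : Finset (H347.Co n LB LF)) : ℝ :=
  ∑ j : Fin n, ∑ l : Fin n, exS n b cB cF s η lam c x (fun z =>
    cxS n b cB cF s η lam c x K (avS b cB cF s η lam c (fun w => sp w.2 j * sp w.2 l)) z ^ 2)

/-- probability that the amplitude is stuck -/
noncomputable def Pst (n : ℕ) (b : ℝ) (cB : LB → ℝ) (cF : LF → ℝ) (s η lam c x : ℝ) : ℝ :=
  exS n b cB cF s η lam c x (avS b cB cF s η lam c (fun w => 1 - ins η w.1))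

/-- error of the bonds of a hidden row -/
noncomputable def d0 (n : ℕ) (b : ℝ) (cB : LB → ℝ) (cF : LF → ℝ) (s η lam c x r0 : ℝ)
    (K K1 : Finset (H347.Co n LB LF)) (D : ℕ) : ℝ :=
  √(8 * (1 + η) ^ 2 * √(R2 n b cB cF s η lam c x K1) / D)
    + (1 - x) * √(2 * (lam / ((1 - x) * (s ^ 2 * n))) ^ 2 * √(R2 n b cB cF s η lam c x K)
      + 2 * (n * ((|r0| + 1) * (1 + η)) ^ 2 * Pst n b cB cF s η lam c x))

/-- error of the own field of a hidden row -/
noncomputable def d0f (n : ℕ) (b : ℝ) (cB : LB → ℝ) (cF : LF → ℝ) (s η lam c x r0 : ℝ)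
    (D : ℕ) : ℝ :=
  √(8 * (1 + η) ^ 2 / D)
    + (1 - x) * √(2 * (lam / ((1 - x) * (s ^ 2 * n))) ^ 2
      + 2 * (((|r0| + 1) * (1 + η)) ^ 2 * Pst n b cB cF s η lam c x))
    + |1 - (1 - x) * r0| * η

section main

variable (hl : 0 < lam) (hη : 0 ≤ η) (hs : s ≠ 0) (hx0 : 0 ≤ x) (hx1 : x < 1)
  (hc : c = s ^ 2 * n * (1 - (1 - x) * r0))
include hl hη hs hx0 hx1 hc

/-- **(I2) of the assembly, bonds.** -/
theorem i2_sk (b : ℝ) (cB : LB → ℝ) (cF : LF → ℝ) (BL : Finset LB) (FL : Finset LF)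
    {S S1 : Finset (Fin n)} (hS : S ⊆ S1) {i0 : Fin n} (hi0 : i0 ∉ S)
    (hne : (S1 \ S).Nonempty) {g : (H347.Co n LB LF → ℝ) → ℝ}
    (hgd : Dep (H347.Kset S BL FL) g) (hg : BM g) :
    |exS n b cB cF s η lam c x (fun z => g z * ∑ j ∈ S,
        cxS n b cB cF s η lam c x (H347.Kset S BL FL)
          (avS b cB cF s η lam c (fun w => al η w.1 * sp w.2 j)) z *
        H615.Th (avS b cB cF s η lam c) x (fun w => al η w.1) (fun w => sp w.2 i0)
          (fun j w => sp w.2 j) j z)
      - (1 - (1 - x) * r0) * exS n b cB cF s η lam c x (fun z => g z *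
        H615.m2 S (fun j => cxS n b cB cF s η lam c x (H347.Kset S BL FL)
          (avS b cB cF s η lam c (fun w => al η w.1 * sp w.2 j))) z)|
      ≤ d0 n b cB cF s η lam c x r0 (H347.Kset S BL FL) (H347.Kset S1 BL FL) (S1 \ S).card *
        √(exS n b cB cF s η lam c x (fun z => g z ^ 2 *
        H615.m2 S (fun j => cxS n b cB cF s η lam c x (H347.Kset S BL FL)
          (avS b cB cF s η lam c (fun w => al η w.1 * sp w.2 j))) z)) := by
  have := H347.dmx n
  have hc' : c = s ^ 2 * (Fintype.card (Fin n) : ℝ) * (1 - (1 - x) * r0) := by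
    rw [Fintype.card_fin]; exact hc
  obtain ⟨M0, hB⟩ := ab_sk (n := n) b cB cF s hη
  have hG := gm (c := c) hl hη hB
  have hw := H347.wt hG 1 x
  have hS0 := sites_sk hl hη c b cB cF s (n := n)
  have hK := rev_sk (n := n) BL FL
  have : Nonempty (Fin n) := ⟨i0⟩
  have hA : ∀ w : ℝ × H347.Xs n, |al η w.1| ≤ 1 + η := fun w => by
    have h1 := al_mem hη w.1
    rw [abs_le]; constructor <;> linarith [h1.1, h1.2]
  -- abbreviations
  set G := H347.g1 (H347.Co n LB LF) with hGd
  set W := wS n b cB cF s η lam c x with hW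
  set K := H347.Kset S BL FL with hKd
  set K1 := H347.Kset S1 BL FL with hK1
  set M : Fin n → (H347.Co n LB LF → ℝ) → ℝ := fun j =>
    cxS n b cB cF s η lam c x K (avS b cB cF s η lam c (fun w => al η w.1 * sp w.2 j)) with hM
  set T : Fin n → (H347.Co n LB LF → ℝ) → ℝ := fun j =>
    Th (muA (H347.Xs n) lam η c) 1 x (H347.Sm b cB cF s η) (fun (i : Fin n) w => sp w.2 i)
      (fun w => al η w.1) (fun (j : Fin n) w => sp w.2 j) i0 j with hT
  have bT : ∀ j, BM (T j) := fun j => (hS0.eqv hG 1 x).bm i0 j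
  have bA : ∀ j, BM (avS b cB cF s η lam c (fun w => al η w.1 * sp w.2 j)) := fun j =>
    hS0.bm_av hG 1 j
  have bM : ∀ j, BM (M j) := fun j => hw.bm_cx K (bA j)
  have dM : ∀ j, Dep K (M j) := fun j => dep_cx K
  have bQ : ∀ j, BM (fun z => g z * M j z) := fun j => hg.mul (bM j)
  have dQ : ∀ j, Dep K (fun z => g z * M j z) := fun j => H615.Dep.mul hgd (dM j)
  -- the tested form
  have key := hS0.w0_ip hG hK 1 hx0 hx1.le hA (by linarith) r0 hS hi0 hne (T := S)
    (fun π h j hj => h j hj) (Q := fun j z => g z * M j z) bQ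
  -- left side
  have e1 : exS n b cB cF s η lam c x (fun z => g z * ∑ j ∈ S, M j z *
        H615.Th (avS b cB cF s η lam c) x (fun w => al η w.1) (fun w => sp w.2 i0)
          (fun j w => sp w.2 j) j z)
      - (1 - (1 - x) * r0) * exS n b cB cF s η lam c x (fun z => g z * H615.m2 S M z)
      = ∑ j ∈ S, ex G W (fun z => (cx G K W (T j) z - (1 - (1 - x) * r0) *
        cx G K W (avm (muA (H347.Xs n) lam η c) 1 (H347.Sm b cB cF s η)
          (fun w => al η w.1 * sp w.2 j)) z) * (g z * M j z)) := by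
    have f1 : (fun z => g z * ∑ j ∈ S, M j z *
        H615.Th (avS b cB cF s η lam c) x (fun w => al η w.1) (fun w => sp w.2 i0)
          (fun j w => sp w.2 j) j z) = fun z => ∑ j ∈ S, (g z * M j z) * T j z := by
      funext z
      rw [Finset.mul_sum]
      exact Finset.sum_congr rfl fun j _ => (mul_assoc _ _ _).symm
    have f2 : (fun z => g z * H615.m2 S M z) = fun z => ∑ j ∈ S, (g z * M j z) * M j z := by
      funext z
      unfold H615.m2
      rw [Finset.mul_sum]
      exact Finset.sum_congr rfl fun j _ => by ring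
    show ex G W _ - _ * ex G W _ = _
    rw [f1, f2, hw.ex_sum S fun j _ => (bQ j).mul (bT j), hw.ex_sum S fun j _ =>
      (bQ j).mul (bM j), Finset.mul_sum, ← Finset.sum_sub_distrib]
    refine Finset.sum_congr rfl fun j _ => ?_
    rw [← ex_cx hw (dQ j) (bQ j) (bT j), ← hw.ex_const_mul, ← hw.ex_sub
      ((bQ j).mul (hw.bm_cx K (bT j))) ((BM.const _).mul ((bQ j).mul (bM j)))]
    congr 1
    funext z
    show g z * M j z * cx G K W (T j) z - (1 - (1 - x) * r0) * (g z * M j z * M j z)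
      = (cx G K W (T j) z - (1 - (1 - x) * r0) * M j z) * (g z * M j z)
    ring
  rw [e1]
  refine key.trans ?_
  -- right side
  have e2 : ∑ j ∈ S, ex G W (fun z => (g z * M j z) ^ 2)
      = exS n b cB cF s η lam c x (fun z => g z ^ 2 * H615.m2 S M z) := by
    show _ = ex G W _
    have f2 : (fun z => g z ^ 2 * H615.m2 S M z) = fun z => ∑ j ∈ S, (g z * M j z) ^ 2 := by
      funext z
      unfold H615.m2
      rw [Finset.mul_sum]
      exact Finset.sum_congr rfl fun j _ => by ring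
    rw [f2, hw.ex_sum S fun j _ => (bQ j).sq]
  rw [e2]
  refine mul_le_mul_of_nonneg_right ?_ (Real.sqrt_nonneg _)
  unfold d0
  refine add_le_add ?_ (mul_le_mul_of_nonneg_left (Real.sqrt_le_sqrt ?_) (by linarith))
  · exact le_rfl
  · have hV := Va_l2 (τ0 := fun (j : Fin n) σ => sp σ j) (K := K) (r0 := r0) hl hη hB
      (fun j σ => sp_sq σ j) hs hx1 (fun j => H347.gd_memK j) hc' (fun j σ => abs_sp_le σ j)
    rw [Fintype.card_fin] at hV
    refine le_trans ?_ hV
    refine Finset.sum_le_sum_of_subset_of_nonneg (Finset.subset_univ S) fun j _ _ => ?_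
    exact hw.ex_nonneg (hw.bm_cx K (hS0.bm_Va hG 1 r0 j)).sq fun _ => sq_nonneg _

/-- **(I2) of the assembly, own field.** -/
theorem i2f_sk (b : ℝ) (cB : LB → ℝ) (cF : LF → ℝ) (BL : Finset LB) (FL : Finset LF)
    {S S1 : Finset (Fin n)} (hS : S ⊆ S1) {i0 : Fin n} (hi0 : i0 ∉ S)
    (hne : (S1 \ S).Nonempty) {g : (H347.Co n LB LF → ℝ) → ℝ}
    (hgd : Dep (H347.Kset S BL FL) g) (hg : BM g) :
    |exS n b cB cF s η lam c x (fun z => g z *
        H615.Tf (avS b cB cF s η lam c) x (fun w => al η w.1) (fun w => sp w.2 i0) z)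
      - (1 - (1 - x) * r0) * exS n b cB cF s η lam c x g|
      ≤ d0f n b cB cF s η lam c x r0 (S1 \ S).card *
        √(exS n b cB cF s η lam c x (fun z => g z ^ 2)) := by
  have := H347.dmx n
  have hc' : c = s ^ 2 * (Fintype.card (Fin n) : ℝ) * (1 - (1 - x) * r0) := by
    rw [Fintype.card_fin]; exact hc
  obtain ⟨M0, hB⟩ := ab_sk (n := n) b cB cF s hη
  have hG := gm (c := c) hl hη hB
  have hw := H347.wt hG 1 x
  have hS0 := (sites_sk hl hη c b cB cF s (n := n)).unit
  have hK := rev_sk (n := n) BL FL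
  have : Nonempty (Fin n) := ⟨i0⟩
  have hA : ∀ w : ℝ × H347.Xs n, |al η w.1| ≤ 1 + η := fun w => by
    have h1 := al_mem hη w.1
    rw [abs_le]; constructor <;> linarith [h1.1, h1.2]
  set G := H347.g1 (H347.Co n LB LF) with hGd
  set W := wS n b cB cF s η lam c x with hW
  set K := H347.Kset S BL FL with hKd
  set K1 := H347.Kset S1 BL FL with hK1
  set A : (H347.Co n LB LF → ℝ) → ℝ := avm (muA (H347.Xs n) lam η c) 1 (H347.Sm b cB cF s η)
    (fun w => al η w.1 * 1) with hAd
  set T : (H347.Co n LB LF → ℝ) → ℝ :=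
    Th (muA (H347.Xs n) lam η c) 1 x (H347.Sm b cB cF s η) (fun (i : Fin n) w => sp w.2 i)
      (fun w => al η w.1) (fun (_ : Unit) _ => 1) i0 () with hT
  have bT : BM T := (hS0.eqv hG 1 x).bm i0 ()
  have bA : BM A := hS0.bm_av hG 1 ()
  have key := hS0.w0_ip hG hK 1 hx0 hx1.le hA (by linarith) r0 hS hi0 hne (T := Finset.univ)
    (fun _ _ _ _ => rfl) (Q := fun _ => g) (fun _ => hg)
  simp only [Finset.univ_unique, Finset.sum_singleton, mul_one] at key
  -- the amplitude is close to one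
  have hAη : ∀ z, |A z - 1| ≤ η := by
    intro z
    have h1 : A z - 1 = avm (muA (H347.Xs n) lam η c) 1 (H347.Sm b cB cF s η)
        (fun w => al η w.1 - 1) z := by
      rw [hG.av_sub 1 (bm_al hη) (Bm.const 1), hG.av_one]
      simp only [hAd, mul_one]
    rw [h1]
    exact hG.abs_av_le 1 ((bm_al hη).sub (Bm.const 1)).1 (fun w => abs_al_sub hη w.1) z
  set kp := 1 - (1 - x) * r0 with hkp
  have e1 : exS n b cB cF s η lam c x (fun z => g z *
        H615.Tf (avS b cB cF s η lam c) x (fun w => al η w.1) (fun w => sp w.2 i0) z)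
      - kp * exS n b cB cF s η lam c x g
      = ex G W (fun z => (cx G K W T z - kp * cx G K W A z) * g z)
        + kp * ex G W (fun z => g z * (A z - 1)) := by
    have f1 : (fun z => g z *
        H615.Tf (avS b cB cF s η lam c) x (fun w => al η w.1) (fun w => sp w.2 i0) z)
        = fun z => g z * T z := by
      funext z
      simp only [hT, Th, H615.Tf, mul_one]
    show ex G W _ - _ * ex G W _ = _
    have bcT := hw.bm_cx K bT
    have bcA := hw.bm_cx K bA
    have f2 : (fun z => (cx G K W T z - kp * cx G K W A z) * g z)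
        = fun z => g z * cx G K W T z - kp * (g z * cx G K W A z) := by
      funext z; ring
    have f3 : (fun z => g z * (A z - 1)) = fun z => g z * A z - g z := by
      funext z; ring
    rw [f1, f2, f3, hw.ex_sub (hg.mul bcT) ((BM.const _).mul (hg.mul bcA)), hw.ex_const_mul,
      ex_cx hw hgd hg bT, ex_cx hw hgd hg bA, hw.ex_sub (hg.mul bA) hg]
    ring
  rw [e1]
  refine (abs_add_le _ _).trans ?_
  unfold d0f
  rw [add_mul]
  refine add_le_add ?_ ?_
  · refine (le_of_eq ?_).trans (key.trans (mul_le_mul_of_nonneg_right ?_ (Real.sqrt_nonneg _)))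
    · simp only [hAd, hT, mul_one]
      rfl
    · refine add_le_add (Real.sqrt_le_sqrt (le_of_eq ?_))
        (mul_le_mul_of_nonneg_left (Real.sqrt_le_sqrt ?_) (by linarith))
      · have f4 : cx G K1 W (avm (muA (H347.Xs n) lam η c) 1 (H347.Sm b cB cF s η)
            (fun _ => (1 : ℝ))) = fun _ => 1 := by
          funext z
          have : avm (muA (H347.Xs n) lam η c) 1 (H347.Sm b cB cF s η) (fun _ => (1 : ℝ))
              = fun _ => 1 := by funext z; exact hG.av_one 1 z
          rw [this]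
          exact cx_one hw z
        have f5 : ex G W (fun z => cx G K1 W (avm (muA (H347.Xs n) lam η c) 1
            (H347.Sm b cB cF s η) (fun _ => (1 : ℝ))) z ^ 2) = 1 := by
          rw [f4]; simp only [one_pow]; exact hw.ex_one
        rw [f5, Real.sqrt_one, mul_one]
      · have hV := Va_l2 (τ0 := fun (_ : Unit) (_ : H347.Xs n) => (1 : ℝ)) (K := K) (r0 := r0) hl
          hη hB (fun j σ => sp_sq σ j) hs hx1 (fun j => H347.gd_memK j) hc' (fun _ _ => by simp)
        simp only [Finset.univ_unique, Finset.sum_singleton, mul_one, Fintype.card_fin,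
          Fintype.card_unique, Nat.cast_one, one_mul] at hV
        have f4 : cx G K W (avm (muA (H347.Xs n) lam η c) 1 (H347.Sm b cB cF s η)
            (fun _ => (1 : ℝ))) = fun _ => 1 := by
          funext z
          have : avm (muA (H347.Xs n) lam η c) 1 (H347.Sm b cB cF s η) (fun _ => (1 : ℝ))
              = fun _ => 1 := by funext z; exact hG.av_one 1 z
          rw [this]
          exact cx_one hw z
        have f5 : ex G W (fun z => cx G K W (avm (muA (H347.Xs n) lam η c) 1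
            (H347.Sm b cB cF s η) (fun _ => (1 : ℝ))) z ^ 2) = 1 := by
          rw [f4]; simp only [one_pow]; exact hw.ex_one
        have f6 : √(ex (H347.g1 (H347.Kp n LB LF ⊕ Fin n))
            (Zxm (muA (H347.Xs n) lam η c) 1 (H347.Sm b cB cF s η) x) fun z =>
            cx (H347.g1 (H347.Kp n LB LF ⊕ Fin n)) K
              (Zxm (muA (H347.Xs n) lam η c) 1 (H347.Sm b cB cF s η) x)
              (avm (muA (H347.Xs n) lam η c) 1 (H347.Sm b cB cF s η) fun _ => (1 : ℝ)) z ^ 2)
            = 1 := (congrArg Real.sqrt f5).trans Real.sqrt_one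
        rw [f6, mul_one] at hV
        exact hV
  · rw [abs_mul, mul_assoc]
    refine mul_le_mul_of_nonneg_left ?_ (abs_nonneg _)
    have h2 := hw.abs_ip_le (J := Unit) (X := fun _ => g) (Y := fun _ z => A z - 1)
      (fun _ => hg) (fun _ => bA.sub (BM.const 1))
    unfold ip at h2
    simp only [Finset.univ_unique, Finset.sum_singleton, ← sq] at h2
    refine h2.trans ?_
    rw [mul_comm]
    refine mul_le_mul_of_nonneg_right ?_ (Real.sqrt_nonneg _)
    have h3 : ex G W (fun z => (A z - 1) ^ 2) ≤ η ^ 2 := by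
      have h4 := hw.ex_mono (bA.sub (BM.const 1)).sq (BM.const (η ^ 2)) (fun z => by
        rw [← sq_abs]; exact pow_le_pow_left₀ (abs_nonneg _) (hAη z) 2)
      have h5 : ex G W (fun _ => η ^ 2) = η ^ 2 := by
        have := hw.ex_const_mul (Ψ := fun _ => (1 : ℝ)) (η ^ 2)
        rw [hw.ex_one, mul_one] at this
        simpa only [mul_one] using this
      rwa [h5] at h4
    calc √(ex G W (fun z => (A z - 1) ^ 2)) ≤ √(η ^ 2) := Real.sqrt_le_sqrt h3
      _ = η := Real.sqrt_sq hη

end main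

end Vale.Agent.P146.H646
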