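import Vale.Agent.P146.H646.DU
import Vale.Agent.P146.H585.HU
import Vale.Agent.P146.H317.Dvec

/-!
# The linear coefficients of the row of a hidden site in full norm, ensemble `U`

Modulated levels may be revealed.
* `PVU`: the mean square of the conditional mean of the defect `Va`, summed over `S`;
* `dth_U`: `∑_{j ∈ S} ex (cx Th_j - kp M_j)²` from `PVU`;
* `dvec_ptU`: the squared norm of `cx K (y_e N) - cfr_e` over the row, pointwise;
* `dvec_U`: its mean against `0 ≤ φ ≤ P0`.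
-/

open MeasureTheory ProbabilityTheory

namespace Vale.Agent.P146.H646

open Vale.Agent.P157.Lv hiding Dep
open Vale.Agent.P146.H196 Vale.Agent.P146.H475 Vale.Agent.P146.H816 Vale.Agent.P146.H325
  Vale.Agent.P146.H347 Vale.Agent.P146.H347.U Vale.Agent.P146.H281.U

set_option linter.unusedSectionVars false

variable {Θ : Type} [MeasurableSpace Θ] {n : ℕ} {LB LF : Type} [Fintype LB] [DecidableEq LB]
  [Fintype LF] [DecidableEq LF]

/-- the mean square of the conditional mean of the defect -/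
noncomputable def PVU (n : ℕ) (ν : Measure Θ) (b : ℝ) (cB : LB → ℝ) (cF : LF → ℝ)
    (a : LF → Θ → ℝ) (x r0 : ℝ) (K : Finset (Co n LB LF)) (r : Θ → ℝ) (S : Finset (Fin n)) : ℝ :=
  ∑ j ∈ S, exU n ν b cB cF a x (fun z =>
    cxU n ν b cB cF a x K (Va (muU ν n) 1 r0 (SU b cB cF a) (fun (i : Fin n) w => sp w.2 i)
      (fun w => r w.1) (fun (j : Fin n) w => sp w.2 j) j) z ^ 2)

/-- the difference of the linear coefficients of the bonds, squared and summed over `S` -/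
noncomputable def DthU (n : ℕ) (ν : Measure Θ) (b : ℝ) (cB : LB → ℝ) (cF : LF → ℝ)
    (a : LF → Θ → ℝ) (x kp : ℝ) (K : Finset (Co n LB LF)) (r : Θ → ℝ) (S : Finset (Fin n))
    (i0 : Fin n) (z : Co n LB LF → ℝ) : ℝ :=
  ∑ j ∈ S, (cxU n ν b cB cF a x K (H615.Th (avU n ν b cB cF a) x (fun w => r w.1)
    (fun w => sp w.2 i0) (fun j w => sp w.2 j) j) z - kp * MU n ν b cB cF a x K r j z) ^ 2

section

variable {ν : Measure Θ} {η x r0 : ℝ} {b : ℝ} {cB : LB → ℝ} {cF : LF → ℝ} {a : LF → Θ → ℝ}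
  {r : Θ → ℝ}

/-- comparison of means, no measurability of the smaller function -/
lemma ex_le_nn {κ : Type*} [Fintype κ] [DecidableEq κ] {μ : κ → Measure ℝ}
    [∀ e, IsProbabilityMeasure (μ e)] {w : (κ → ℝ) → ℝ} (hw : Wt μ w)
    {Ψ Φ : (κ → ℝ) → ℝ} (h' : BM Φ) (h0 : ∀ z, 0 ≤ Ψ z) (hle : ∀ z, Ψ z ≤ Φ z) :
    ex μ w Ψ ≤ ex μ w Φ := by
  unfold ex
  refine div_le_div_of_nonneg_right ?_ hw.tot_pos.le
  refine integral_mono_of_nonneg (Filter.Eventually.of_forall fun z =>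
    mul_nonneg (hw.pos z).le (h0 z)) (hw.int_mul h') (Filter.Eventually.of_forall fun z =>
    mul_le_mul_of_nonneg_left (hle z) (hw.pos z).le)

/-- **The linear coefficients of the bonds of a hidden row in `L²`.** -/
theorem dth_U (hν : IsFiniteMeasure ν) (h0 : ν ≠ 0) (hA : AmU a η) (hr : Measurable r)
    (hrη : ∀ θ, |r θ - 1| ≤ η) (hx0 : 0 ≤ x) (hx1 : x ≤ 1) (BL : Finset LB) (FL : Finset LF)
    {S S1 : Finset (Fin n)} (hS : S ⊆ S1) {i0 : Fin n} (hi0 : i0 ∉ S)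
    (hne : (S1 \ S).Nonempty) :
    exU n ν b cB cF a x (DthU n ν b cB cF a x (1 - (1 - x) * r0) (Kset S BL FL) r S i0) ≤
      2 * (8 * (1 + η) ^ 2 * √(R2U n ν b cB cF a x (Kset S1 BL FL) Finset.univ) /
          (S1 \ S).card) +
        2 * ((1 - x) ^ 2 * PVU n ν b cB cF a x r0 (Kset S BL FL) r S) := by
  have hη := hA.nn
  have hG := gmU (n := n) b cB cF η hν h0 hA
  have hw := wtU (n := n) (LB := LB) b cB cF hν h0 hA x
  have hra : ∀ θ, |r θ| ≤ 1 + η := fun θ => by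
    have h1 := abs_le.1 (hrη θ)
    rw [abs_le]; constructor <;> linarith [h1.1, h1.2]
  have hSt := H347.U.sitesU (n := n) b cB cF a hν hr hra
  have hK := H347.revK (n := n) BL FL
  have k1 := hSt.w0_l2 hG hK 1 hx0 hx1 (A0 := 1 + η) (fun w => hra w.1) (by linarith) r0 hS
    hi0 hne (T := S) (fun π h j hj => h j hj)
  set K : Finset (Co n LB LF) := Kset S BL FL with hKd
  set w := Zxm (muU ν n) 1 (SU b cB cF a : Co n LB LF → _) x with hwd
  set Vj : Fin n → (Co n LB LF → ℝ) → ℝ := fun j => Va (muU ν n) 1 r0 (SU b cB cF a)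
    (fun (i : Fin n) w => sp w.2 i) (fun w => r w.1) (fun (j : Fin n) w => sp w.2 j) j with hVj
  set Tj : Fin n → (Co n LB LF → ℝ) → ℝ := fun j =>
    Th (muU ν n) 1 x (SU b cB cF a) (fun (i : Fin n) w => sp w.2 i) (fun w => r w.1)
      (fun (j : Fin n) w => sp w.2 j) i0 j with hTj
  set Mj : Fin n → (Co n LB LF → ℝ) → ℝ := fun j => MU n ν b cB cF a x K r j with hMj
  have bV : ∀ j, BM (Vj j) := fun j => hSt.bm_Va hG 1 r0 j
  have bT : ∀ j, BM (Tj j) := fun j => (hSt.eqv hG 1 x).bm i0 j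
  have bM : ∀ j, BM (Mj j) := fun j => hw.bm_cx K (hSt.bm_av hG 1 j)
  have k1' : ∑ j ∈ S, ex (g1 _) w (fun z => (cx (g1 _) K w (Tj j) z -
      (1 - (1 - x) * r0) * Mj j z - (1 - x) * cx (g1 _) K w (Vj j) z) ^ 2) ≤
      8 * (1 + η) ^ 2 * √(R2U n ν b cB cF a x (Kset S1 BL FL) Finset.univ) /
        (S1 \ S).card := k1
  have b1 : ∀ j, BM fun z => cx (g1 _) K w (Tj j) z - (1 - (1 - x) * r0) * Mj j z := fun j =>
    (hw.bm_cx K (bT j)).sub ((BM.const _).mul (bM j))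
  have e1 : ∀ j ∈ S, ex (g1 _) w (fun z => (cx (g1 _) K w (Tj j) z -
      (1 - (1 - x) * r0) * Mj j z) ^ 2) ≤
      2 * ex (g1 _) w (fun z => (cx (g1 _) K w (Tj j) z -
      (1 - (1 - x) * r0) * Mj j z - (1 - x) * cx (g1 _) K w (Vj j) z) ^ 2) +
      2 * ((1 - x) ^ 2 * ex (g1 _) w (fun z => cx (g1 _) K w (Vj j) z ^ 2)) := by
    intro j _
    have b2 : BM fun z => (1 - x) * cx (g1 _) K w (Vj j) z := (BM.const _).mul (hw.bm_cx K (bV j))
    have b3 := ((b1 j).sub b2).sq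
    have b4 : BM fun z => cx (g1 _) K w (Vj j) z ^ 2 := (hw.bm_cx K (bV j)).sq
    rw [← hw.ex_const_mul, ← hw.ex_const_mul, ← hw.ex_const_mul,
      ← hw.ex_add ((BM.const 2).mul b3) ((BM.const 2).mul ((BM.const _).mul b4))]
    refine hw.ex_mono (b1 j).sq (((BM.const 2).mul b3).add
      ((BM.const 2).mul ((BM.const _).mul b4))) fun z => ?_
    nlinarith [sq_nonneg (cx (g1 _) K w (Tj j) z - (1 - (1 - x) * r0) * Mj j z -
      2 * ((1 - x) * cx (g1 _) K w (Vj j) z))]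
  have e2 : ∑ j ∈ S, ex (g1 _) w (fun z => (cx (g1 _) K w (Tj j) z -
      (1 - (1 - x) * r0) * Mj j z) ^ 2) ≤
      2 * ∑ j ∈ S, ex (g1 _) w (fun z => (cx (g1 _) K w (Tj j) z -
      (1 - (1 - x) * r0) * Mj j z - (1 - x) * cx (g1 _) K w (Vj j) z) ^ 2) +
      2 * ((1 - x) ^ 2 * ∑ j ∈ S, ex (g1 _) w (fun z => cx (g1 _) K w (Vj j) z ^ 2)) := by
    refine (Finset.sum_le_sum e1).trans (le_of_eq ?_)
    rw [Finset.sum_add_distrib, ← Finset.mul_sum, ← Finset.mul_sum, ← Finset.mul_sum]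
  have e3 : ∑ j ∈ S, ex (g1 _) w (fun z => cx (g1 _) K w (Vj j) z ^ 2) =
      PVU n ν b cB cF a x r0 K r S := rfl
  rw [e3] at e2
  have e4 : ex (g1 _) w (DthU n ν b cB cF a x (1 - (1 - x) * r0) K r S i0) =
      ∑ j ∈ S, ex (g1 _) w (fun z => (cx (g1 _) K w (Tj j) z -
      (1 - (1 - x) * r0) * Mj j z) ^ 2) := by
    rw [← hw.ex_sum S fun j _ => (b1 j).sq]
    rfl
  show ex (g1 _) w (DthU n ν b cB cF a x (1 - (1 - x) * r0) K r S i0) ≤ _
  rw [e4]
  linarith

/-- **The vector of the row, pointwise, ensemble `U`.** -/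
theorem dvec_ptU (hν : IsFiniteMeasure ν) (h0 : ν ≠ 0) (hA : AmU a η) (hr : Measurable r)
    (hrη : ∀ θ, |r θ - 1| ≤ η) (hx0 : 0 ≤ x) (hx1 : x ≤ 1) {cP : LF → ℝ} (BL : Finset LB)
    (FL : Finset LF) (hP : ∀ l ∈ FL, ∀ θ, cP l * (cF l * a l θ) = cP l ^ 2)
    {S : Finset (Fin n)} {i0 : Fin n} (hi0 : i0 ∉ S) (kp : ℝ) (z : Co n LB LF → ℝ) :
    ∑ e ∈ Rw i0 S BL FL, (cxU n ν b cB cF a x (Kset S BL FL) (fun y =>
        cxU n ν b cB cF a x (Kset (insert i0 S) BL FL)
          (avU n ν b cB cF a (fun w => r w.1 * sp w.2 i0)) y * y e) z -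
        H161.cfr i0 b cB cP kp (fun j => MU n ν b cB cF a x (Kset S BL FL) r j) z e) ^ 2 ≤
      b ^ 2 / n * (∑ l ∈ BL, cB l ^ 2) * DthU n ν b cB cF a x kp (Kset S BL FL) r S i0 z +
      (∑ l ∈ FL, cF l ^ 2) * ((2 * (1 + η) + |kp|) * (1 + η)) ^ 2 := by
  have hη := hA.nn
  have hG := gmU (n := n) b cB cF η hν h0 hA
  have hw := wtU (n := n) (LB := LB) b cB cF hν h0 hA x
  have hra : ∀ θ, |r θ| ≤ 1 + η := fun θ => by
    have h1 := abs_le.1 (hrη θ)
    rw [abs_le]; constructor <;> linarith [h1.1, h1.2]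
  have hne : Nonempty Θ := by
    by_contra hc
    rw [not_nonempty_iff] at hc
    exact h0 (Measure.eq_zero_of_isEmpty ν)
  set K := Kset (LB := LB) (LF := LF) S BL FL with hK
  set K' := Kset (LB := LB) (LF := LF) (insert i0 S) BL FL with hK'
  set h : Θ × Xs n → ℝ := fun w => r w.1 * sp w.2 i0 with hh
  have hR : Rw i0 S BL FL ⊆ K' := by
    rw [hK', ← Rw_union hi0]
    exact Finset.subset_union_right
  have hKK : K ⊆ K' := Kset_mono (Finset.subset_insert i0 S) (Finset.Subset.refl _)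
    (Finset.Subset.refl _)
  have hd : Disjoint K (Rw i0 S BL FL) := Rw_disj hi0
  have bh : Bm h := H347.U.bm_fun_sp hr hra i0
  have hhb : ∀ w, |h w| ≤ 1 + η := fun w => by
    rw [hh]
    simp only
    rw [abs_mul, abs_one_sp w.2 i0, mul_one]
    exact hra w.1
  -- one coordinate
  have key : ∀ e ∈ Rw i0 S BL FL, cxU n ν b cB cF a x K (fun y =>
      cxU n ν b cB cF a x K' (avU n ν b cB cF a h) y * y e) z =
      cxU n ν b cB cF a x K (H161.rsg (muU ν n) 1 (SU b cB cF a) x h (SU b cB cF a e)) z := by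
    intro e he
    have hsub : ({e} : Finset (Co n LB LF)) ⊆ Rw i0 S BL FL := Finset.singleton_subset_iff.2 he
    have h1 := H161.cx_N_lin hG 1 x (R := {e}) (Finset.disjoint_of_subset_right hsub hd) hKK
      (hsub.trans hR) bh (fun _ => 1) z
    have e1 : H161.lc {e} (fun _ => (1 : ℝ)) = fun y : Co n LB LF → ℝ => y e := by
      funext y; unfold H161.lc; simp
    have e2 : H161.YS {e} (fun _ => (1 : ℝ)) (SU b cB cF a) = SU b cB cF a e := by
      funext w; unfold H161.YS; simp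
    rw [e1, e2, one_mul] at h1
    exact h1
  have hsplit : ∑ e ∈ Rw i0 S BL FL, (cxU n ν b cB cF a x K (fun y =>
        cxU n ν b cB cF a x K' (avU n ν b cB cF a h) y * y e) z -
        H161.cfr i0 b cB cP kp (fun j => MU n ν b cB cF a x K r j) z e) ^ 2 =
      ∑ j ∈ S, ∑ l ∈ BL, b ^ 2 / n * cB l ^ 2 * (cxU n ν b cB cF a x K
        (H615.Th (avU n ν b cB cF a) x (fun w => r w.1) (fun w => sp w.2 i0)
          (fun j w => sp w.2 j) j) z - kp * MU n ν b cB cF a x K r j z) ^ 2 +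
      ∑ l ∈ FL, (cxU n ν b cB cF a x K (fun y =>
        cxU n ν b cB cF a x K' (avU n ν b cB cF a h) y * y (fd LB i0 l)) z -
        H161.cfr i0 b cB cP kp (fun j => MU n ν b cB cF a x K r j) z (fd LB i0 l)) ^ 2 := by
    rw [H347.sum_Rw' hi0 _ (fun j l => b ^ 2 / n * cB l ^ 2 * (cxU n ν b cB cF a x K
        (H615.Th (avU n ν b cB cF a) x (fun w => r w.1) (fun w => sp w.2 i0)
          (fun j w => sp w.2 j) j) z - kp * MU n ν b cB cF a x K r j z) ^ 2)]
    intro p hp hpS l hl'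
    have hmem : bd LF p l ∈ Rw i0 S BL FL := (bd_memR p l).2 ⟨⟨hp, hpS⟩, hl'⟩
    rw [key _ hmem, H161.cfr_bd]
    have e3 : H161.rsg (muU ν n) 1 (SU b cB cF a) x h (SU b cB cF a (bd LF p l)) =
        fun y => (b / √n * cB l) * H615.Th (avU n ν b cB cF a) x (fun w => r w.1)
          (fun w => sp w.2 i0) (fun j w => sp w.2 j) (oth i0 p) y := by
      funext y
      unfold H161.rsg H615.Th
      have f1 : (fun ω => h ω * SU b cB cF a (bd LF p l) ω) =
          fun ω => (b / √n * cB l) * (r ω.1 * sp ω.2 (oth i0 p)) := by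
        funext ω
        rw [H585.U.SU_row b cB cF a hp, hh]
        have := sp_mul_self ω.2 i0
        calc r ω.1 * sp ω.2 i0 * (b / √n * cB l * (sp ω.2 i0 * sp ω.2 (oth i0 p)))
            = (b / √n * cB l) * (r ω.1 * sp ω.2 (oth i0 p)) * (sp ω.2 i0 * sp ω.2 i0) := by
              ring
          _ = _ := by rw [this, mul_one]
      have f2 : (fun ω => SU b cB cF a (bd LF p l) ω) =
          fun ω => (b / √n * cB l) * (sp ω.2 i0 * sp ω.2 (oth i0 p)) := by
        funext ω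
        rw [H585.U.SU_row b cB cF a hp]
      rw [f1, show SU b cB cF a (bd LF p l) = fun ω => SU b cB cF a (bd LF p l) ω from rfl,
        f2, H196.av_mul, H196.av_mul]
      show _ = b / √n * cB l * (avm _ _ _ _ _ - (1 - x) * (avm _ _ _ _ _ * avm _ _ _ _ _))
      ring
    rw [e3]
    have e4 : cxU n ν b cB cF a x K (fun y => (b / √n * cB l) *
        H615.Th (avU n ν b cB cF a) x (fun w => r w.1)
          (fun w => sp w.2 i0) (fun j w => sp w.2 j) (oth i0 p) y) z =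
        (b / √n * cB l) * cxU n ν b cB cF a x K (H615.Th (avU n ν b cB cF a) x
          (fun w => r w.1) (fun w => sp w.2 i0) (fun j w => sp w.2 j) (oth i0 p)) z :=
      H347.cx_cmul _ _ _ _ _
    rw [e4, ← div_sqrt_sq]
    ring
  rw [hsplit]
  refine add_le_add (le_of_eq ?_) ?_
  · unfold DthU
    rw [Finset.mul_sum]
    refine Finset.sum_congr rfl fun j _ => ?_
    rw [Finset.mul_sum, Finset.sum_mul]
  · rw [Finset.sum_mul]
    refine Finset.sum_le_sum fun l hl => ?_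
    have hmem : fd LB i0 l ∈ Rw i0 S BL FL := (fd_memR i0 l).2 ⟨rfl, hl⟩
    rw [key _ hmem, H161.cfr_fd]
    obtain ⟨θ0⟩ := hne
    -- the plain coefficient
    have hcP : |cP l| ≤ |cF l| * (1 + η) := by
      have h1 := hP l hl θ0
      by_cases hc : cP l = 0
      · rw [hc, abs_zero]; positivity
      · have h2 : cF l * a l θ0 = cP l := by
          have : cP l * (cF l * a l θ0) = cP l * cP l := by rw [h1]; ring
          exact mul_left_cancel₀ hc this
        rw [← h2, abs_mul]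
        exact mul_le_mul_of_nonneg_left (hA.abs l θ0) (abs_nonneg _)
    -- the coefficient of the field
    have hSb : ∀ w, |SU b cB cF a (fd LB i0 l) w| ≤ |cF l| * (1 + η) := fun w => by
      rw [SU_fd]
      have : |sp w.2 i0| = 1 := abs_one_sp w.2 i0
      rw [abs_mul, abs_mul, this, mul_one]
      exact mul_le_mul_of_nonneg_left (hA.abs l w.1) (abs_nonneg _)
    have bS : Bm (SU b cB cF a (fd LB i0 l)) := hG.bS _
    have hav : ∀ y, |H161.rsg (muU ν n) 1 (SU b cB cF a) x h (SU b cB cF a (fd LB i0 l)) y| ≤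
        2 * (1 + η) * (|cF l| * (1 + η)) := by
      intro y
      unfold H161.rsg
      have h1 : |avm (muU ν n) 1 (SU b cB cF a) (fun ω => h ω * SU b cB cF a (fd LB i0 l) ω) y| ≤
          (1 + η) * (|cF l| * (1 + η)) :=
        hG.abs_av_le 1 (bh.mul bS).1 (fun w => by
          rw [abs_mul]
          exact mul_le_mul (hhb w) (hSb w) (abs_nonneg _) (by linarith)) y
      have h2 : |avm (muU ν n) 1 (SU b cB cF a) h y| ≤ 1 + η := hG.abs_av_le 1 bh.1 hhb y
      have h3 : |avm (muU ν n) 1 (SU b cB cF a) (SU b cB cF a (fd LB i0 l)) y| ≤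
          |cF l| * (1 + η) := hG.abs_av_le 1 bS.1 hSb y
      have h4 : |(1 - x) * (avm (muU ν n) 1 (SU b cB cF a) h y *
          avm (muU ν n) 1 (SU b cB cF a) (SU b cB cF a (fd LB i0 l)) y)| ≤
          (1 + η) * (|cF l| * (1 + η)) := by
        rw [abs_mul, abs_mul, abs_of_nonneg (by linarith : 0 ≤ 1 - x)]
        have h5 := mul_le_mul h2 h3 (abs_nonneg _) (by linarith : (0 : ℝ) ≤ 1 + η)
        have h6 : (1 - x) * (|avm (muU ν n) 1 (SU b cB cF a) h y| *
          |avm (muU ν n) 1 (SU b cB cF a) (SU b cB cF a (fd LB i0 l)) y|) ≤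
          1 * ((1 + η) * (|cF l| * (1 + η))) :=
          mul_le_mul (by linarith) h5 (by positivity) zero_le_one
        linarith
      calc _ ≤ _ := abs_sub _ _
        _ ≤ (1 + η) * (|cF l| * (1 + η)) + (1 + η) * (|cF l| * (1 + η)) := add_le_add h1 h4
        _ = _ := by ring
    have hcx : |cxU n ν b cB cF a x K (H161.rsg (muU ν n) 1 (SU b cB cF a) x h
        (SU b cB cF a (fd LB i0 l))) z| ≤ 2 * (1 + η) * (|cF l| * (1 + η)) := by
      have bR : BM (H161.rsg (muU ν n) 1 (SU b cB cF a) x h (SU b cB cF a (fd LB i0 l))) :=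
        (H347.bm hG 1 (bh.mul bS)).sub ((BM.const _).mul ((H347.bm hG 1 bh).mul
          (H347.bm hG 1 bS)))
      exact hw.abs_cx_le K bR hav z
    have hkp : |kp * cP l| ≤ |kp| * (|cF l| * (1 + η)) := by
      rw [abs_mul]
      exact mul_le_mul_of_nonneg_left hcP (abs_nonneg _)
    have h7 := (abs_sub (cxU n ν b cB cF a x K (H161.rsg (muU ν n) 1 (SU b cB cF a) x h
        (SU b cB cF a (fd LB i0 l))) z) (kp * cP l)).trans (add_le_add hcx hkp)
    have h8 := pow_le_pow_left₀ (abs_nonneg _) h7 2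
    rw [sq_abs] at h8
    refine h8.trans (le_of_eq ?_)
    have h9 : |cF l| ^ 2 = cF l ^ 2 := sq_abs _
    calc (2 * (1 + η) * (|cF l| * (1 + η)) + |kp| * (|cF l| * (1 + η))) ^ 2
        = |cF l| ^ 2 * ((2 * (1 + η) + |kp|) * (1 + η)) ^ 2 := by ring
      _ = _ := by rw [h9]

/-- **The vector of the row in the mean, ensemble `U`.** -/
theorem dvec_U (hν : IsFiniteMeasure ν) (h0 : ν ≠ 0) (hA : AmU a η) (hr : Measurable r)
    (hrη : ∀ θ, |r θ - 1| ≤ η) (hx0 : 0 ≤ x) (hx1 : x ≤ 1) {cP : LF → ℝ} (BL : Finset LB)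
    (FL : Finset LF) (hP : ∀ l ∈ FL, ∀ θ, cP l * (cF l * a l θ) = cP l ^ 2)
    {S S1 : Finset (Fin n)} (hS : S ⊆ S1) {i0 : Fin n} (hi0 : i0 ∉ S)
    (hne : (S1 \ S).Nonempty) :
    exU n ν b cB cF a x (fun z => ∑ e ∈ Rw i0 S BL FL,
        (cxU n ν b cB cF a x (Kset S BL FL) (fun y =>
        cxU n ν b cB cF a x (Kset (insert i0 S) BL FL)
          (avU n ν b cB cF a (fun w => r w.1 * sp w.2 i0)) y * y e) z -
        H161.cfr i0 b cB cP (1 - (1 - x) * r0)
          (fun j => MU n ν b cB cF a x (Kset S BL FL) r j) z e) ^ 2) ≤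
      b ^ 2 / n * (∑ l ∈ BL, cB l ^ 2) *
        (2 * (8 * (1 + η) ^ 2 * √(R2U n ν b cB cF a x (Kset S1 BL FL) Finset.univ) /
          (S1 \ S).card) +
        2 * ((1 - x) ^ 2 * PVU n ν b cB cF a x r0 (Kset S BL FL) r S)) +
      (∑ l ∈ FL, cF l ^ 2) * ((2 * (1 + η) + |1 - (1 - x) * r0|) * (1 + η)) ^ 2 := by
  have hη := hA.nn
  have hG := gmU (n := n) b cB cF η hν h0 hA
  have hw := wtU (n := n) (LB := LB) b cB cF hν h0 hA x
  have hra : ∀ θ, |r θ| ≤ 1 + η := fun θ => by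
    have h1 := abs_le.1 (hrη θ)
    rw [abs_le]; constructor <;> linarith [h1.1, h1.2]
  have hSt := H347.U.sitesU (n := n) b cB cF a hν hr hra
  have k1 := dth_U (r0 := r0) (b := b) (cB := cB) (cF := cF) hν h0 hA hr hrη hx0 hx1 BL FL hS hi0 hne
  set K : Finset (Co n LB LF) := Kset S BL FL with hKd
  set w := Zxm (muU ν n) 1 (SU b cB cF a : Co n LB LF → _) x with hwd
  have bD : BM (DthU n ν b cB cF a x (1 - (1 - x) * r0) K r S i0) := by
    refine BM.sum S fun j _ => ((hw.bm_cx K ?_).sub ((BM.const _).mul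
      (hw.bm_cx K (hSt.bm_av hG 1 j)))).sq
    exact (hSt.eqv hG 1 x).bm i0 j
  set D := DthU n ν b cB cF a x (1 - (1 - x) * r0) K r S i0 with hD
  have hτ0 : 0 ≤ b ^ 2 / n * ∑ l ∈ BL, cB l ^ 2 :=
    mul_nonneg (div_nonneg (sq_nonneg _) (Nat.cast_nonneg _))
      (Finset.sum_nonneg fun _ _ => sq_nonneg _)
  set τ := b ^ 2 / n * ∑ l ∈ BL, cB l ^ 2 with hτ
  set v := (∑ l ∈ FL, cF l ^ 2) * ((2 * (1 + η) + |1 - (1 - x) * r0|) * (1 + η)) ^ 2 with hv
  refine (ex_le_nn hw (((BM.const τ).mul bD).add (BM.const v)) (fun z =>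
    Finset.sum_nonneg fun _ _ => sq_nonneg _) fun z => dvec_ptU hν h0 hA hr hrη hx0 hx1 BL FL hP hi0
      (1 - (1 - x) * r0) z).trans ?_
  rw [hw.ex_add ((BM.const τ).mul bD) (BM.const v), hw.ex_const_mul, H615.ex_const hw]
  have k2 := mul_le_mul_of_nonneg_left k1 hτ0
  have e5 : ex (g1 _) w D = exU n ν b cB cF a x (DthU n ν b cB cF a x (1 - (1 - x) * r0) K r S i0) :=
    rfl
  rw [e5]
  linarith

end

end Vale.Agent.P146.H646
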