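import Mathlib.MeasureTheory.Constructions.Pi
import Mathlib.MeasureTheory.Integral.Prod
import Mathlib.MeasureTheory.Integral.Bochner.Basic
import Mathlib.Tactic

/-! Block conditioning on a product space (P146).

`glue K z z'` has the coordinates of `z` on `K` and those of `z'` off `K`.
`cx μ K w Ψ z` is the conditional mean of `Ψ` given the coordinates in `K` under the law with
density proportional to `w` with respect to the product measure; it is a function on the SAME
space, depending on the coordinates in `K` only. -/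

open MeasureTheory

namespace Vale.Agent.P146.H646

set_option linter.unusedSectionVars false

variable {κ : Type*} [Fintype κ] [DecidableEq κ]

/-- coordinates of `z` on `K`, of `z'` off `K`. -/
def glue (K : Finset κ) (z z' : κ → ℝ) : κ → ℝ := fun e => if e ∈ K then z e else z' e

@[simp] lemma glue_self (K : Finset κ) (z : κ → ℝ) : glue K z z = z := by
  funext e; simp [glue]

lemma glue_mem {K : Finset κ} {e : κ} (h : e ∈ K) (z z' : κ → ℝ) : glue K z z' e = z e := by
  simp [glue, h]

lemma glue_not_mem {K : Finset κ} {e : κ} (h : e ∉ K) (z z' : κ → ℝ) : glue K z z' e = z' e := by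
  simp [glue, h]

@[simp] lemma glue_glue_left (K : Finset κ) (z z' z'' : κ → ℝ) :
    glue K (glue K z z') z'' = glue K z z'' := by
  funext e; by_cases h : e ∈ K <;> simp [glue, h]

@[simp] lemma glue_glue_right (K : Finset κ) (z z' z'' : κ → ℝ) :
    glue K z (glue K z' z'') = glue K z z'' := by
  funext e; by_cases h : e ∈ K <;> simp [glue, h]

lemma glue_glue_left_of_subset {K K' : Finset κ} (hK : K ⊆ K') (z z' z'' : κ → ℝ) :
    glue K (glue K' z z') z'' = glue K z z'' := by
  funext e
  by_cases h : e ∈ K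
  · simp [glue, h, hK h]
  · simp [glue, h]

lemma glue_glue_of_subset {K K' : Finset κ} (hK : K ⊆ K') (z z' z'' : κ → ℝ) :
    glue K' (glue K z z') z'' = glue K z (glue K' z' z'') := by
  funext e
  by_cases h : e ∈ K
  · simp [glue, h, hK h]
  · by_cases h' : e ∈ K' <;> simp [glue, h, h']

lemma glue_univ (z z' : κ → ℝ) : glue Finset.univ z z' = z := by
  funext e; simp [glue]

lemma glue_empty (z z' : κ → ℝ) : glue (∅ : Finset κ) z z' = z' := by
  funext e; simp [glue]

lemma measurable_glue (K : Finset κ) :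
    Measurable (fun p : (κ → ℝ) × (κ → ℝ) => glue K p.1 p.2) := by
  refine measurable_pi_lambda _ fun e => ?_
  by_cases h : e ∈ K
  · simp only [glue, h, if_true]
    exact (measurable_pi_apply e).comp measurable_fst
  · simp only [glue, h, if_false]
    exact (measurable_pi_apply e).comp measurable_snd

lemma measurable_glue_right (K : Finset κ) (z : κ → ℝ) : Measurable (fun z' => glue K z z') :=
  (measurable_glue K).comp (measurable_const.prodMk measurable_id)

lemma measurable_glue_left (K : Finset κ) (z' : κ → ℝ) : Measurable (fun z => glue K z z') :=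
  (measurable_glue K).comp (measurable_id.prodMk measurable_const)

variable (μ : κ → Measure ℝ) [∀ e, IsProbabilityMeasure (μ e)]

/-- exchanging the coordinates off `K` preserves the product of two copies. -/
theorem mp_swap (K : Finset κ) :
    MeasurePreserving (fun p : (κ → ℝ) × (κ → ℝ) => (glue K p.1 p.2, glue K p.2 p.1))
      ((Measure.pi μ).prod (Measure.pi μ)) ((Measure.pi μ).prod (Measure.pi μ)) := by
  have h1 := measurePreserving_arrowProdEquivProdArrow ℝ ℝ κ μ μ
  have h2 : MeasurePreserving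
      (fun (a : κ → ℝ × ℝ) e => (if e ∈ K then id else Prod.swap) (a e))
      (Measure.pi fun e => (μ e).prod (μ e)) (Measure.pi fun e => (μ e).prod (μ e)) := by
    refine measurePreserving_pi _ _ fun e => ?_
    by_cases h : e ∈ K
    · simp only [h, if_true]
      exact MeasurePreserving.id _
    · simp only [h, if_false]
      exact Measure.measurePreserving_swap
  have h3 := (h1.comp h2).comp (h1.symm)
  convert h3 using 1
  funext p
  refine Prod.ext ?_ ?_
  · funext e
    by_cases h : e ∈ K <;>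
      simp [glue, h, MeasurableEquiv.arrowProdEquivProdArrow, Equiv.arrowProdEquivProdArrow]
  · funext e
    by_cases h : e ∈ K <;>
      simp [glue, h, MeasurableEquiv.arrowProdEquivProdArrow, Equiv.arrowProdEquivProdArrow]

theorem mp_glue (K : Finset κ) :
    MeasurePreserving (fun p : (κ → ℝ) × (κ → ℝ) => glue K p.1 p.2)
      ((Measure.pi μ).prod (Measure.pi μ)) (Measure.pi μ) :=
  measurePreserving_fst.comp (mp_swap μ K)

/-- integrating a function of the glued point. -/
theorem integral_glue (K : Finset κ) {f : (κ → ℝ) → ℝ} (hf : Integrable f (Measure.pi μ)) :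
    ∫ z, ∫ z', f (glue K z z') ∂(Measure.pi μ) ∂(Measure.pi μ) = ∫ z, f z ∂(Measure.pi μ) := by
  have h := mp_glue μ K
  have h1 : Integrable (fun p : (κ → ℝ) × (κ → ℝ) => f (glue K p.1 p.2))
      ((Measure.pi μ).prod (Measure.pi μ)) := h.integrable_comp_of_integrable hf
  rw [← integral_prod _ h1]
  have h2 : ∫ z, f z ∂(Measure.pi μ)
      = ∫ z, f z ∂(((Measure.pi μ).prod (Measure.pi μ)).map
        (fun p : (κ → ℝ) × (κ → ℝ) => glue K p.1 p.2)) := by rw [h.map_eq]
  rw [h2, integral_map h.measurable.aemeasurable]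
  rw [h.map_eq]; exact hf.aestronglyMeasurable

theorem integrable_glue (K : Finset κ) {f : (κ → ℝ) → ℝ} (hf : Integrable f (Measure.pi μ)) :
    Integrable (fun p : (κ → ℝ) × (κ → ℝ) => f (glue K p.1 p.2))
      ((Measure.pi μ).prod (Measure.pi μ)) := (mp_glue μ K).integrable_comp_of_integrable hf

/-- `Q` depends only on the coordinates in `K`. -/
def Dep (K : Finset κ) (Q : (κ → ℝ) → ℝ) : Prop := ∀ z z', Q (glue K z z') = Q z

lemma Dep.mono {K K' : Finset κ} (hK : K ⊆ K') {Q : (κ → ℝ) → ℝ} (h : Dep K Q) : Dep K' Q := by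
  intro z z'
  rw [← h (glue K' z z') z, glue_glue_left_of_subset hK, glue_self]

/-- admissible weights: positive, measurable, all sections integrable. -/
structure Wt (w : (κ → ℝ) → ℝ) : Prop where
  pos : ∀ z, 0 < w z
  meas : Measurable w
  sec : ∀ (K : Finset κ) (z : κ → ℝ), Integrable (fun z' => w (glue K z z')) (Measure.pi μ)

/-- bounded measurable functions. -/
structure BM (Ψ : (κ → ℝ) → ℝ) : Prop where
  meas : Measurable Ψ
  bd : ∃ C, ∀ z, |Ψ z| ≤ C

/-- the marginal weight of the coordinates in `K`. -/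
noncomputable def wn (K : Finset κ) (w : (κ → ℝ) → ℝ) (z : κ → ℝ) : ℝ :=
  ∫ z', w (glue K z z') ∂(Measure.pi μ)

/-- conditional mean given the coordinates in `K` under the law with density prop. to `w`. -/
noncomputable def cx (K : Finset κ) (w Ψ : (κ → ℝ) → ℝ) (z : κ → ℝ) : ℝ :=
  (∫ z', w (glue K z z') * Ψ (glue K z z') ∂(Measure.pi μ)) / wn μ K w z

/-- mean under the law with density prop. to `w`. -/
noncomputable def ex (w Ψ : (κ → ℝ) → ℝ) : ℝ :=
  (∫ z, w z * Ψ z ∂(Measure.pi μ)) / ∫ z, w z ∂(Measure.pi μ)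

variable {μ} {w Ψ Φ Q : (κ → ℝ) → ℝ} {K K' : Finset κ}

namespace BM

lemma const (c : ℝ) : BM (fun _ : κ → ℝ => c) := ⟨measurable_const, |c|, fun _ => le_rfl⟩

lemma mul (h : BM Ψ) (h' : BM Φ) : BM (fun z => Ψ z * Φ z) := by
  obtain ⟨C, hC⟩ := h.bd
  obtain ⟨C', hC'⟩ := h'.bd
  refine ⟨h.meas.mul h'.meas, C * C', fun z => ?_⟩
  rw [abs_mul]
  exact mul_le_mul (hC z) (hC' z) (abs_nonneg _) ((abs_nonneg _).trans (hC z))

lemma add (h : BM Ψ) (h' : BM Φ) : BM (fun z => Ψ z + Φ z) := by
  obtain ⟨C, hC⟩ := h.bd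
  obtain ⟨C', hC'⟩ := h'.bd
  exact ⟨h.meas.add h'.meas, C + C', fun z => (abs_add_le _ _).trans (add_le_add (hC z) (hC' z))⟩

lemma neg (h : BM Ψ) : BM (fun z => -Ψ z) := by
  obtain ⟨C, hC⟩ := h.bd
  exact ⟨h.meas.neg, C, fun z => by rw [abs_neg]; exact hC z⟩

lemma sub (h : BM Ψ) (h' : BM Φ) : BM (fun z => Ψ z - Φ z) := by
  simpa only [sub_eq_add_neg] using h.add h'.neg

lemma sum {ι : Type*} (s : Finset ι) {f : ι → (κ → ℝ) → ℝ} (h : ∀ i ∈ s, BM (f i)) :
    BM (fun z => ∑ i ∈ s, f i z) := by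
  classical
  induction s using Finset.induction_on with
  | empty => simpa using BM.const (κ := κ) 0
  | insert a s ha ih =>
    simp only [Finset.sum_insert ha]
    exact (h a (Finset.mem_insert_self _ _)).add
      (ih fun i hi => h i (Finset.mem_insert_of_mem hi))

lemma comp {T : (κ → ℝ) → (κ → ℝ)} (hT : Measurable T) (h : BM Ψ) : BM (fun z => Ψ (T z)) := by
  obtain ⟨C, hC⟩ := h.bd
  exact ⟨h.meas.comp hT, C, fun z => hC _⟩

end BM

namespace Wt

variable (hw : Wt μ w)
include hw

lemma int : Integrable w (Measure.pi μ) := by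
  have := hw.sec ∅ 0
  simpa [glue_empty] using this

lemma wn_pos (K : Finset κ) (z : κ → ℝ) : 0 < wn μ K w z := by
  unfold wn
  rw [integral_pos_iff_support_of_nonneg (fun z' => (hw.pos _).le) (hw.sec K z)]
  have : Function.support (fun z' => w (glue K z z')) = Set.univ := by
    ext z'; simp [(hw.pos (glue K z z')).ne']
  rw [this]; simp

lemma tot_pos : 0 < ∫ z, w z ∂(Measure.pi μ) := by
  have := hw.wn_pos ∅ 0
  simpa [wn, glue_empty] using this

lemma sec_mul (K : Finset κ) (z : κ → ℝ) (h : BM Ψ) :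
    Integrable (fun z' => w (glue K z z') * Ψ (glue K z z')) (Measure.pi μ) := by
  obtain ⟨C, hC⟩ := h.bd
  refine Integrable.mul_bdd (c := C) (hw.sec K z) ?_ ?_
  · exact (h.meas.comp (measurable_glue_right K z)).aestronglyMeasurable
  · exact Filter.Eventually.of_forall fun z' => by rw [Real.norm_eq_abs]; exact hC _

lemma int_mul (h : BM Ψ) : Integrable (fun z => w z * Ψ z) (Measure.pi μ) := by
  have := hw.sec_mul ∅ 0 h
  simpa [glue_empty] using this

lemma meas_num (K : Finset κ) (h : BM Ψ) :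
    Measurable (fun z => ∫ z', w (glue K z z') * Ψ (glue K z z') ∂(Measure.pi μ)) := by
  have : StronglyMeasurable (fun p : (κ → ℝ) × (κ → ℝ) =>
      w (glue K p.1 p.2) * Ψ (glue K p.1 p.2)) :=
    ((hw.meas.comp (measurable_glue K)).mul (h.meas.comp (measurable_glue K))).stronglyMeasurable
  exact this.integral_prod_right.measurable

lemma meas_wn (K : Finset κ) : Measurable (wn μ K w) := by
  have := hw.meas_num K (BM.const 1)
  simp only [mul_one] at this
  exact this

/-- the conditional mean of a bounded function is bounded by the same constant. -/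
lemma abs_cx_le (K : Finset κ) (h : BM Ψ) {C : ℝ} (hC : ∀ z, |Ψ z| ≤ C) (z : κ → ℝ) :
    |cx μ K w Ψ z| ≤ C := by
  have hp := hw.wn_pos K z
  unfold cx
  rw [abs_div, abs_of_pos hp, div_le_iff₀ hp]
  refine (abs_integral_le_integral_abs).trans ?_
  unfold wn
  rw [← integral_const_mul]
  refine integral_mono (hw.sec_mul K z h).abs ((hw.sec K z).const_mul C) fun z' => ?_
  show |w (glue K z z') * Ψ (glue K z z')| ≤ C * w (glue K z z')
  rw [abs_mul, abs_of_pos (hw.pos _), mul_comm]
  exact mul_le_mul_of_nonneg_right (hC _) (hw.pos _).le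

lemma bm_cx (K : Finset κ) (h : BM Ψ) : BM (cx μ K w Ψ) := by
  obtain ⟨C, hC⟩ := h.bd
  exact ⟨(hw.meas_num K h).div (hw.meas_wn K), C, fun z => hw.abs_cx_le K h hC z⟩

end Wt

lemma dep_wn (K : Finset κ) : Dep K (wn μ K w) := by
  intro z z'; unfold wn; simp

lemma dep_cx (K : Finset κ) : Dep K (cx μ K w Ψ) := by
  intro z z'; unfold cx; simp [dep_wn K z z']

section main
variable (hw : Wt μ w)
include hw

lemma wn_mul_cx (K : Finset κ) (z : κ → ℝ) : wn μ K w z * cx μ K w Ψ z
    = ∫ z', w (glue K z z') * Ψ (glue K z z') ∂(Measure.pi μ) := by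
  unfold cx
  rw [mul_div_cancel₀ _ (hw.wn_pos K z).ne']

/-- integrating out the coordinates off `K`. -/
theorem integral_wn (hK : Dep K Q) (hQ : BM Q) (h : BM Ψ) :
    ∫ z, w z * (Q z * Ψ z) ∂(Measure.pi μ)
      = ∫ z, Q z * (wn μ K w z * cx μ K w Ψ z) ∂(Measure.pi μ) := by
  rw [← integral_glue μ K (hw.int_mul (hQ.mul h))]
  refine integral_congr_ae (Filter.Eventually.of_forall fun z => ?_)
  show ∫ z', w (glue K z z') * (Q (glue K z z') * Ψ (glue K z z')) ∂(Measure.pi μ)
    = Q z * (wn μ K w z * cx μ K w Ψ z)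
  rw [wn_mul_cx hw, ← integral_const_mul]
  refine integral_congr_ae (Filter.Eventually.of_forall fun z' => ?_)
  show w (glue K z z') * (Q (glue K z z') * Ψ (glue K z z'))
    = Q z * (w (glue K z z') * Ψ (glue K z z'))
  rw [hK z z']; ring

/-- the defining property of the conditional mean. -/
theorem integral_cx (hK : Dep K Q) (hQ : BM Q) (h : BM Ψ) :
    ∫ z, w z * (Q z * cx μ K w Ψ z) ∂(Measure.pi μ) = ∫ z, w z * (Q z * Ψ z) ∂(Measure.pi μ) := by
  have h1 : Dep K (fun z => Q z * cx μ K w Ψ z) := by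
    intro z z'; simp only [hK z z', dep_cx K z z']
  have h2 := integral_wn hw h1 (hQ.mul (hw.bm_cx K h)) (BM.const 1)
  have h3 : ∀ z, cx μ K w (fun _ => (1 : ℝ)) z = 1 := by
    intro z
    unfold cx
    have : (fun z' => w (glue K z z') * (1 : ℝ)) = fun z' => w (glue K z z') := by
      funext z'; ring
    rw [this]
    exact div_self (hw.wn_pos K z).ne'
  simp only [mul_one, h3] at h2
  rw [h2, integral_wn hw hK hQ h]
  refine integral_congr_ae (Filter.Eventually.of_forall fun z => ?_)
  show Q z * cx μ K w Ψ z * wn μ K w z = _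
  ring

/-- same, normalised. -/
theorem ex_cx (hK : Dep K Q) (hQ : BM Q) (h : BM Ψ) :
    ex μ w (fun z => Q z * cx μ K w Ψ z) = ex μ w (fun z => Q z * Ψ z) := by
  unfold ex
  rw [integral_cx hw hK hQ h]

theorem ex_cx' (h : BM Ψ) : ex μ w (cx μ K w Ψ) = ex μ w Ψ := by
  have := ex_cx hw (K := K) (Q := fun _ => 1) (fun _ _ => rfl) (BM.const 1) h
  simpa using this

/-- a factor which depends on `K` only comes out. -/
theorem cx_mul (hK : Dep K Q) (z : κ → ℝ) :
    cx μ K w (fun z => Q z * Ψ z) z = Q z * cx μ K w Ψ z := by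
  unfold cx
  rw [← mul_div_assoc, ← integral_const_mul]
  congr 1
  refine integral_congr_ae (Filter.Eventually.of_forall fun z' => ?_)
  show w (glue K z z') * (Q (glue K z z') * Ψ (glue K z z'))
    = Q z * (w (glue K z z') * Ψ (glue K z z'))
  rw [hK z z']; ring

theorem cx_one (z : κ → ℝ) : cx μ K w (fun _ => (1 : ℝ)) z = 1 := by
  unfold cx
  have : (fun z' => w (glue K z z') * (1 : ℝ)) = fun z' => w (glue K z z') := by
    funext z'; ring
  rw [this]
  exact div_self (hw.wn_pos K z).ne'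

theorem cx_dep (hK : Dep K Q) (z : κ → ℝ) : cx μ K w Q z = Q z := by
  have := cx_mul hw (Ψ := fun _ => 1) hK z
  simp only [mul_one] at this
  rw [this, cx_one hw, mul_one]

theorem cx_add (h : BM Ψ) (h' : BM Φ) (z : κ → ℝ) :
    cx μ K w (fun z => Ψ z + Φ z) z = cx μ K w Ψ z + cx μ K w Φ z := by
  unfold cx
  rw [← add_div, ← integral_add (hw.sec_mul K z h) (hw.sec_mul K z h')]
  congr 1
  refine integral_congr_ae (Filter.Eventually.of_forall fun z' => ?_)
  show w (glue K z z') * (Ψ (glue K z z') + Φ (glue K z z')) = _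
  ring

theorem cx_const_mul (c : ℝ) (z : κ → ℝ) :
    cx μ K w (fun z => c * Ψ z) z = c * cx μ K w Ψ z :=
  cx_mul hw (Q := fun _ => c) (fun _ _ => rfl) z

theorem cx_sub (h : BM Ψ) (h' : BM Φ) (z : κ → ℝ) :
    cx μ K w (fun z => Ψ z - Φ z) z = cx μ K w Ψ z - cx μ K w Φ z := by
  have h1 := cx_add hw (K := K) h (BM.mul (BM.const (-1)) h') z
  rw [cx_const_mul hw] at h1
  have h2 : (fun z => Ψ z - Φ z) = fun z => Ψ z + -1 * Φ z := by funext z; ring
  rw [h2, h1]; ring

theorem cx_sum {ι : Type*} (s : Finset ι) {f : ι → (κ → ℝ) → ℝ} (h : ∀ i ∈ s, BM (f i))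
    (z : κ → ℝ) : cx μ K w (fun z => ∑ i ∈ s, f i z) z = ∑ i ∈ s, cx μ K w (f i) z := by
  classical
  induction s using Finset.induction_on with
  | empty =>
    simp only [Finset.sum_empty]
    have := cx_const_mul hw (K := K) (Ψ := fun _ => 1) 0 z
    simpa using this
  | insert a s ha ih =>
    simp only [Finset.sum_insert ha]
    rw [cx_add hw (h a (Finset.mem_insert_self _ _))
      (BM.sum s fun i hi => h i (Finset.mem_insert_of_mem hi)),
      ih fun i hi => h i (Finset.mem_insert_of_mem hi)]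

theorem cx_mono (h : BM Ψ) (h' : BM Φ) (hle : ∀ z, Ψ z ≤ Φ z) (z : κ → ℝ) :
    cx μ K w Ψ z ≤ cx μ K w Φ z := by
  unfold cx
  refine div_le_div_of_nonneg_right ?_ (hw.wn_pos K z).le
  refine integral_mono (hw.sec_mul K z h) (hw.sec_mul K z h') fun z' => ?_
  exact mul_le_mul_of_nonneg_left (hle _) (hw.pos _).le

/-- Cauchy-Schwarz / Jensen for the conditional mean. -/
theorem cx_sq_le (h : BM Ψ) (z : κ → ℝ) : cx μ K w Ψ z ^ 2 ≤ cx μ K w (fun z => Ψ z ^ 2) z := by
  set c := cx μ K w Ψ z with hc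
  have hsq : BM (fun z => Ψ z ^ 2) := by simpa only [sq] using h.mul h
  have h0 : BM (fun z => (Ψ z ^ 2 + (-(2 * c)) * Ψ z) + c ^ 2) :=
    (hsq.add ((BM.const _).mul h)).add (BM.const _)
  have h1 : 0 ≤ cx μ K w (fun z => (Ψ z ^ 2 + (-(2 * c)) * Ψ z) + c ^ 2) z := by
    have := cx_mono hw (K := K) (BM.const 0) h0 (fun z => by nlinarith [sq_nonneg (Ψ z - c)]) z
    have h2 : cx μ K w (fun _ => (0 : ℝ)) z = 0 := cx_dep hw (Q := fun _ => 0) (fun _ _ => rfl) z
    linarith
  rw [cx_add hw (hsq.add ((BM.const _).mul h)) (BM.const _),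
    cx_add hw hsq ((BM.const _).mul h), cx_const_mul hw,
    cx_dep hw (Q := fun _ => c ^ 2) (fun _ _ => rfl), ← hc] at h1
  nlinarith

/-- tower property. -/
theorem cx_cx (hK : K ⊆ K') (h : BM Ψ) (z : κ → ℝ) :
    cx μ K w (cx μ K' w Ψ) z = cx μ K w Ψ z := by
  unfold cx
  congr 1
  -- the section weight `z' ↦ w (glue K z z')` is again an admissible weight
  have hw' : Wt μ (fun z' => w (glue K z z')) := by
    refine ⟨fun z' => hw.pos _, hw.meas.comp (measurable_glue_right K z), fun L y => ?_⟩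
    have e : (fun z' => w (glue K z (glue L y z')))
        = fun z' => w (glue (K ∪ L) (glue K z y) z') := by
      funext z'
      congr 1
      funext e
      by_cases h1 : e ∈ K
      · simp [glue, h1]
      · by_cases h2 : e ∈ L <;> simp [glue, h1, h2]
    rw [e]
    exact hw.sec _ _
  have hΨ : BM (fun z' => Ψ (glue K z z')) := h.comp (measurable_glue_right K z)
  have h1 := integral_cx hw' (K := K') (Q := fun _ => 1) (fun _ _ => rfl) (BM.const 1) hΨ
  simp only [one_mul] at h1
  rw [← h1]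
  refine integral_congr_ae (Filter.Eventually.of_forall fun z' => ?_)
  show w (glue K z z') * _ = w (glue K z z') * _
  congr 1
  unfold cx wn
  simp only [glue_glue_of_subset hK]

/-- the energy of the conditional means is nondecreasing in the block. -/
theorem ex_cx_sq_mono (hK : K ⊆ K') (h : BM Ψ) :
    ex μ w (fun z => cx μ K w Ψ z ^ 2) ≤ ex μ w (fun z => cx μ K' w Ψ z ^ 2) := by
  have hb := hw.bm_cx K' h
  have hsq : BM (fun z => cx μ K' w Ψ z ^ 2) := by simpa only [sq] using hb.mul hb
  have h1 : ex μ w (fun z => cx μ K w Ψ z ^ 2) ≤ ex μ w (cx μ K w (fun z => cx μ K' w Ψ z ^ 2)) := by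
    unfold ex
    refine div_le_div_of_nonneg_right ?_ hw.tot_pos.le
    have hb1 := hw.bm_cx K h
    refine integral_mono (hw.int_mul (by simpa only [sq] using hb1.mul hb1))
      (hw.int_mul (hw.bm_cx K hsq)) fun z => ?_
    refine mul_le_mul_of_nonneg_left ?_ (hw.pos z).le
    have := cx_sq_le hw (K := K) hb z
    rwa [cx_cx hw hK h] at this
  rwa [ex_cx' hw hsq] at h1

/-- orthogonality of the martingale increments. -/
theorem ex_sub_sq (hK : K ⊆ K') (h : BM Ψ) :
    ex μ w (fun z => (cx μ K' w Ψ z - cx μ K w Ψ z) ^ 2)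
      = ex μ w (fun z => cx μ K' w Ψ z ^ 2) - ex μ w (fun z => cx μ K w Ψ z ^ 2) := by
  have hb := hw.bm_cx K h
  have hb' := hw.bm_cx K' h
  have e1 : ex μ w (fun z => cx μ K w Ψ z * cx μ K' w Ψ z)
      = ex μ w (fun z => cx μ K w Ψ z ^ 2) := by
    have := ex_cx hw (K := K) (Q := cx μ K w Ψ) (dep_cx K) hb (Ψ := cx μ K' w Ψ) hb'
    rw [← this]
    congr 1
    funext z
    rw [cx_cx hw hK h, sq]
  unfold ex at e1 ⊢
  have ht := hw.tot_pos
  rw [← sub_div]
  congr 1
  have e2 : ∫ z, w z * (cx μ K w Ψ z * cx μ K' w Ψ z) ∂(Measure.pi μ)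
      = ∫ z, w z * cx μ K w Ψ z ^ 2 ∂(Measure.pi μ) := by
    have := congrArg (fun t => t * ∫ z, w z ∂(Measure.pi μ)) e1
    simpa [div_mul_cancel₀ _ ht.ne'] using this
  have i1 : Integrable (fun z => w z * cx μ K' w Ψ z ^ 2) (Measure.pi μ) :=
    hw.int_mul (by simpa only [sq] using hb'.mul hb')
  have i2 : Integrable (fun z => w z * (cx μ K w Ψ z * cx μ K' w Ψ z)) (Measure.pi μ) :=
    hw.int_mul (hb.mul hb')
  have i3 : Integrable (fun z => w z * cx μ K w Ψ z ^ 2) (Measure.pi μ) :=
    hw.int_mul (by simpa only [sq] using hb.mul hb)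
  have e3 : (fun z => w z * (cx μ K' w Ψ z - cx μ K w Ψ z) ^ 2)
      = fun z => (w z * cx μ K' w Ψ z ^ 2 - 2 * (w z * (cx μ K w Ψ z * cx μ K' w Ψ z)))
        + w z * cx μ K w Ψ z ^ 2 := by
    funext z; ring
  have i4 : Integrable (fun z => w z * cx μ K' w Ψ z ^ 2
      - 2 * (w z * (cx μ K w Ψ z * cx μ K' w Ψ z))) (Measure.pi μ) := i1.sub (i2.const_mul 2)
  rw [e3, integral_add i4 i3, integral_sub i1 (i2.const_mul 2), integral_const_mul, e2]
  ring

end main

/-- equivariance under a transformation of the coordinates which preserves everything. -/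
theorem cx_equiv (hw : Wt μ w) {T : (κ → ℝ) → (κ → ℝ)}
    (hT : MeasurePreserving T (Measure.pi μ) (Measure.pi μ)) (hwT : ∀ z, w (T z) = w z)
    (hg : ∀ z z', T (glue K z z') = glue K' (T z) (T z')) (h : BM Ψ) (z : κ → ℝ) :
    cx μ K w (fun z => Ψ (T z)) z = cx μ K' w Ψ (T z) := by
  have key : ∀ f : (κ → ℝ) → ℝ, Measurable f →
      ∫ z', f (T z') ∂(Measure.pi μ) = ∫ z', f z' ∂(Measure.pi μ) := by
    intro f hf
    have := integral_map (μ := Measure.pi μ) (φ := T) hT.measurable.aemeasurable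
      (f := f) (by rw [hT.map_eq]; exact hf.aestronglyMeasurable)
    rw [hT.map_eq] at this
    exact this.symm
  unfold cx wn
  congr 1
  · rw [← key (fun z' => w (glue K' (T z) z') * Ψ (glue K' (T z) z'))
      ((hw.meas.comp (measurable_glue_right K' _)).mul (h.meas.comp (measurable_glue_right K' _)))]
    refine integral_congr_ae (Filter.Eventually.of_forall fun z' => ?_)
    show w (glue K z z') * Ψ (T (glue K z z')) = _
    rw [← hwT (glue K z z'), hg]
  · rw [← key (fun z' => w (glue K' (T z) z')) (hw.meas.comp (measurable_glue_right K' _))]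
    refine integral_congr_ae (Filter.Eventually.of_forall fun z' => ?_)
    show w (glue K z z') = _
    rw [← hwT (glue K z z'), hg]

theorem ex_equiv (hw : Wt μ w) {T : (κ → ℝ) → (κ → ℝ)}
    (hT : MeasurePreserving T (Measure.pi μ) (Measure.pi μ)) (hwT : ∀ z, w (T z) = w z)
    (h : Measurable Ψ) : ex μ w (fun z => Ψ (T z)) = ex μ w Ψ := by
  unfold ex
  congr 1
  have := integral_map (μ := Measure.pi μ) (φ := T) hT.measurable.aemeasurable
      (f := fun z => w z * Ψ z) (by rw [hT.map_eq]; exact (hw.meas.mul h).aestronglyMeasurable)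
  rw [hT.map_eq] at this
  rw [this]
  refine integral_congr_ae (Filter.Eventually.of_forall fun z => ?_)
  show w z * Ψ (T z) = w (T z) * Ψ (T z)
  rw [hwT]

end Vale.Agent.P146.H646
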