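import Vale.Agent.P146.H646.RowW
import Vale.Agent.P146.H347.Mod1

/-! Block [W0] (P146) for a Gibbs system over a finite measure space with exchangeable sites.

`⟨·⟩` = Gibbs average, `E` = law with weight `Z ^ x`, `a` = amplitude, `σ i` = spins, `τ j` = the
columns (`τ = σ`: the bonds of the row; `τ = 1`: the own field of the row).
`Th i j = ⟨a τ_j⟩ - (1-x) ⟨a σ_i⟩ ⟨σ_i τ_j⟩`; its conditional mean given the coordinates inside `S`,
`i ∉ S`, is `(1-(1-x) r0) M_j + (1-x) V_j` up to sampling error, where `M_j = E[⟨a τ_j⟩ | F^S]`,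
`V_j = E[r0 ⟨a τ_j⟩ - (1/n) ∑_i ⟨a σ_i⟩⟨σ_i τ_j⟩ | F^S]`. -/

open MeasureTheory ProbabilityTheory

namespace Vale.Agent.P146.H646

open Vale.Agent.P146.H196

set_option linter.unusedSectionVars false

variable {κ s J : Type} [Fintype κ] [DecidableEq κ] [Fintype s] [DecidableEq s] [Fintype J]
variable {Ω : Type} [MeasurableSpace Ω] {m : Measure Ω} {k x M0 : ℝ} {E : κ → Ω → ℝ}

/-- the revealed sets `K S` of a family of site permutations acting on the coordinates. -/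
structure Rev (act : Equiv.Perm s → Equiv.Perm κ) (K : Finset s → Finset κ) : Prop where
  mem : ∀ (π : Equiv.Perm s) (S S' : Finset s), (∀ i, π i ∈ S' ↔ i ∈ S) →
    ∀ c, act π c ∈ K S' ↔ c ∈ K S
  fix : ∀ (π : Equiv.Perm s) (S : Finset s), (∀ i ∈ S, π i = i) → ∀ c ∈ K S, act π c = c
  mono : ∀ S S' : Finset s, S ⊆ S' → K S ⊆ K S'

/-- exchangeable sites: every permutation of the sites lifts to a symmetry of the system which
permutes the spins `σ` and the columns `τ` and fixes the amplitude `a`. -/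
structure Sites (m : Measure Ω) (E : κ → Ω → ℝ) (act : Equiv.Perm s → Equiv.Perm κ)
    (σ : s → Ω → ℝ) (a : Ω → ℝ) (ρ : Equiv.Perm s → Equiv.Perm J) (τ : J → Ω → ℝ) : Prop where
  sym : ∀ π : Equiv.Perm s, ∃ T : Ω → Ω, H347.Sym m E (act π) (fun _ => 1) T ∧
    (∀ i w, σ i (T w) = σ (π i) w) ∧ (∀ w, a (T w) = a w) ∧ ∀ j w, τ j (T w) = τ (ρ π j) w
  ms : ∀ i, Measurable (σ i)
  bs : ∀ i w, |σ i w| ≤ 1
  ma : Measurable a
  ba : ∃ C, ∀ w, |a w| ≤ C
  mt : ∀ j, Measurable (τ j)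
  bt : ∀ j w, |τ j w| ≤ 1

variable {σ : s → Ω → ℝ} {a : Ω → ℝ} {act : Equiv.Perm s → Equiv.Perm κ}
  {K : Finset s → Finset κ} {ρ : Equiv.Perm s → Equiv.Perm J} {τ : J → Ω → ℝ}

lemma ac_one (c : Equiv.Perm κ) (z : κ → ℝ) :
    H347.ac c (fun _ => 1) z = fun e => z (c e) := by
  funext e; simp [H347.ac]

/-- the own field column. -/
lemma Sites.unit (h : Sites m E act σ a ρ τ) :
    Sites m E act σ a (fun _ => (1 : Equiv.Perm Unit)) (fun _ _ => (1 : ℝ)) where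
  sym π := by
    obtain ⟨T, h1, h2, h3, -⟩ := h.sym π
    exact ⟨T, h1, h2, h3, fun _ _ => rfl⟩
  ms := h.ms
  bs := h.bs
  ma := h.ma
  ba := h.ba
  mt _ := measurable_const
  bt _ _ := by simp

lemma Sites.toSym (h : Sites m E act σ a ρ τ) (hK : Rev act K) (k x : ℝ) :
    Sym (H347.g1 κ) (Zxm m k E x) act K where
  mu _ _ := rfl
  wt π z := by
    obtain ⟨T, hT, -⟩ := h.sym π
    rw [← ac_one]
    exact hT.Zx k x z
  mem := hK.mem
  fix := hK.fix
  mono := hK.mono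

lemma Sites.bsig (h : Sites m E act σ a ρ τ) (i : s) : Bm (σ i) := Bm.of (h.ms i) (h.bs i)

lemma Sites.btau (h : Sites m E act σ a ρ τ) (j : J) : Bm (τ j) := Bm.of (h.mt j) (h.bt j)

lemma Sites.bamp (h : Sites m E act σ a ρ τ) : Bm a := by
  obtain ⟨C, hC⟩ := h.ba
  exact Bm.of h.ma hC

/-- the row of the site `i` -/
noncomputable def Th (m : Measure Ω) (k x : ℝ) (E : κ → Ω → ℝ) (σ : s → Ω → ℝ) (a : Ω → ℝ)
    (τ : J → Ω → ℝ) (i : s) (j : J) (z : κ → ℝ) : ℝ :=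
  avm m k E (fun w => a w * τ j w) z
    - (1 - x) * (avm m k E (fun w => a w * σ i w) z * avm m k E (fun w => σ i w * τ j w) z)

/-- the defect of the linear identity, `r0 ⟨a τ_j⟩ - (1/n) ∑_i ⟨a σ_i⟩⟨σ_i τ_j⟩`. -/
noncomputable def Va (m : Measure Ω) (k r0 : ℝ) (E : κ → Ω → ℝ) (σ : s → Ω → ℝ) (a : Ω → ℝ)
    (τ : J → Ω → ℝ) (j : J) (z : κ → ℝ) : ℝ :=
  r0 * avm m k E (fun w => a w * τ j w) z - (Fintype.card s : ℝ)⁻¹ *
    ∑ i, avm m k E (fun w => a w * σ i w) z * avm m k E (fun w => σ i w * τ j w) z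

lemma Sites.eqv (hG : GM m E M0) (h : Sites m E act σ a ρ τ) (k x : ℝ) :
    Eqv act ρ (Th m k x E σ a τ) where
  bm i j := (H347.bm hG k (h.bamp.mul (h.btau j))).sub ((BM.const _).mul
    ((H347.bm hG k (h.bamp.mul (h.bsig i))).mul (H347.bm hG k ((h.bsig i).mul (h.btau j)))))
  eq π i j z := by
    obtain ⟨T, hT, h1, h2, h3⟩ := h.sym π
    unfold Th
    rw [← ac_one, hT.av, hT.av, hT.av]
    simp only [h1, h2, h3]

lemma Sites.bm_av (hG : GM m E M0) (h : Sites m E act σ a ρ τ) (k : ℝ) (j : J) :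
    BM (avm m k E (fun w => a w * τ j w)) := H347.bm hG k (h.bamp.mul (h.btau j))

lemma Sites.bm_tt (hG : GM m E M0) (h : Sites m E act σ a ρ τ) (k : ℝ) (j l : J) :
    BM (avm m k E (fun w => τ j w * τ l w)) := H347.bm hG k ((h.btau j).mul (h.btau l))

lemma Sites.bm_Va (hG : GM m E M0) (h : Sites m E act σ a ρ τ) (k r0 : ℝ) (j : J) :
    BM (Va m k r0 E σ a τ j) :=
  ((BM.const _).mul (h.bm_av hG k j)).sub ((BM.const _).mul (BM.sum _ fun i _ =>
    (H347.bm hG k (h.bamp.mul (h.bsig i))).mul (H347.bm hG k ((h.bsig i).mul (h.btau j)))))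

/-- the average row -/
lemma avg_Th [Nonempty s] (r0 : ℝ) (j : J) (z : κ → ℝ) :
    (Fintype.card s : ℝ)⁻¹ * ∑ i, Th m k x E σ a τ i j z
      = (1 - (1 - x) * r0) * avm m k E (fun w => a w * τ j w) z
        + (1 - x) * Va m k r0 E σ a τ j z := by
  have hn : (Fintype.card s : ℝ) ≠ 0 := by exact_mod_cast Fintype.card_ne_zero
  unfold Th Va
  rw [Finset.sum_sub_distrib, Finset.sum_const, Finset.card_univ, nsmul_eq_mul, ← Finset.mul_sum]
  field_simp
  ring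

/-- a row tested against a fixed vector. -/
lemma Sites.row_sq_le (hG : GM m E M0) (h : Sites m E act σ a ρ τ) (k : ℝ) (hx0 : 0 ≤ x)
    (hx1 : x ≤ 1) {A0 : ℝ} (hA : ∀ w, |a w| ≤ A0) (hA0 : 0 ≤ A0) (i : s) (u : J → ℝ)
    (z : κ → ℝ) :
    (∑ j, u j * Th m k x E σ a τ i j z) ^ 2
      ≤ (2 * A0) ^ 2 * ∑ j, ∑ l, u j * u l * avm m k E (fun w => τ j w * τ l w) z := by
  set c := avm m k E (fun w => a w * σ i w) z with hc
  have hcA : |c| ≤ A0 := by
    refine hG.abs_av_le (h := fun w => a w * σ i w) k (h.ma.mul (h.ms i)) (fun w => ?_) z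
    rw [abs_mul]
    calc |a w| * |σ i w| ≤ A0 * 1 := mul_le_mul (hA w) (h.bs i w) (abs_nonneg _) hA0
      _ = A0 := mul_one _
  set H : Ω → ℝ := fun w => a w - (1 - x) * c * σ i w with hH
  set L : Ω → ℝ := fun w => ∑ j, u j * τ j w with hL
  have hHb : Bm H := h.bamp.sub (Bm.const_mul _ (h.bsig i))
  have hLb : Bm L := Bm.sum _ fun j _ => Bm.const_mul _ (h.btau j)
  have hH1 : ∀ w, |H w| ≤ 2 * A0 := by
    intro w
    have h1 : |(1 - x) * c * σ i w| ≤ A0 := by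
      rw [abs_mul, abs_mul, abs_of_nonneg (by linarith : 0 ≤ 1 - x)]
      have h2 : (1 - x) * |c| ≤ 1 * A0 :=
        mul_le_mul (by linarith) hcA (abs_nonneg _) zero_le_one
      calc (1 - x) * |c| * |σ i w| ≤ (1 * A0) * 1 :=
            mul_le_mul h2 (h.bs i w) (abs_nonneg _) (by linarith)
        _ = A0 := by ring
    calc |H w| ≤ |a w| + |(1 - x) * c * σ i w| := abs_sub _ _
      _ ≤ 2 * A0 := by linarith [hA w]
  have e1 : ∑ j, u j * Th m k x E σ a τ i j z = avm m k E (fun w => H w * L w) z := by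
    have e2 : (fun w => H w * L w) = fun w => ∑ j, u j * ((a w * τ j w)
        - (1 - x) * c * (σ i w * τ j w)) := by
      funext w
      simp only [hH, hL]
      rw [Finset.mul_sum]
      exact Finset.sum_congr rfl fun j _ => by ring
    rw [e2, hG.av_sum k Finset.univ fun j _ => Bm.const_mul _ ((h.bamp.mul (h.btau j)).sub
      (Bm.const_mul _ ((h.bsig i).mul (h.btau j))))]
    refine Finset.sum_congr rfl fun j _ => ?_
    rw [av_mul, hG.av_sub k (h.bamp.mul (h.btau j))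
      (Bm.const_mul _ ((h.bsig i).mul (h.btau j))), av_mul]
    unfold Th
    ring
  have e3 : ∑ j, ∑ l, u j * u l * avm m k E (fun w => τ j w * τ l w) z
      = avm m k E (fun w => L w ^ 2) z := by
    have e4 : (fun w => L w ^ 2) = fun w => ∑ j, ∑ l, u j * u l * (τ j w * τ l w) := by
      funext w
      simp only [hL]
      rw [sq, Finset.sum_mul_sum]
      exact Finset.sum_congr rfl fun j _ => Finset.sum_congr rfl fun l _ => by ring
    rw [e4, hG.av_sum k Finset.univ fun j _ => Bm.sum _ fun l _ =>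
      Bm.const_mul _ ((h.btau j).mul (h.btau l))]
    refine Finset.sum_congr rfl fun j _ => ?_
    rw [hG.av_sum k Finset.univ fun l _ => Bm.const_mul _ ((h.btau j).mul (h.btau l))]
    exact Finset.sum_congr rfl fun l _ => (av_mul _ _ _ _ _ _).symm
  rw [e1, e3]
  refine (hG.av_sq_le k (hHb.mul hLb) z).trans ?_
  rw [← av_mul]
  refine hG.av_mono k ((hHb.mul hLb).pow 2) (Bm.const_mul _ (hLb.pow 2)) (fun w => ?_) z
  rw [mul_pow]
  refine mul_le_mul_of_nonneg_right ?_ (sq_nonneg _)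
  rw [← sq_abs]
  exact pow_le_pow_left₀ (abs_nonneg _) (hH1 w) 2

/-- **[W0], `L²` form.** -/
theorem Sites.w0_l2 (hG : GM m E M0) (h : Sites m E act σ a ρ τ) (hK : Rev act K) (k : ℝ)
    (hx0 : 0 ≤ x) (hx1 : x ≤ 1) {A0 : ℝ} (hA : ∀ w, |a w| ≤ A0) (hA0 : 0 ≤ A0) (r0 : ℝ)
    {S S1 : Finset s} (hS : S ⊆ S1) {i0 : s} (hi0 : i0 ∉ S) (hne : (S1 \ S).Nonempty)
    {T : Finset J} (hT : ∀ π : Equiv.Perm s, (∀ i ∈ S, π i = i) → ∀ j ∈ T, ρ π j = j) :
    ∑ j ∈ T, ex (H347.g1 κ) (Zxm m k E x) (fun z =>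
        (cx (H347.g1 κ) (K S) (Zxm m k E x) (Th m k x E σ a τ i0 j) z
          - (1 - (1 - x) * r0) * cx (H347.g1 κ) (K S) (Zxm m k E x)
              (avm m k E (fun w => a w * τ j w)) z
          - (1 - x) * cx (H347.g1 κ) (K S) (Zxm m k E x) (Va m k r0 E σ a τ j) z) ^ 2)
      ≤ 8 * A0 ^ 2 * Real.sqrt (∑ j, ∑ l, ex (H347.g1 κ) (Zxm m k E x) (fun z =>
          cx (H347.g1 κ) (K S1) (Zxm m k E x) (avm m k E (fun w => τ j w * τ l w)) z ^ 2))
        / (S1 \ S).card := by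
  have hw := H347.wt hG k x
  obtain ⟨i1, hi1⟩ := hne
  have hi1' : i1 ∈ S1 := Finset.sdiff_subset hi1
  have : Nonempty s := ⟨i0⟩
  have hΘ := h.eqv hG k x
  have h1 := row_l2 hw (h.toSym hK k x) hΘ hS hi0 ⟨i1, hi1⟩ hT hi1'
  have h2 := ex_norm hw (fun j => hΘ.bm i1 j) (fun j l => h.bm_tt hG k j l) (C := 2 * A0)
    (fun u z => h.row_sq_le hG k hx0 hx1 hA hA0 i1 u z) (K S1)
  have e1 : ∀ j z, cx (H347.g1 κ) (K S) (Zxm m k E x) (fun z => Th m k x E σ a τ i0 j z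
        - (Fintype.card s : ℝ)⁻¹ * ∑ i, Th m k x E σ a τ i j z) z
      = cx (H347.g1 κ) (K S) (Zxm m k E x) (Th m k x E σ a τ i0 j) z
          - (1 - (1 - x) * r0) * cx (H347.g1 κ) (K S) (Zxm m k E x)
              (avm m k E (fun w => a w * τ j w)) z
          - (1 - x) * cx (H347.g1 κ) (K S) (Zxm m k E x) (Va m k r0 E σ a τ j) z := by
    intro j z
    have e2 : (fun z => Th m k x E σ a τ i0 j z
        - (Fintype.card s : ℝ)⁻¹ * ∑ i, Th m k x E σ a τ i j z)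
        = fun z => (Th m k x E σ a τ i0 j z
          - (1 - (1 - x) * r0) * avm m k E (fun w => a w * τ j w) z)
          - (1 - x) * Va m k r0 E σ a τ j z := by
      funext z
      rw [avg_Th r0]
      ring
    rw [e2, cx_sub hw ((hΘ.bm i0 j).sub ((BM.const _).mul (h.bm_av hG k j)))
      ((BM.const _).mul (h.bm_Va hG k r0 j)), cx_sub hw (hΘ.bm i0 j)
      ((BM.const _).mul (h.bm_av hG k j)), cx_const_mul hw, cx_const_mul hw]
  simp only [e1] at h1
  refine h1.trans ?_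
  have hc : (0 : ℝ) < (S1 \ S).card := by exact_mod_cast Finset.card_pos.2 ⟨i1, hi1⟩
  rw [div_le_div_iff_of_pos_right hc]
  calc 2 * ∑ j, ex (H347.g1 κ) (Zxm m k E x)
        (fun z => cx (H347.g1 κ) (K S1) (Zxm m k E x) (Th m k x E σ a τ i1 j) z ^ 2)
      ≤ 2 * ((2 * A0) ^ 2 * Real.sqrt (∑ j, ∑ l, ex (H347.g1 κ) (Zxm m k E x) (fun z =>
          cx (H347.g1 κ) (K S1) (Zxm m k E x) (avm m k E (fun w => τ j w * τ l w)) z ^ 2))) :=
        mul_le_mul_of_nonneg_left h2 zero_le_two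
    _ = _ := by ring

/-- **[W0], tested form** (input (I2) of the assembly): for every vector `Q` which depends on the
coordinates inside `S` only. -/
theorem Sites.w0_ip (hG : GM m E M0) (h : Sites m E act σ a ρ τ) (hK : Rev act K) (k : ℝ)
    (hx0 : 0 ≤ x) (hx1 : x ≤ 1) {A0 : ℝ} (hA : ∀ w, |a w| ≤ A0) (hA0 : 0 ≤ A0) (r0 : ℝ)
    {S S1 : Finset s} (hS : S ⊆ S1) {i0 : s} (hi0 : i0 ∉ S) (hne : (S1 \ S).Nonempty)
    {T : Finset J} (hT : ∀ π : Equiv.Perm s, (∀ i ∈ S, π i = i) → ∀ j ∈ T, ρ π j = j)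
    {Q : J → (κ → ℝ) → ℝ} (hQ : ∀ j, BM (Q j)) :
    |∑ j ∈ T, ex (H347.g1 κ) (Zxm m k E x) (fun z =>
        (cx (H347.g1 κ) (K S) (Zxm m k E x) (Th m k x E σ a τ i0 j) z
          - (1 - (1 - x) * r0) * cx (H347.g1 κ) (K S) (Zxm m k E x)
              (avm m k E (fun w => a w * τ j w)) z) * Q j z)|
      ≤ (Real.sqrt (8 * A0 ^ 2 * Real.sqrt (∑ j, ∑ l, ex (H347.g1 κ) (Zxm m k E x) (fun z =>
            cx (H347.g1 κ) (K S1) (Zxm m k E x) (avm m k E (fun w => τ j w * τ l w)) z ^ 2))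
          / (S1 \ S).card)
          + (1 - x) * Real.sqrt (∑ j ∈ T, ex (H347.g1 κ) (Zxm m k E x) (fun z =>
            cx (H347.g1 κ) (K S) (Zxm m k E x) (Va m k r0 E σ a τ j) z ^ 2)))
        * Real.sqrt (∑ j ∈ T, ex (H347.g1 κ) (Zxm m k E x) (fun z => Q j z ^ 2)) := by
  classical
  have hw := H347.wt hG k x
  have hΘ := h.eqv hG k x
  have h1 := h.w0_l2 hG hK k hx0 hx1 hA hA0 r0 hS hi0 hne hT
  set X : J → (κ → ℝ) → ℝ := fun j z =>
    cx (H347.g1 κ) (K S) (Zxm m k E x) (Th m k x E σ a τ i0 j) z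
      - (1 - (1 - x) * r0) * cx (H347.g1 κ) (K S) (Zxm m k E x)
          (avm m k E (fun w => a w * τ j w)) z
      - (1 - x) * cx (H347.g1 κ) (K S) (Zxm m k E x) (Va m k r0 E σ a τ j) z with hX
  set W : J → (κ → ℝ) → ℝ := fun j z =>
    cx (H347.g1 κ) (K S) (Zxm m k E x) (Va m k r0 E σ a τ j) z with hW
  have hWb : ∀ j, BM (W j) := fun j => hw.bm_cx _ (h.bm_Va hG k r0 j)
  have hXb : ∀ j, BM (X j) := fun j =>
    ((hw.bm_cx _ (hΘ.bm i0 j)).sub ((BM.const _).mul (hw.bm_cx _ (h.bm_av hG k j)))).sub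
      ((BM.const _).mul (hWb j))
  -- restrict to `T`
  have hip : ∀ X Y : J → (κ → ℝ) → ℝ, ∑ j ∈ T, ex (H347.g1 κ) (Zxm m k E x) (fun z => X j z * Y j z)
      = ip (H347.g1 κ) (Zxm m k E x) (fun j => if j ∈ T then X j else fun _ => 0)
          (fun j => if j ∈ T then Y j else fun _ => 0) := by
    intro X Y
    unfold ip
    rw [← Finset.sum_subset (Finset.subset_univ T)]
    · refine Finset.sum_congr rfl fun j hj => ?_
      simp only [if_pos hj]
    · intro j _ hj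
      simp only [if_neg hj, mul_zero]
      exact hw.ex_zero
  have hbr : ∀ X : J → (κ → ℝ) → ℝ, (∀ j, BM (X j)) →
      ∀ j, BM (if j ∈ T then X j else fun _ => 0) := by
    intro X hX j
    by_cases hj : j ∈ T
    · simp only [if_pos hj]; exact hX j
    · simp only [if_neg hj]; exact BM.const 0
  have hCS : ∀ X Y : J → (κ → ℝ) → ℝ, (∀ j, BM (X j)) → (∀ j, BM (Y j)) →
      |∑ j ∈ T, ex (H347.g1 κ) (Zxm m k E x) (fun z => X j z * Y j z)|
        ≤ Real.sqrt (∑ j ∈ T, ex (H347.g1 κ) (Zxm m k E x) (fun z => X j z ^ 2))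
          * Real.sqrt (∑ j ∈ T, ex (H347.g1 κ) (Zxm m k E x) (fun z => Y j z ^ 2)) := by
    intro X Y hX hY
    have h3 := hw.abs_ip_le (hbr X hX) (hbr Y hY)
    rw [← hip X Y, ← hip X X, ← hip Y Y] at h3
    simpa only [← sq] using h3
  have e1 : ∑ j ∈ T, ex (H347.g1 κ) (Zxm m k E x) (fun z =>
        (cx (H347.g1 κ) (K S) (Zxm m k E x) (Th m k x E σ a τ i0 j) z
          - (1 - (1 - x) * r0) * cx (H347.g1 κ) (K S) (Zxm m k E x)
              (avm m k E (fun w => a w * τ j w)) z) * Q j z)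
      = ∑ j ∈ T, ex (H347.g1 κ) (Zxm m k E x) (fun z => X j z * Q j z)
        + (1 - x) * ∑ j ∈ T, ex (H347.g1 κ) (Zxm m k E x) (fun z => W j z * Q j z) := by
    rw [Finset.mul_sum, ← Finset.sum_add_distrib]
    refine Finset.sum_congr rfl fun j _ => ?_
    rw [← hw.ex_const_mul, ← hw.ex_add ((hXb j).mul (hQ j))
      ((BM.const _).mul ((hWb j).mul (hQ j)))]
    congr 1
    funext z
    simp only [hX, hW]
    ring
  rw [e1, add_mul]
  refine (abs_add_le _ _).trans (add_le_add ?_ ?_)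
  · exact (hCS X Q hXb hQ).trans (mul_le_mul_of_nonneg_right (Real.sqrt_le_sqrt h1)
      (Real.sqrt_nonneg _))
  · rw [abs_mul, abs_of_nonneg (by linarith : 0 ≤ 1 - x), mul_assoc]
    exact mul_le_mul_of_nonneg_left (hCS W Q hWb hQ) (by linarith)

end Vale.Agent.P146.H646
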