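import Vale.Agent.P146.H646.W0
import Vale.Agent.P146.H475.Amp2

/-! The amplitude identity in `L²` form: bound of the defect `Va` of the linear identity, conditioned
on coordinates which do not contain the modulated field. -/

open MeasureTheory ProbabilityTheory

namespace Vale.Agent.P146.H646

open Vale.Agent.P146.H196 Vale.Agent.P146.H475 Vale.Agent.P157.Lv

set_option linter.unusedSectionVars false

variable {κ s J X : Type} [Fintype κ] [DecidableEq κ] [Fintype s] [DecidableEq s] [Fintype J]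
  [Fintype X] [MeasurableSpace X] [MeasurableSingletonClass X] [Nonempty X]
variable {S0 : κ → X → ℝ} {σ0 : s → X → ℝ} {τ0 : J → X → ℝ} {lam sc η c M0 x r0 : ℝ}

lemma BM.eg {κ : Type} [Fintype κ] {Ψ : (κ → ℝ) → ℝ} (h : BM Ψ) : EG Ψ := by
  obtain ⟨C, hC⟩ := h.bd
  exact EG.of_bdd h.meas hC

/-- the part of the defect where the amplitude moves. -/
noncomputable def Vi (r0 : ℝ) (m : Measure (ℝ × X)) (E : κ ⊕ s → ℝ × X → ℝ) (σ0 : s → X → ℝ)
    (η : ℝ) (T : X → ℝ) (z : κ ⊕ s → ℝ) : ℝ :=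
  r0 * avm m 1 E (fun p => T p.2 * ins η p.1 * al η p.1) z - (Fintype.card s : ℝ)⁻¹ *
    ∑ i, avm m 1 E (fun p => T p.2 * ins η p.1 * σ0 i p.2) z *
      avm m 1 E (fun p => al η p.1 * σ0 i p.2) z

/-- the part of the defect where the amplitude is stuck. -/
noncomputable def Vr (r0 : ℝ) (m : Measure (ℝ × X)) (E : κ ⊕ s → ℝ × X → ℝ) (σ0 : s → X → ℝ)
    (η : ℝ) (T : X → ℝ) (z : κ ⊕ s → ℝ) : ℝ :=
  r0 * avm m 1 E (fun p => T p.2 * (1 - ins η p.1) * al η p.1) z - (Fintype.card s : ℝ)⁻¹ *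
    ∑ i, avm m 1 E (fun p => T p.2 * (1 - ins η p.1) * σ0 i p.2) z *
      avm m 1 E (fun p => al η p.1 * σ0 i p.2) z

section

variable {m : Measure (ℝ × X)} {E : κ ⊕ s → ℝ × X → ℝ} (hG : GM m E M0) (hη : 0 ≤ η)
include hG hη

lemma bm_Vi (T : X → ℝ) : BM (Vi r0 m E σ0 η T) :=
  ((BM.const _).mul (H347.bm hG 1 (((bm_snd T).mul (bm_ins η)).mul (bm_al hη)))).sub
    ((BM.const _).mul (BM.sum _ fun i _ =>
      (H347.bm hG 1 (((bm_snd T).mul (bm_ins η)).mul (bm_snd (σ0 i)))).mul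
        (H347.bm hG 1 ((bm_al hη).mul (bm_snd (σ0 i))))))

lemma bm_Vr (T : X → ℝ) : BM (Vr r0 m E σ0 η T) :=
  ((BM.const _).mul (H347.bm hG 1
    (((bm_snd T).mul ((Bm.const 1).sub (bm_ins η))).mul (bm_al hη)))).sub
    ((BM.const _).mul (BM.sum _ fun i _ =>
      (H347.bm hG 1 (((bm_snd T).mul ((Bm.const 1).sub (bm_ins η))).mul (bm_snd (σ0 i)))).mul
        (H347.bm hG 1 ((bm_al hη).mul (bm_snd (σ0 i))))))

/-- splitting of the defect. -/
lemma Va_eq (j : J) (z : κ ⊕ s → ℝ) :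
    Va m 1 r0 E (fun i p => σ0 i p.2) (fun p => al η p.1) (fun j p => τ0 j p.2) j z
      = Vi r0 m E σ0 η (τ0 j) z + Vr r0 m E σ0 η (τ0 j) z := by
  have bT := bm_snd (τ0 j)
  have bi := bm_ins (X := X) η
  have e1 : avm m 1 E (fun p => al η p.1 * τ0 j p.2) z
      = avm m 1 E (fun p => τ0 j p.2 * ins η p.1 * al η p.1) z
        + avm m 1 E (fun p => τ0 j p.2 * (1 - ins η p.1) * al η p.1) z := by
    rw [← hG.av_add 1 ((bT.mul bi).mul (bm_al hη))
      ((bT.mul ((Bm.const 1).sub bi)).mul (bm_al hη))]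
    congr 1
    funext p
    ring
  have e2 : ∀ i, avm m 1 E (fun p => σ0 i p.2 * τ0 j p.2) z
      = avm m 1 E (fun p => τ0 j p.2 * ins η p.1 * σ0 i p.2) z
        + avm m 1 E (fun p => τ0 j p.2 * (1 - ins η p.1) * σ0 i p.2) z := by
    intro i
    rw [← hG.av_add 1 ((bT.mul bi).mul (bm_snd (σ0 i)))
      ((bT.mul ((Bm.const 1).sub bi)).mul (bm_snd (σ0 i)))]
    congr 1
    funext p
    ring
  unfold Va Vi Vr
  rw [e1]
  simp only [e2]
  have e3 : ∑ i, avm m 1 E (fun p => al η p.1 * σ0 i p.2) z *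
        (avm m 1 E (fun p => τ0 j p.2 * ins η p.1 * σ0 i p.2) z +
          avm m 1 E (fun p => τ0 j p.2 * (1 - ins η p.1) * σ0 i p.2) z)
      = (∑ i, avm m 1 E (fun p => τ0 j p.2 * ins η p.1 * σ0 i p.2) z *
          avm m 1 E (fun p => al η p.1 * σ0 i p.2) z)
        + ∑ i, avm m 1 E (fun p => τ0 j p.2 * (1 - ins η p.1) * σ0 i p.2) z *
          avm m 1 E (fun p => al η p.1 * σ0 i p.2) z := by
    rw [← Finset.sum_add_distrib]
    exact Finset.sum_congr rfl fun i _ => by ring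
  rw [e3]
  ring

/-- the stuck part is small. -/
lemma Vr_sq_le (hσ : ∀ i p, |σ0 i p| ≤ 1) {T : X → ℝ} (hT : ∀ p, |T p| ≤ 1)
    (z : κ ⊕ s → ℝ) :
    Vr r0 m E σ0 η T z ^ 2
      ≤ ((|r0| + 1) * (1 + η)) ^ 2 * avm m 1 E (fun p => 1 - ins η p.1) z := by
  have bi := bm_ins (X := X) η
  have b1 : Bm fun p : ℝ × X => 1 - ins η p.1 := (Bm.const 1).sub bi
  set q := avm m 1 E (fun p => 1 - ins η p.1) z with hq
  have hi0 : ∀ p : ℝ × X, 0 ≤ 1 - ins η p.1 := fun p => by linarith [ins_le η p.1]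
  have hi1 : ∀ p : ℝ × X, 1 - ins η p.1 ≤ 1 := fun p => by linarith [ins_nonneg η p.1]
  have hq0 : 0 ≤ q := hG.av_nonneg 1 hi0 z
  have hq1 : q ≤ 1 := by
    have := hG.av_mono 1 b1 (Bm.const 1) hi1 z
    rwa [hG.av_one] at this
  have hal : ∀ p : ℝ × X, |al η p.1| ≤ 1 + η := fun p => by
    have h1 := al_mem hη p.1
    rw [abs_le]; constructor <;> linarith [h1.1, h1.2]
  -- an average with the stuck indicator
  have hst : ∀ {f : ℝ × X → ℝ} {C : ℝ}, Bm f → (∀ p, |f p| ≤ C) →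
      |avm m 1 E (fun p => T p.2 * (1 - ins η p.1) * f p) z| ≤ C * q := by
    intro f C hf hC
    have hCp : 0 ≤ C := (abs_nonneg _).trans (hC (0, Classical.arbitrary X))
    have b2 : Bm fun p : ℝ × X => T p.2 * (1 - ins η p.1) * f p := ((bm_snd T).mul b1).mul hf
    have b3 : Bm fun p : ℝ × X => C * (1 - ins η p.1) := b1.const_mul C
    have hpt : ∀ p, |T p.2 * (1 - ins η p.1) * f p| ≤ C * (1 - ins η p.1) := by
      intro p
      rw [abs_mul, abs_mul, abs_of_nonneg (hi0 p)]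
      calc |T p.2| * (1 - ins η p.1) * |f p| ≤ 1 * (1 - ins η p.1) * C :=
            mul_le_mul (mul_le_mul_of_nonneg_right (hT _) (hi0 p)) (hC p) (abs_nonneg _)
              (by linarith [hi0 p])
        _ = _ := by ring
    rw [hq, ← av_mul m 1 E C]
    rw [abs_le]
    constructor
    · have h2 := hG.av_mono 1 (b3.const_mul (-1)) b2 (fun p => by
        have := (abs_le.1 (hpt p)).1; simpa using this) z
      rw [av_mul m 1 E (-1)] at h2
      linarith
    · exact hG.av_mono 1 b2 b3 (fun p => (abs_le.1 (hpt p)).2) z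
  have h1 : |Vr r0 m E σ0 η T z| ≤ (|r0| + 1) * (1 + η) * q := by
    unfold Vr
    have h2 := hst (bm_al hη) hal
    have h3 : ∀ i : s, |avm m 1 E (fun p => T p.2 * (1 - ins η p.1) * σ0 i p.2) z *
        avm m 1 E (fun p => al η p.1 * σ0 i p.2) z| ≤ q * (1 + η) := by
      intro i
      rw [abs_mul]
      have h4 := hst (bm_snd (σ0 i)) (fun p => hσ i p.2)
      rw [one_mul] at h4
      refine mul_le_mul h4 ?_ (abs_nonneg _) hq0
      refine hG.abs_av_le (h := fun p => al η p.1 * σ0 i p.2) 1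
        ((bm_al hη).mul (bm_snd (σ0 i))).1 (fun p => ?_) z
      rw [abs_mul]
      calc |al η p.1| * |σ0 i p.2| ≤ (1 + η) * 1 :=
            mul_le_mul (hal p) (hσ i p.2) (abs_nonneg _) (by linarith)
        _ = _ := mul_one _
    have h5 : |(Fintype.card s : ℝ)⁻¹ * ∑ i : s,
        avm m 1 E (fun p => T p.2 * (1 - ins η p.1) * σ0 i p.2) z *
        avm m 1 E (fun p => al η p.1 * σ0 i p.2) z| ≤ q * (1 + η) := by
      rw [abs_mul, abs_of_nonneg (by positivity : (0 : ℝ) ≤ (Fintype.card s : ℝ)⁻¹)]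
      rcases Nat.eq_zero_or_pos (Fintype.card s) with h0 | h0
      · rw [h0]; simp only [Nat.cast_zero, inv_zero, zero_mul]
        exact mul_nonneg hq0 (by linarith)
      · have hn : (0 : ℝ) < Fintype.card s := by exact_mod_cast h0
        rw [inv_mul_le_iff₀ hn]
        refine (Finset.abs_sum_le_sum_abs _ _).trans ((Finset.sum_le_sum fun i _ => h3 i).trans ?_)
        rw [Finset.sum_const, Finset.card_univ, nsmul_eq_mul]
    calc _ ≤ |r0 * avm m 1 E (fun p => T p.2 * (1 - ins η p.1) * al η p.1) z| + _ := abs_sub _ _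
      _ ≤ |r0| * ((1 + η) * q) + q * (1 + η) := by
          refine add_le_add ?_ h5
          rw [abs_mul]
          exact mul_le_mul_of_nonneg_left h2 (abs_nonneg _)
      _ = _ := by ring
  have h6 : 0 ≤ (|r0| + 1) * (1 + η) := by positivity
  calc Vr r0 m E σ0 η T z ^ 2 = |Vr r0 m E σ0 η T z| ^ 2 := (sq_abs _).symm
    _ ≤ ((|r0| + 1) * (1 + η) * q) ^ 2 := pow_le_pow_left₀ (abs_nonneg _) h1 2
    _ = ((|r0| + 1) * (1 + η)) ^ 2 * (q * q) := by ring
    _ ≤ ((|r0| + 1) * (1 + η)) ^ 2 * q := by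
        refine mul_le_mul_of_nonneg_left ?_ (sq_nonneg _)
        nlinarith

end

/-! ### the exact identity, tested with functions of revealed coordinates -/

section

variable (h : 0 < lam) (hη : 0 ≤ η) (hB : AB S0 σ0 sc η M0) (hσ : ∀ j x, σ0 j x ^ 2 = 1)
  (hs : sc ≠ 0) (hx : x < 1) [Nonempty s]
include h hη hB hσ hs hx

/-- the exact identity in `ex`. -/
lemma gg_ex {φ : (κ ⊕ s → ℝ) → ℝ} (hφ : BM φ)
    (hi : ∀ j u r, φ (Function.update u (Sum.inr j) r) = φ u) (T : X → ℝ)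
    (hc : c = sc ^ 2 * Fintype.card s * (1 - (1 - x) * r0)) :
    ex (H347.g1 (κ ⊕ s)) (Zxm (muA X lam η c) 1 (SA S0 σ0 sc η) x)
        (fun z => φ z * Vi r0 (muA X lam η c) (SA S0 σ0 sc η) σ0 η T z)
      = ex (H347.g1 (κ ⊕ s)) (Zxm (muA X lam η c) 1 (SA S0 σ0 sc η) x)
        (fun z => φ z * (lam / ((1 - x) * (sc ^ 2 * Fintype.card s)) *
          avm (muA X lam η c) 1 (SA S0 σ0 sc η) (fun p => T p.2 * sg p.1) z)) := by
  have key := gg_exact (c := c) h hη hB hσ x hφ.eg hi T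
  have hn : (0 : ℝ) < Fintype.card s := by exact_mod_cast Fintype.card_pos
  have hs2 : 0 < sc ^ 2 := by positivity
  have hD : 0 < (1 - x) * (sc ^ 2 * Fintype.card s) := by
    have : 0 < 1 - x := by linarith
    positivity
  unfold ex
  congr 1
  have e1 : ∫ z, Zxm (muA X lam η c) 1 (SA S0 σ0 sc η) x z *
        (φ z * Vi r0 (muA X lam η c) (SA S0 σ0 sc η) σ0 η T z) ∂(Measure.pi (H347.g1 (κ ⊕ s)))
      = (1 / ((1 - x) * (sc ^ 2 * Fintype.card s))) *
        ∫ u, φ u * (Zxm (muA X lam η c) 1 (SA S0 σ0 sc η) x u *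
        ((sc ^ 2 * Fintype.card s - c) *
            avm (muA X lam η c) 1 (SA S0 σ0 sc η) (fun p => T p.2 * ins η p.1 * al η p.1) u -
          (1 - x) * sc ^ 2 * ∑ j,
            avm (muA X lam η c) 1 (SA S0 σ0 sc η) (fun p => T p.2 * ins η p.1 * σ0 j p.2) u *
              avm (muA X lam η c) 1 (SA S0 σ0 sc η) (fun p => al η p.1 * σ0 j p.2) u))
        ∂(gI (κ ⊕ s)) := by
    rw [← integral_const_mul]
    refine integral_congr_ae (Filter.Eventually.of_forall fun z => ?_)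
    simp only
    have e2 : Vi r0 (muA X lam η c) (SA S0 σ0 sc η) σ0 η T z
        = (1 / ((1 - x) * (sc ^ 2 * Fintype.card s))) * ((sc ^ 2 * Fintype.card s - c) *
            avm (muA X lam η c) 1 (SA S0 σ0 sc η) (fun p => T p.2 * ins η p.1 * al η p.1) z -
          (1 - x) * sc ^ 2 * ∑ j,
            avm (muA X lam η c) 1 (SA S0 σ0 sc η) (fun p => T p.2 * ins η p.1 * σ0 j p.2) z *
              avm (muA X lam η c) 1 (SA S0 σ0 sc η) (fun p => al η p.1 * σ0 j p.2) z) := by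
      unfold Vi
      rw [hc]
      have h1x : (1 - x) ≠ 0 := by linarith
      field_simp
      ring
    rw [e2]
    ring
  rw [e1, key, ← integral_const_mul, ← integral_const_mul]
  refine integral_congr_ae (Filter.Eventually.of_forall fun z => ?_)
  simp only
  ring

/-- the identity conditioned on revealed coordinates `K` (none of them modulated), in `L²`. -/
lemma gg_cx {K : Finset (κ ⊕ s)} (hK : ∀ j : s, Sum.inr j ∉ K) (T : X → ℝ)
    (hc : c = sc ^ 2 * Fintype.card s * (1 - (1 - x) * r0)) :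
    ex (H347.g1 (κ ⊕ s)) (Zxm (muA X lam η c) 1 (SA S0 σ0 sc η) x) (fun z =>
      (cx (H347.g1 (κ ⊕ s)) K (Zxm (muA X lam η c) 1 (SA S0 σ0 sc η) x)
          (Vi r0 (muA X lam η c) (SA S0 σ0 sc η) σ0 η T) z
        - lam / ((1 - x) * (sc ^ 2 * Fintype.card s)) *
          cx (H347.g1 (κ ⊕ s)) K (Zxm (muA X lam η c) 1 (SA S0 σ0 sc η) x)
          (avm (muA X lam η c) 1 (SA S0 σ0 sc η) (fun p => T p.2 * sg p.1)) z) ^ 2) = 0 := by
  have hG := gm (c := c) h hη hB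
  have hw := H347.wt hG 1 x
  have bV := bm_Vi (r0 := r0) (σ0 := σ0) hG hη T
  have bA : BM (avm (muA X lam η c) 1 (SA S0 σ0 sc η) (fun p => T p.2 * sg p.1)) :=
    H347.bm hG 1 ((bm_snd T).mul bm_sg)
  set A := avm (muA X lam η c) 1 (SA S0 σ0 sc η) (fun p => T p.2 * sg p.1) with hA
  set V := Vi r0 (muA X lam η c) (SA S0 σ0 sc η) σ0 η T with hV
  set θ := lam / ((1 - x) * (sc ^ 2 * Fintype.card s)) with hθ
  set D : (κ ⊕ s → ℝ) → ℝ := fun z =>
    cx (H347.g1 (κ ⊕ s)) K (Zxm (muA X lam η c) 1 (SA S0 σ0 sc η) x) V z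
      - θ * cx (H347.g1 (κ ⊕ s)) K (Zxm (muA X lam η c) 1 (SA S0 σ0 sc η) x) A z with hD
  have bD : BM D := (hw.bm_cx K bV).sub ((BM.const _).mul (hw.bm_cx K bA))
  have dD : Dep K D := by
    intro z z'
    simp only [hD]
    rw [dep_cx K z z', dep_cx K z z']
  have hupd : ∀ (j : s) u r, D (Function.update u (Sum.inr j) r) = D u := by
    intro j u r
    refine H347.Dep.congr dD fun e he => ?_
    refine Function.update_of_ne ?_ _ _
    rintro rfl
    exact hK j he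
  have h1 := gg_ex (r0 := r0) h hη hB hσ hs hx bD hupd T hc
  rw [← hV, ← hA, ← hθ] at h1
  -- pass to conditional means
  have h2 := ex_cx hw dD bD bV
  have h3 := ex_cx hw dD bD ((BM.const θ).mul bA)
  have e1 : (fun z => D z ^ 2) = fun z =>
      D z * cx (H347.g1 (κ ⊕ s)) K (Zxm (muA X lam η c) 1 (SA S0 σ0 sc η) x) V z
      - D z * cx (H347.g1 (κ ⊕ s)) K (Zxm (muA X lam η c) 1 (SA S0 σ0 sc η) x)
        (fun z => θ * A z) z := by
    funext z
    rw [cx_const_mul hw, ← mul_sub]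
    simp only [hD]
    ring
  show ex _ _ (fun z => D z ^ 2) = 0
  rw [e1, hw.ex_sub (bD.mul (hw.bm_cx K bV)) (bD.mul (hw.bm_cx K ((BM.const θ).mul bA))), h2, h3,
    h1, sub_self]

/-- **the defect of the linear identity in `L²`** -/
theorem Va_l2 {K : Finset (κ ⊕ s)} (hK : ∀ j : s, Sum.inr j ∉ K)
    (hc : c = sc ^ 2 * Fintype.card s * (1 - (1 - x) * r0)) (hτ : ∀ j p, |τ0 j p| ≤ 1) :
    ∑ j, ex (H347.g1 (κ ⊕ s)) (Zxm (muA X lam η c) 1 (SA S0 σ0 sc η) x) (fun z =>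
        cx (H347.g1 (κ ⊕ s)) K (Zxm (muA X lam η c) 1 (SA S0 σ0 sc η) x)
          (Va (muA X lam η c) 1 r0 (SA S0 σ0 sc η) (fun i p => σ0 i p.2) (fun p => al η p.1)
            (fun j p => τ0 j p.2) j) z ^ 2)
      ≤ 2 * (lam / ((1 - x) * (sc ^ 2 * Fintype.card s))) ^ 2 *
          Real.sqrt (∑ j, ∑ l, ex (H347.g1 (κ ⊕ s)) (Zxm (muA X lam η c) 1 (SA S0 σ0 sc η) x)
            (fun z => cx (H347.g1 (κ ⊕ s)) K (Zxm (muA X lam η c) 1 (SA S0 σ0 sc η) x)
              (avm (muA X lam η c) 1 (SA S0 σ0 sc η) (fun p => τ0 j p.2 * τ0 l p.2)) z ^ 2))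
        + 2 * (Fintype.card J * ((|r0| + 1) * (1 + η)) ^ 2 *
          ex (H347.g1 (κ ⊕ s)) (Zxm (muA X lam η c) 1 (SA S0 σ0 sc η) x)
            (avm (muA X lam η c) 1 (SA S0 σ0 sc η) (fun p => 1 - ins η p.1))) := by
  have hG := gm (c := c) h hη hB
  have hw := H347.wt hG 1 x
  set w := Zxm (muA X lam η c) 1 (SA S0 σ0 sc η) x with hwd
  set m := muA X lam η c with hm
  set E := SA S0 σ0 sc η with hE
  set θ := lam / ((1 - x) * (sc ^ 2 * Fintype.card s)) with hθ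
  have hσ1 : ∀ i p, |σ0 i p| ≤ 1 := fun i p => by
    have := hσ i p
    rw [← sq_abs] at this
    nlinarith [abs_nonneg (σ0 i p)]
  have bV : ∀ j, BM (Vi r0 m E σ0 η (τ0 j)) := fun j => bm_Vi hG hη _
  have bR : ∀ j, BM (Vr r0 m E σ0 η (τ0 j)) := fun j => bm_Vr hG hη _
  have bA : ∀ j, BM (avm m 1 E (fun p => τ0 j p.2 * sg p.1)) := fun j =>
    H347.bm hG 1 ((bm_snd _).mul bm_sg)
  set D : J → (κ ⊕ s → ℝ) → ℝ := fun j z => cx (H347.g1 (κ ⊕ s)) K w (Vi r0 m E σ0 η (τ0 j)) z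
      - θ * cx (H347.g1 (κ ⊕ s)) K w (avm m 1 E (fun p => τ0 j p.2 * sg p.1)) z with hD
  set B : J → (κ ⊕ s → ℝ) → ℝ := fun j z =>
      θ * cx (H347.g1 (κ ⊕ s)) K w (avm m 1 E (fun p => τ0 j p.2 * sg p.1)) z
        + cx (H347.g1 (κ ⊕ s)) K w (Vr r0 m E σ0 η (τ0 j)) z with hBdef
  have bD : ∀ j, BM (D j) := fun j => (hw.bm_cx K (bV j)).sub
    ((BM.const _).mul (hw.bm_cx K (bA j)))
  have bB : ∀ j, BM (B j) := fun j => ((BM.const _).mul (hw.bm_cx K (bA j))).add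
    (hw.bm_cx K (bR j))
  have hD0 : ∀ j, ex (H347.g1 (κ ⊕ s)) w (fun z => D j z ^ 2) = 0 := fun j =>
    gg_cx h hη hB hσ hs hx hK (τ0 j) hc
  -- the conditional mean of the defect
  have e1 : ∀ j z, cx (H347.g1 (κ ⊕ s)) K w
      (Va m 1 r0 E (fun i p => σ0 i p.2) (fun p => al η p.1) (fun j p => τ0 j p.2) j) z
      = D j z + B j z := by
    intro j z
    have e2 : Va m 1 r0 E (fun i p => σ0 i p.2) (fun p => al η p.1) (fun j p => τ0 j p.2) j
        = fun z => Vi r0 m E σ0 η (τ0 j) z + Vr r0 m E σ0 η (τ0 j) z := by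
      funext z
      exact Va_eq hG hη j z
    rw [e2, cx_add hw (bV j) (bR j)]
    simp only [hD, hBdef]
    ring
  simp only [e1]
  -- drop the null part
  have e3 : ∀ j, ex (H347.g1 (κ ⊕ s)) w (fun z => (D j z + B j z) ^ 2)
      = ex (H347.g1 (κ ⊕ s)) w (fun z => B j z ^ 2) := by
    intro j
    have h1 : |ex (H347.g1 (κ ⊕ s)) w (fun z => D j z * B j z)| ≤ 0 := by
      have h2 := hw.abs_ip_le (J := Unit) (X := fun _ => D j) (Y := fun _ => B j)
        (fun _ => bD j) (fun _ => bB j)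
      unfold ip at h2
      simp only [Finset.univ_unique, Finset.sum_singleton, ← sq, hD0, Real.sqrt_zero,
        zero_mul] at h2
      exact h2
    have h3 := abs_nonpos_iff.1 h1
    have e4 : (fun z => (D j z + B j z) ^ 2)
        = fun z => (D j z ^ 2 + 2 * (D j z * B j z)) + B j z ^ 2 := by
      funext z; ring
    rw [e4, hw.ex_add ((bD j).sq.add ((BM.const _).mul ((bD j).mul (bB j)))) (bB j).sq,
      hw.ex_add (bD j).sq ((BM.const _).mul ((bD j).mul (bB j))), hw.ex_const_mul, hD0, h3]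
    ring
  rw [Finset.sum_congr rfl fun j _ => e3 j]
  have e5 : ∀ j, ex (H347.g1 (κ ⊕ s)) w (fun z => B j z ^ 2)
      ≤ 2 * θ ^ 2 * ex (H347.g1 (κ ⊕ s)) w (fun z =>
          cx (H347.g1 (κ ⊕ s)) K w (avm m 1 E (fun p => τ0 j p.2 * sg p.1)) z ^ 2)
        + 2 * (((|r0| + 1) * (1 + η)) ^ 2 *
          ex (H347.g1 (κ ⊕ s)) w (avm m 1 E (fun p => 1 - ins η p.1))) := by
    intro j
    have b1 := (hw.bm_cx K (bA j)).sq
    have b2 := (hw.bm_cx K (bR j)).sq
    have b3 : BM (avm m 1 E (fun p => 1 - ins η p.1)) :=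
      H347.bm hG 1 ((Bm.const 1).sub (bm_ins η))
    have h1 : ex (H347.g1 (κ ⊕ s)) w (fun z => B j z ^ 2)
        ≤ ex (H347.g1 (κ ⊕ s)) w (fun z => 2 * θ ^ 2 *
          cx (H347.g1 (κ ⊕ s)) K w (avm m 1 E (fun p => τ0 j p.2 * sg p.1)) z ^ 2
          + 2 * cx (H347.g1 (κ ⊕ s)) K w (Vr r0 m E σ0 η (τ0 j)) z ^ 2) := by
      refine hw.ex_mono (bB j).sq (((BM.const _).mul b1).add ((BM.const _).mul b2)) fun z => ?_
      simp only [hBdef]
      nlinarith [sq_nonneg (θ * cx (H347.g1 (κ ⊕ s)) K w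
        (avm m 1 E (fun p => τ0 j p.2 * sg p.1)) z
          - cx (H347.g1 (κ ⊕ s)) K w (Vr r0 m E σ0 η (τ0 j)) z)]
    rw [hw.ex_add ((BM.const _).mul b1) ((BM.const _).mul b2), hw.ex_const_mul,
      hw.ex_const_mul] at h1
    refine h1.trans (add_le_add le_rfl (mul_le_mul_of_nonneg_left ?_ zero_le_two))
    calc ex (H347.g1 (κ ⊕ s)) w (fun z =>
          cx (H347.g1 (κ ⊕ s)) K w (Vr r0 m E σ0 η (τ0 j)) z ^ 2)
        ≤ ex (H347.g1 (κ ⊕ s)) w (cx (H347.g1 (κ ⊕ s)) K w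
            (fun z => Vr r0 m E σ0 η (τ0 j) z ^ 2)) :=
          hw.ex_mono b2 (hw.bm_cx K (bR j).sq) fun z => cx_sq_le hw (bR j) z
      _ = ex (H347.g1 (κ ⊕ s)) w (fun z => Vr r0 m E σ0 η (τ0 j) z ^ 2) := ex_cx' hw (bR j).sq
      _ ≤ ex (H347.g1 (κ ⊕ s)) w (fun z => ((|r0| + 1) * (1 + η)) ^ 2 *
            avm m 1 E (fun p => 1 - ins η p.1) z) :=
          hw.ex_mono (bR j).sq ((BM.const _).mul b3) fun z => Vr_sq_le hG hη hσ1 (hτ j) z
      _ = _ := hw.ex_const_mul _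
  refine (Finset.sum_le_sum fun j _ => e5 j).trans ?_
  rw [Finset.sum_add_distrib, ← Finset.mul_sum, Finset.sum_const, Finset.card_univ, nsmul_eq_mul]
  refine add_le_add ?_ (le_of_eq (by ring))
  refine mul_le_mul_of_nonneg_left ?_ (by positivity)
  have h4 := ex_norm hw bA (fun j l => H347.bm hG 1 ((bm_snd (τ0 j)).mul (bm_snd (τ0 l))))
    (C := 1) (fun u z => ?_) K
  · rw [one_pow, one_mul] at h4
    exact h4
  · rw [one_pow, one_mul]
    have bL : Bm fun p : ℝ × X => (∑ j, u j * τ0 j p.2) := bm_snd fun q => ∑ j, u j * τ0 j q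
    have e6 : ∑ j, u j * avm m 1 E (fun p => τ0 j p.2 * sg p.1) z
        = avm m 1 E (fun p => (∑ j, u j * τ0 j p.2) * sg p.1) z := by
      have e7 : (fun p : ℝ × X => (∑ j, u j * τ0 j p.2) * sg p.1)
          = fun p => ∑ j, u j * (τ0 j p.2 * sg p.1) := by
        funext p
        rw [Finset.sum_mul]
        exact Finset.sum_congr rfl fun j _ => by ring
      rw [e7, hG.av_sum 1 Finset.univ fun j _ => Bm.const_mul _ ((bm_snd (τ0 j)).mul bm_sg)]
      exact Finset.sum_congr rfl fun j _ => (av_mul _ _ _ _ _ _).symm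
    have e8 : ∑ j, ∑ l, u j * u l * avm m 1 E (fun p => τ0 j p.2 * τ0 l p.2) z
        = avm m 1 E (fun p => (∑ j, u j * τ0 j p.2) ^ 2) z := by
      have e9 : (fun p : ℝ × X => (∑ j, u j * τ0 j p.2) ^ 2)
          = fun p => ∑ j, ∑ l, u j * u l * (τ0 j p.2 * τ0 l p.2) := by
        funext p
        rw [sq, Finset.sum_mul_sum]
        exact Finset.sum_congr rfl fun j _ => Finset.sum_congr rfl fun l _ => by ring
      have b5 : ∀ j l, Bm fun p : ℝ × X => u j * u l * (τ0 j p.2 * τ0 l p.2) := fun j l =>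
        Bm.const_mul _ ((bm_snd (τ0 j)).mul (bm_snd (τ0 l)))
      rw [e9, hG.av_sum 1 Finset.univ fun j _ => Bm.sum _ fun l _ => b5 j l]
      refine Finset.sum_congr rfl fun j _ => ?_
      rw [hG.av_sum 1 Finset.univ fun l _ => b5 j l]
      exact Finset.sum_congr rfl fun l _ => (av_mul _ _ _ _ _ _).symm
    rw [e6, e8]
    refine (hG.av_sq_le 1 (bL.mul bm_sg) z).trans ?_
    refine le_of_eq ?_
    congr 1
    funext p
    have h5 : sg p.1 ^ 2 = 1 := by rw [← sq_abs, abs_sg, one_pow]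
    rw [mul_pow, h5, mul_one]

end

end Vale.Agent.P146.H646
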