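import Vale.Agent.P146.H347.ModU
import Vale.Agent.P146.H347.Mod4
import Vale.Agent.P146.H615.Easm

/-! Block [W0] (P146) as a pairing, with the defect `Va` kept as a term, and its instance for the
ensemble `U` (any revealed set of plain and modulated levels). -/

open MeasureTheory ProbabilityTheory

namespace Vale.Agent.P146.H646

open Vale.Agent.P146.H196

set_option linter.unusedSectionVars false

section gen

variable {κ s J : Type} [Fintype κ] [DecidableEq κ] [Fintype s] [DecidableEq s] [Fintype J]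
variable {Ω : Type} [MeasurableSpace Ω] {m : Measure Ω} {k x M0 : ℝ} {E : κ → Ω → ℝ}
variable {σ : s → Ω → ℝ} {a : Ω → ℝ} {act : Equiv.Perm s → Equiv.Perm κ}
  {K : Finset s → Finset κ} {ρ : Equiv.Perm s → Equiv.Perm J} {τ : J → Ω → ℝ}

/-- **[W0], pairing form**: the row of a hidden site tested with any vector `Q` which depends on
the coordinates inside `S` only; the defect `Va` is a term. -/
theorem Sites.w0_pair (hG : GM m E M0) (h : Sites m E act σ a ρ τ) (hK : Rev act K) (k : ℝ)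
    (hx0 : 0 ≤ x) (hx1 : x ≤ 1) {A0 : ℝ} (hA : ∀ w, |a w| ≤ A0) (hA0 : 0 ≤ A0) (r0 : ℝ)
    {S S1 : Finset s} (hS : S ⊆ S1) {i0 : s} (hi0 : i0 ∉ S) (hne : (S1 \ S).Nonempty)
    {T : Finset J} (hT : ∀ π : Equiv.Perm s, (∀ i ∈ S, π i = i) → ∀ j ∈ T, ρ π j = j)
    {Q : J → (κ → ℝ) → ℝ} (hQ : ∀ j, BM (Q j)) (hQd : ∀ j ∈ T, Dep (K S) (Q j)) :
    |∑ j ∈ T, ex (H347.g1 κ) (Zxm m k E x) (fun z => Q j z * Th m k x E σ a τ i0 j z)
        - (1 - (1 - x) * r0) * ∑ j ∈ T, ex (H347.g1 κ) (Zxm m k E x)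
            (fun z => Q j z * avm m k E (fun w => a w * τ j w) z)
        - (1 - x) * ∑ j ∈ T, ex (H347.g1 κ) (Zxm m k E x)
            (fun z => Q j z * Va m k r0 E σ a τ j z)|
      ≤ Real.sqrt (8 * A0 ^ 2 * Real.sqrt (∑ j, ∑ l, ex (H347.g1 κ) (Zxm m k E x) (fun z =>
            cx (H347.g1 κ) (K S1) (Zxm m k E x) (avm m k E (fun w => τ j w * τ l w)) z ^ 2))
          / (S1 \ S).card)
        * Real.sqrt (∑ j ∈ T, ex (H347.g1 κ) (Zxm m k E x) (fun z => Q j z ^ 2)) := by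
  classical
  have hw := H347.wt hG k x
  have hΘ := h.eqv hG k x
  have h1 := h.w0_l2 hG hK k hx0 hx1 hA hA0 r0 hS hi0 hne hT
  set X : J → (κ → ℝ) → ℝ := fun j z =>
    cx (H347.g1 κ) (K S) (Zxm m k E x) (Th m k x E σ a τ i0 j) z
      - (1 - (1 - x) * r0) * cx (H347.g1 κ) (K S) (Zxm m k E x)
          (avm m k E (fun w => a w * τ j w)) z
      - (1 - x) * cx (H347.g1 κ) (K S) (Zxm m k E x) (Va m k r0 E σ a τ j) z with hX
  have bT : ∀ j, BM (Th m k x E σ a τ i0 j) := fun j => hΘ.bm i0 j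
  have bA : ∀ j, BM (avm m k E (fun w => a w * τ j w)) := fun j => h.bm_av hG k j
  have bV : ∀ j, BM (Va m k r0 E σ a τ j) := fun j => h.bm_Va hG k r0 j
  have hXb : ∀ j, BM (X j) := fun j =>
    ((hw.bm_cx _ (bT j)).sub ((BM.const _).mul (hw.bm_cx _ (bA j)))).sub
      ((BM.const _).mul (hw.bm_cx _ (bV j)))
  -- restrict to `T`
  have hip : ∀ X Y : J → (κ → ℝ) → ℝ, ∑ j ∈ T, ex (H347.g1 κ) (Zxm m k E x)
      (fun z => X j z * Y j z)
      = ip (H347.g1 κ) (Zxm m k E x) (fun j => if j ∈ T then X j else fun _ => 0)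
          (fun j => if j ∈ T then Y j else fun _ => 0) := by
    intro X Y
    unfold ip
    rw [← Finset.sum_subset (Finset.subset_univ T)]
    · refine Finset.sum_congr rfl fun j hj => ?_
      simp only [if_pos hj]
    · intro j _ hj
      simp only [if_neg hj, mul_zero]
      exact hw.ex_zero
  have hbr : ∀ X : J → (κ → ℝ) → ℝ, (∀ j, BM (X j)) →
      ∀ j, BM (if j ∈ T then X j else fun _ => 0) := by
    intro X hX j
    by_cases hj : j ∈ T
    · simp only [if_pos hj]; exact hX j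
    · simp only [if_neg hj]; exact BM.const 0
  have hCS : |∑ j ∈ T, ex (H347.g1 κ) (Zxm m k E x) (fun z => X j z * Q j z)|
        ≤ Real.sqrt (∑ j ∈ T, ex (H347.g1 κ) (Zxm m k E x) (fun z => X j z ^ 2))
          * Real.sqrt (∑ j ∈ T, ex (H347.g1 κ) (Zxm m k E x) (fun z => Q j z ^ 2)) := by
    have h3 := hw.abs_ip_le (hbr X hXb) (hbr Q hQ)
    rw [← hip X Q, ← hip X X, ← hip Q Q] at h3
    simpa only [← sq] using h3
  have e1 : ∑ j ∈ T, ex (H347.g1 κ) (Zxm m k E x) (fun z => Q j z * Th m k x E σ a τ i0 j z)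
        - (1 - (1 - x) * r0) * ∑ j ∈ T, ex (H347.g1 κ) (Zxm m k E x)
            (fun z => Q j z * avm m k E (fun w => a w * τ j w) z)
        - (1 - x) * ∑ j ∈ T, ex (H347.g1 κ) (Zxm m k E x)
            (fun z => Q j z * Va m k r0 E σ a τ j z)
      = ∑ j ∈ T, ex (H347.g1 κ) (Zxm m k E x) (fun z => X j z * Q j z) := by
    rw [Finset.mul_sum, Finset.mul_sum, ← Finset.sum_sub_distrib, ← Finset.sum_sub_distrib]
    refine Finset.sum_congr rfl fun j hj => ?_
    have hd := hQd j hj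
    rw [← ex_cx hw hd (hQ j) (bT j), ← ex_cx hw hd (hQ j) (bA j), ← ex_cx hw hd (hQ j) (bV j),
      ← hw.ex_const_mul, ← hw.ex_const_mul,
      ← hw.ex_sub ((hQ j).mul (hw.bm_cx _ (bT j)))
        ((BM.const _).mul ((hQ j).mul (hw.bm_cx _ (bA j)))),
      ← hw.ex_sub (((hQ j).mul (hw.bm_cx _ (bT j))).sub
        ((BM.const _).mul ((hQ j).mul (hw.bm_cx _ (bA j)))))
        ((BM.const _).mul ((hQ j).mul (hw.bm_cx _ (bV j))))]
    congr 1
    funext z
    simp only [hX]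
    ring
  rw [e1]
  exact hCS.trans (mul_le_mul_of_nonneg_right (Real.sqrt_le_sqrt h1) (Real.sqrt_nonneg _))

/-- **[W0] for the conditional means `M` themselves.** -/
theorem Sites.w0_self (hG : GM m E M0) (h : Sites m E act σ a ρ τ) (hK : Rev act K) (k : ℝ)
    (hx0 : 0 ≤ x) (hx1 : x ≤ 1) {A0 : ℝ} (hA : ∀ w, |a w| ≤ A0) (hA0 : 0 ≤ A0) (r0 : ℝ)
    {S S1 : Finset s} (hS : S ⊆ S1) {i0 : s} (hi0 : i0 ∉ S) (hne : (S1 \ S).Nonempty)
    {T : Finset J} (hT : ∀ π : Equiv.Perm s, (∀ i ∈ S, π i = i) → ∀ j ∈ T, ρ π j = j) :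
    |∑ j ∈ T, ex (H347.g1 κ) (Zxm m k E x) (fun z =>
          cx (H347.g1 κ) (K S) (Zxm m k E x) (avm m k E (fun w => a w * τ j w)) z
            * Th m k x E σ a τ i0 j z)
        - (1 - (1 - x) * r0) * ∑ j ∈ T, ex (H347.g1 κ) (Zxm m k E x) (fun z =>
            cx (H347.g1 κ) (K S) (Zxm m k E x) (avm m k E (fun w => a w * τ j w)) z ^ 2)
        - (1 - x) * ∑ j ∈ T, ex (H347.g1 κ) (Zxm m k E x) (fun z =>
            cx (H347.g1 κ) (K S) (Zxm m k E x) (avm m k E (fun w => a w * τ j w)) z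
              * Va m k r0 E σ a τ j z)|
      ≤ Real.sqrt (8 * A0 ^ 2 * Real.sqrt (∑ j, ∑ l, ex (H347.g1 κ) (Zxm m k E x) (fun z =>
            cx (H347.g1 κ) (K S1) (Zxm m k E x) (avm m k E (fun w => τ j w * τ l w)) z ^ 2))
          / (S1 \ S).card)
        * Real.sqrt (∑ j ∈ T, ex (H347.g1 κ) (Zxm m k E x) (fun z =>
            cx (H347.g1 κ) (K S) (Zxm m k E x) (avm m k E (fun w => a w * τ j w)) z ^ 2)) := by
  have hw := H347.wt hG k x
  have bA : ∀ j, BM (avm m k E (fun w => a w * τ j w)) := fun j => h.bm_av hG k j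
  have key := h.w0_pair hG hK k hx0 hx1 hA hA0 r0 hS hi0 hne hT
    (Q := fun j z => cx (H347.g1 κ) (K S) (Zxm m k E x) (avm m k E (fun w => a w * τ j w)) z)
    (fun j => hw.bm_cx _ (bA j)) (fun j _ => dep_cx (K S))
  have e1 : ∀ j ∈ T, ex (H347.g1 κ) (Zxm m k E x) (fun z =>
      cx (H347.g1 κ) (K S) (Zxm m k E x) (avm m k E (fun w => a w * τ j w)) z
        * avm m k E (fun w => a w * τ j w) z)
      = ex (H347.g1 κ) (Zxm m k E x) (fun z =>
        cx (H347.g1 κ) (K S) (Zxm m k E x) (avm m k E (fun w => a w * τ j w)) z ^ 2) := by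
    intro j _
    rw [← ex_cx hw (dep_cx (K S)) (hw.bm_cx _ (bA j)) (bA j)]
    congr 1
    funext z
    ring
  rw [Finset.sum_congr rfl e1] at key
  exact key

end gen

/-! ### the ensemble `U` -/

section U

open Vale.Agent.P157.Lv Vale.Agent.P146.H325 Vale.Agent.P146.H281.U

variable {Θ : Type} [MeasurableSpace Θ] {n : ℕ} {LB LF : Type} [Fintype LB] [DecidableEq LB]
  [Fintype LF] [DecidableEq LF] {ν : Measure Θ} {η x : ℝ}

/-- the thermal average -/
noncomputable abbrev avU (n : ℕ) (ν : Measure Θ) (b : ℝ) (cB : LB → ℝ) (cF : LF → ℝ)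
    (a : LF → Θ → ℝ) : (Θ × H347.Xs n → ℝ) → (H347.Co n LB LF → ℝ) → ℝ :=
  avm (muU ν n) 1 (SU b cB cF a)

/-- expectation -/
noncomputable abbrev exU (n : ℕ) (ν : Measure Θ) (b : ℝ) (cB : LB → ℝ) (cF : LF → ℝ)
    (a : LF → Θ → ℝ) (x : ℝ) (Ψ : (H347.Co n LB LF → ℝ) → ℝ) : ℝ :=
  ex (H347.g1 (H347.Co n LB LF)) (Zxm (muU ν n) 1 (SU b cB cF a) x) Ψ

/-- conditional expectation -/
noncomputable abbrev cxU (n : ℕ) (ν : Measure Θ) (b : ℝ) (cB : LB → ℝ) (cF : LF → ℝ)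
    (a : LF → Θ → ℝ) (x : ℝ) (K : Finset (H347.Co n LB LF))
    (Ψ : (H347.Co n LB LF → ℝ) → ℝ) : (H347.Co n LB LF → ℝ) → ℝ :=
  cx (H347.g1 (H347.Co n LB LF)) K (Zxm (muU ν n) 1 (SU b cB cF a) x) Ψ

/-- **(I2R)**: the row identity of a hidden site tested with the conditional means themselves;
the revealed set may contain modulated levels. -/
theorem i2R_U (hν : IsFiniteMeasure ν) (h0 : ν ≠ 0) (b : ℝ) (cB : LB → ℝ) (cF : LF → ℝ)
    {a : LF → Θ → ℝ} (hA : AmU a η) {r : Θ → ℝ} (hr : Measurable r) (hη : 0 ≤ η)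
    (hrη : ∀ θ, |r θ - 1| ≤ η) (hx0 : 0 ≤ x) (hx1 : x ≤ 1) (r0 : ℝ) (BL : Finset LB)
    (FL : Finset LF) {S S1 : Finset (Fin n)} (hS : S ⊆ S1) {i0 : Fin n} (hi0 : i0 ∉ S)
    (hne : (S1 \ S).Nonempty) :
    |exU n ν b cB cF a x (fun z => ∑ j ∈ S,
          cxU n ν b cB cF a x (H347.Kset S BL FL)
            (avU n ν b cB cF a (fun w => r w.1 * sp w.2 j)) z *
          H615.Th (avU n ν b cB cF a) x (fun w => r w.1) (fun w => sp w.2 i0)
            (fun j w => sp w.2 j) j z)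
        - (1 - (1 - x) * r0) * exU n ν b cB cF a x (H615.m2 S (fun j =>
          cxU n ν b cB cF a x (H347.Kset S BL FL)
            (avU n ν b cB cF a (fun w => r w.1 * sp w.2 j))))
        - (1 - x) * ∑ j ∈ S, exU n ν b cB cF a x (fun z =>
          cxU n ν b cB cF a x (H347.Kset S BL FL)
            (avU n ν b cB cF a (fun w => r w.1 * sp w.2 j)) z *
          Va (muU ν n) 1 r0 (SU b cB cF a) (fun (i : Fin n) w => sp w.2 i) (fun w => r w.1)
            (fun (j : Fin n) w => sp w.2 j) j z)|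
      ≤ √(8 * (1 + η) ^ 2 * √(∑ j : Fin n, ∑ l : Fin n, exU n ν b cB cF a x (fun z =>
            cxU n ν b cB cF a x (H347.Kset S1 BL FL)
              (avU n ν b cB cF a (fun w => sp w.2 j * sp w.2 l)) z ^ 2)) / (S1 \ S).card)
        * √(exU n ν b cB cF a x (H615.m2 S (fun j =>
          cxU n ν b cB cF a x (H347.Kset S BL FL)
            (avU n ν b cB cF a (fun w => r w.1 * sp w.2 j))))) := by
  have hG := gmU (n := n) b cB cF η hν h0 hA
  have hw := H347.wt hG 1 x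
  have : Nonempty (Fin n) := ⟨i0⟩
  have hC : ∀ θ, |r θ| ≤ 1 + η := fun θ => by
    have h1 := abs_le.1 (hrη θ)
    rw [abs_le]; constructor <;> linarith [h1.1, h1.2]
  have hSt := H347.U.sitesU (n := n) b cB cF a hν hr hC
  have hK := H347.revK (n := n) BL FL
  have key := hSt.w0_self hG hK 1 hx0 hx1 (A0 := 1 + η) (fun w => hC w.1) (by linarith) r0 hS
    hi0 hne (T := S) (fun π h j hj => h j hj)
  have bM : ∀ j : Fin n, BM (cx (H347.g1 (H347.Co n LB LF)) (H347.Kset S BL FL)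
      (Zxm (muU ν n) 1 (SU b cB cF a) x)
      (avm (muU ν n) 1 (SU b cB cF a) (fun w => r w.1 * sp w.2 j))) := fun j =>
    hw.bm_cx _ (hSt.bm_av hG 1 j)
  have bT : ∀ j : Fin n, BM (Th (muU ν n) 1 x (SU b cB cF a)
      (fun (i : Fin n) (w : Θ × H347.Xs n) => sp w.2 i)
      (fun w => r w.1) (fun (j : Fin n) w => sp w.2 j) i0 j) := fun j =>
    (hSt.eqv hG 1 x).bm i0 j
  rw [← hw.ex_sum S fun j _ => (bM j).mul (bT j), ← hw.ex_sum S fun j _ => (bM j).sq] at key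
  exact key

end U

end Vale.Agent.P146.H646
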