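import Vale.Agent.P146.H281.U2
import Vale.Agent.P146.H646.W0U

/-! The linear identity of the field of a site (`I2f`) in the ensemble `U`, averaged over all
coordinates (test function `1`): the revealed set plays no role, so it holds also when modulated
levels are revealed. -/

open MeasureTheory ProbabilityTheory

namespace Vale.Agent.P146.H646

open Vale.Agent.P157.Lv hiding Dep
open Vale.Agent.P146.H196 Vale.Agent.P146.H475 Vale.Agent.P146.H816 Vale.Agent.P146.H325
  Vale.Agent.P146.H347 Vale.Agent.P146.H347.U Vale.Agent.P146.H281.U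

set_option linter.unusedSectionVars false

variable {G : Type} [Fintype G] [DecidableEq G] {n : ℕ} {LB LF : Type} [Fintype LB]
  [DecidableEq LB] [Fintype LF] [DecidableEq LF] {b : ℝ} {cB : LB → ℝ} {cF : LF → ℝ}
  {a : LF → (G → ℝ) → ℝ} {lam c : G → ℝ} {η x : ℝ} {g0 : G} {Lm : Finset LF}

/-- the probability that the amplitude is stuck -/
noncomputable def stk (n : ℕ) (ν : Measure (G → ℝ)) (b : ℝ) (cB : LB → ℝ) (cF : LF → ℝ)
    (a : LF → (G → ℝ) → ℝ) (η x : ℝ) (g0 : G) : ℝ :=
  exU n ν b cB cF a x (avU n ν b cB cF a (fun w => 1 - ins η (w.1 g0)))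

/-- an average with the stuck indicator -/
lemma abs_stk_le (h : ∀ g, 0 < lam g) (hA : AmU a η) {f : (G → ℝ) × Xs n → ℝ} {C : ℝ}
    (hf : Bm f) (hC : ∀ p, |f p| ≤ C) (z : Co n LB LF → ℝ) :
    |avU n (nuG lam η c) b cB cF a (fun w => (1 - ins η (w.1 g0)) * f w) z| ≤
      C * avU n (nuG lam η c) b cB cF a (fun w => 1 - ins η (w.1 g0)) z := by
  have hη := hA.nn
  have hν := finite_nuG h hη c
  have hG := gmU (n := n) b cB cF η hν (nuG_ne h hη c) hA
  have bi : Bm fun w : (G → ℝ) × Xs n => 1 - ins η (w.1 g0) := (Bm.const 1).sub (bm_insU η g0)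
  have hi0 : ∀ p : (G → ℝ) × Xs n, 0 ≤ 1 - ins η (p.1 g0) := fun p => by
    linarith [ins_le η (p.1 g0)]
  have hpt : ∀ p : (G → ℝ) × Xs n, |(1 - ins η (p.1 g0)) * f p| ≤ C * (1 - ins η (p.1 g0)) := by
    intro p
    rw [abs_mul, abs_of_nonneg (hi0 p), mul_comm]
    exact mul_le_mul_of_nonneg_right (hC p) (hi0 p)
  have b2 : Bm fun w : (G → ℝ) × Xs n => (1 - ins η (w.1 g0)) * f w := bi.mul hf
  have b3 : Bm fun w : (G → ℝ) × Xs n => C * (1 - ins η (w.1 g0)) := bi.const_mul C
  show |avm (muU (nuG lam η c) n) 1 (SU b cB cF a)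
      (fun w => (1 - ins η (w.1 g0)) * f w) z| ≤ C * avm (muU (nuG lam η c) n) 1 (SU b cB cF a)
        (fun w => 1 - ins η (w.1 g0)) z
  rw [← av_mul (muU (nuG lam η c) n) 1 (SU b cB cF a) C]
  rw [abs_le]
  constructor
  · have h2 := hG.av_mono 1 (b3.const_mul (-1)) b2 (fun p => by
      have := (abs_le.1 (hpt p)).1; simpa using this) z
    rw [av_mul (muU (nuG lam η c) n) 1 (SU b cB cF a) (-1)] at h2
    linarith
  · exact hG.av_mono 1 b2 b3 (fun p => (abs_le.1 (hpt p)).2) z

/-- **(I2f) with test function `1` in the ensemble `U`.** -/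
theorem i2f_U (h : ∀ g, 0 < lam g) (hA : AmU a η) (hM : Mods a η g0 Lm) (hx : x < 1)
    (hx0 : 0 ≤ x) (hs : 0 < ∑ l ∈ Lm, cF l ^ 2) {r0 : ℝ}
    (hc : c g0 = (∑ l ∈ Lm, cF l ^ 2) * n * (1 - (1 - x) * r0)) (i0 : Fin n) :
    |exU n (nuG lam η c) b cB cF a x
        (H615.Tf (avU n (nuG lam η c) b cB cF a) x (fun w => al η (w.1 g0))
          (fun w => sp w.2 i0)) - (1 - (1 - x) * r0)|
      ≤ |1 - (1 - x) * r0| * η + lam g0 / ((∑ l ∈ Lm, cF l ^ 2) * n) +
        (|r0| + 1) * (1 + η) * stk n (nuG lam η c) b cB cF a η x g0 := by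
  have hη := hA.nn
  have hν := finite_nuG h hη c
  have hG := gmU (n := n) b cB cF η hν (nuG_ne h hη c) hA
  have hw := wtU (n := n) (LB := LB) b cB cF hν (nuG_ne h hη c) hA x
  have hn : (0 : ℝ) < n := by
    have : 0 < n := lt_of_le_of_lt (Nat.zero_le _) i0.2
    exact_mod_cast this
  set s2 := ∑ l ∈ Lm, cF l ^ 2 with hs2
  set ν := nuG lam η c with hνd
  set w := Zxm (muU ν n) 1 (SU b cB cF a : Co n LB LF → _) x with hwd
  set A : ((G → ℝ) × Xs n → ℝ) → (Co n LB LF → ℝ) → ℝ :=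
    avm (muU ν n) 1 (SU b cB cF a) with hAd
  have bal := bm_alU (n := n) hη g0
  have bin := bm_insU (n := n) η g0
  have bst : Bm fun w : (G → ℝ) × Xs n => 1 - ins η (w.1 g0) := (Bm.const 1).sub bin
  have bsp : ∀ j : Fin n, Bm fun w : (G → ℝ) × Xs n => sp w.2 j := fun j =>
    H281.U.bm_spU fun σ => sp σ j
  have bmA : ∀ {f : (G → ℝ) × Xs n → ℝ}, Bm f → BM (A f) := fun hf =>
    H347.bm hG 1 hf
  set P : Fin n → (Co n LB LF → ℝ) → ℝ := fun j z =>
    A (fun w => al η (w.1 g0) * sp w.2 j) z * A (fun w => sp w.2 j) z with hP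
  have bP : ∀ j, BM (P j) := fun j => (bmA (bal.mul (bsp j))).mul (bmA (bsp j))
  have eqP : Eq1 P := (eq1_spU b cB cF a hν 1 (fun θ => al η (θ g0))).mul
    (eq1_spU' b cB cF a hν 1)
  have hsum : ex (g1 _) w (fun z => ∑ j, P j z) = n * ex (g1 _) w (P i0) := by
    rw [hw.ex_sum Finset.univ fun j _ => bP j, Finset.sum_congr rfl fun j _ =>
      ex_site (invP_ZU b cB cF a hν 1 x) eqP j i0, Finset.sum_const, Finset.card_univ,
      Fintype.card_fin, nsmul_eq_mul]
  -- the mean of the amplitude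
  have bA0 : BM (A fun w => al η (w.1 g0)) := bmA bal
  have hal : |ex (g1 _) w (A fun w => al η (w.1 g0)) - 1| ≤ η := by
    have e1 : ex (g1 _) w (A fun w => al η (w.1 g0)) - 1 =
        ex (g1 _) w (fun z => A (fun w => al η (w.1 g0)) z - 1) := by
      rw [hw.ex_sub bA0 (BM.const 1), H615.ex_const hw]
    rw [e1]
    have h2 : ∀ z, |A (fun w => al η (w.1 g0)) z - 1| ≤ η := by
      intro z
      have h3 : A (fun w => al η (w.1 g0)) z - 1 =
          A (fun w => al η (w.1 g0) - 1) z := by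
        rw [hAd, hG.av_sub 1 bal (Bm.const 1), hG.av_one]
      rw [h3]
      exact hG.abs_av_le 1 (bal.sub (Bm.const 1)).1 (fun p => abs_al_sub hη (p.1 g0)) z
    rw [abs_le]
    constructor
    · have := hw.ex_mono (BM.const (-η)) (bA0.sub (BM.const 1)) fun z => (abs_le.1 (h2 z)).1
      rwa [H615.ex_const hw] at this
    · have := hw.ex_mono (bA0.sub (BM.const 1)) (BM.const η) fun z => (abs_le.1 (h2 z)).2
      rwa [H615.ex_const hw] at this
  -- the exact identity
  have key := gg_exactU (b := b) (cB := cB) (cF := cF) (c := c) (n := n) h hA hM x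
    (Ψ := fun _ => 1) (Ψ' := fun _ _ _ => 0) (EG.const 1) (fun _ _ _ => EG.const 0)
    (fun l _ j => PD.const 1) (T := fun _ => 1) (Bm.const 1) (fun _ _ _ => rfl)
  rw [← hs2, ← hνd, ← hwd] at key
  simp only [one_mul, zero_mul, integral_zero, Finset.sum_const_zero, mul_zero, add_zero] at key
  have h1x : 0 < 1 - x := by linarith
  have hD : 0 < (1 - x) * (s2 * n) := by positivity
  set Vi : (Co n LB LF → ℝ) → ℝ := fun z =>
    r0 * A (fun w => ins η (w.1 g0) * al η (w.1 g0)) z -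
      (n : ℝ)⁻¹ * ∑ j, A (fun w => ins η (w.1 g0) * sp w.2 j) z *
        A (fun w => al η (w.1 g0) * sp w.2 j) z with hVi
  set Vr : (Co n LB LF → ℝ) → ℝ := fun z =>
    r0 * A (fun w => (1 - ins η (w.1 g0)) * al η (w.1 g0)) z -
      (n : ℝ)⁻¹ * ∑ j, A (fun w => (1 - ins η (w.1 g0)) * sp w.2 j) z *
        A (fun w => al η (w.1 g0) * sp w.2 j) z with hVr
  have bVi : BM Vi := ((BM.const _).mul (bmA (bin.mul bal))).sub ((BM.const _).mul
    (BM.sum _ fun j _ => (bmA (bin.mul (bsp j))).mul (bmA (bal.mul (bsp j)))))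
  have bVr : BM Vr := ((BM.const _).mul (bmA (bst.mul bal))).sub ((BM.const _).mul
    (BM.sum _ fun j _ => (bmA (bst.mul (bsp j))).mul (bmA (bal.mul (bsp j)))))
  have bsg : Bm fun w : (G → ℝ) × Xs n => sg (w.1 g0) := bm_sgU g0
  have hVi1 : ex (g1 _) w Vi = lam g0 / ((1 - x) * (s2 * n)) *
      ex (g1 _) w (A fun w => sg (w.1 g0)) := by
    unfold ex
    rw [← mul_div_assoc]
    congr 1
    have e1 : ∫ z, w z * Vi z ∂(Measure.pi (g1 (Co n LB LF))) =
        (1 / ((1 - x) * (s2 * n))) * ∫ z, w z * ((s2 * n - c g0) *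
          A (fun w => ins η (w.1 g0) * al η (w.1 g0)) z - (1 - x) * s2 *
          ∑ j, A (fun w => ins η (w.1 g0) * sp w.2 j) z *
            A (fun w => al η (w.1 g0) * sp w.2 j) z) ∂(gI (Co n LB LF)) := by
      rw [← integral_const_mul]
      refine integral_congr_ae (Filter.Eventually.of_forall fun z => ?_)
      simp only [hVi]
      rw [hc]
      field_simp
      ring
    rw [e1, key]
    have e2 : ∫ z, w z * A (fun w => sg (w.1 g0)) z ∂(gI (Co n LB LF)) =
      ∫ z, w z * A (fun w => sg (w.1 g0)) z ∂(Measure.pi (g1 (Co n LB LF))) := rfl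
    rw [← e2]
    ring
  have hsg1 : |ex (g1 _) w (A fun w => sg (w.1 g0))| ≤ 1 := by
    have h2 : ∀ z, |A (fun w => sg (w.1 g0)) z| ≤ 1 := fun z =>
      hG.abs_av_le 1 bsg.1 (fun p => (abs_sg (p.1 g0)).le) z
    rw [abs_le]
    constructor
    · have := hw.ex_mono (BM.const (-1)) (bmA bsg) fun z => (abs_le.1 (h2 z)).1
      rwa [H615.ex_const hw] at this
    · have := hw.ex_mono (bmA bsg) (BM.const 1) fun z => (abs_le.1 (h2 z)).2
      rwa [H615.ex_const hw] at this
  have hVr1 : |ex (g1 _) w Vr| ≤ (|r0| + 1) * (1 + η) * stk n ν b cB cF a η x g0 := by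
    have hCal : ∀ p : (G → ℝ) × Xs n, |al η (p.1 g0)| ≤ 1 + η := fun p => by
      have h1 := al_mem hη (p.1 g0)
      rw [abs_le]; constructor <;> linarith [h1.1, h1.2]
    have hpt : ∀ z, |Vr z| ≤ (|r0| + 1) * (1 + η) * A (fun w => 1 - ins η (w.1 g0)) z := by
      intro z
      set q := A (fun w => 1 - ins η (w.1 g0)) z with hq
      have hq0 : 0 ≤ q := hG.av_nonneg 1 (fun p => by linarith [ins_le η (p.1 g0)]) z
      have t1 : |A (fun w => (1 - ins η (w.1 g0)) * al η (w.1 g0)) z| ≤ (1 + η) * q :=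
        abs_stk_le h hA bal hCal z
      have t2 : ∀ j, |A (fun w => (1 - ins η (w.1 g0)) * sp w.2 j) z *
          A (fun w => al η (w.1 g0) * sp w.2 j) z| ≤ q * (1 + η) := by
        intro j
        have t3 : |A (fun w => (1 - ins η (w.1 g0)) * sp w.2 j) z| ≤ 1 * q :=
          abs_stk_le h hA (bsp j) (fun p => (abs_one_sp p.2 j).le) z
        rw [one_mul] at t3
        rw [abs_mul]
        refine mul_le_mul t3 ?_ (abs_nonneg _) hq0
        refine hG.abs_av_le (h := fun w : (G → ℝ) × Xs n => al η (w.1 g0) * sp w.2 j) 1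
          (bal.mul (bsp j)).1 (fun p => ?_) z
        rw [abs_mul, abs_one_sp, mul_one]
        exact hCal p
      have t4 : |(n : ℝ)⁻¹ * ∑ j, A (fun w => (1 - ins η (w.1 g0)) * sp w.2 j) z *
          A (fun w => al η (w.1 g0) * sp w.2 j) z| ≤ q * (1 + η) := by
        rw [abs_mul, abs_of_nonneg (by positivity : (0 : ℝ) ≤ (n : ℝ)⁻¹), inv_mul_le_iff₀ hn]
        refine (Finset.abs_sum_le_sum_abs _ _).trans ((Finset.sum_le_sum fun i _ => t2 i).trans ?_)
        rw [Finset.sum_const, Finset.card_univ, Fintype.card_fin, nsmul_eq_mul]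
      calc |Vr z| ≤ |r0 * A (fun w => (1 - ins η (w.1 g0)) * al η (w.1 g0)) z| + _ := abs_sub _ _
        _ ≤ |r0| * ((1 + η) * q) + q * (1 + η) := by
            refine add_le_add ?_ t4
            rw [abs_mul]
            exact mul_le_mul_of_nonneg_left t1 (abs_nonneg _)
        _ = _ := by ring
    have bq : BM (A fun w => 1 - ins η (w.1 g0)) := bmA bst
    have hst : stk n ν b cB cF a η x g0 = ex (g1 _) w (A fun w => 1 - ins η (w.1 g0)) := rfl
    rw [hst, ← hw.ex_const_mul, abs_le]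
    constructor
    · have h3 := hw.ex_mono ((BM.const (-1)).mul ((BM.const _).mul bq)) bVr fun z => by
        have := (abs_le.1 (hpt z)).1
        show (-1 : ℝ) * ((|r0| + 1) * (1 + η) * A (fun w => 1 - ins η (w.1 g0)) z) ≤ Vr z
        linarith
      rw [hw.ex_const_mul] at h3
      linarith
    · exact hw.ex_mono bVr ((BM.const _).mul bq) fun z => (abs_le.1 (hpt z)).2
  -- the decomposition
  have hdec : ex (g1 _) w (H615.Tf A x (fun w => al η (w.1 g0)) (fun w => sp w.2 i0)) =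
      (1 - (1 - x) * r0) * ex (g1 _) w (A fun w => al η (w.1 g0)) +
        (1 - x) * (ex (g1 _) w Vi + ex (g1 _) w Vr) := by
    have e1 : ex (g1 _) w (H615.Tf A x (fun w => al η (w.1 g0)) (fun w => sp w.2 i0)) =
        ex (g1 _) w (A fun w => al η (w.1 g0)) - (1 - x) * ex (g1 _) w (P i0) := by
      rw [← hw.ex_const_mul, ← hw.ex_sub bA0 ((BM.const _).mul (bP i0))]
      rfl
    have e2 : ex (g1 _) w Vi + ex (g1 _) w Vr =
        r0 * ex (g1 _) w (A fun w => al η (w.1 g0)) - ex (g1 _) w (P i0) := by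
      have e3 : ex (g1 _) w (P i0) = (n : ℝ)⁻¹ * ex (g1 _) w (fun z => ∑ j, P j z) := by
        rw [hsum]; field_simp
      rw [e3, ← hw.ex_const_mul, ← hw.ex_const_mul, ← hw.ex_add bVi bVr,
        ← hw.ex_sub ((BM.const _).mul bA0) ((BM.const _).mul (BM.sum _ fun j _ => bP j))]
      congr 1
      funext z
      have f1 : A (fun w => al η (w.1 g0)) z =
          A (fun w => ins η (w.1 g0) * al η (w.1 g0)) z +
            A (fun w => (1 - ins η (w.1 g0)) * al η (w.1 g0)) z := by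
        rw [hAd, ← hG.av_add 1 (bin.mul bal) (bst.mul bal)]
        congr 1
        funext w
        ring
      have f2 : ∀ j, P j z = A (fun w => ins η (w.1 g0) * sp w.2 j) z *
            A (fun w => al η (w.1 g0) * sp w.2 j) z +
          A (fun w => (1 - ins η (w.1 g0)) * sp w.2 j) z *
            A (fun w => al η (w.1 g0) * sp w.2 j) z := by
        intro j
        have f3 : A (fun w => sp w.2 j) z = A (fun w => ins η (w.1 g0) * sp w.2 j) z +
            A (fun w => (1 - ins η (w.1 g0)) * sp w.2 j) z := by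
          rw [hAd, ← hG.av_add 1 (bin.mul (bsp j)) (bst.mul (bsp j))]
          congr 1
          funext w
          ring
        simp only [hP]
        rw [f3]
        ring
      simp only [f2, Finset.sum_add_distrib, hVi, hVr]
      rw [f1]
      ring
    rw [e1, e2]
    ring
  show |ex (g1 _) w (H615.Tf A x (fun w => al η (w.1 g0)) (fun w => sp w.2 i0)) -
    (1 - (1 - x) * r0)| ≤ _
  rw [hdec]
  have q1 : |(1 - (1 - x) * r0) * (ex (g1 _) w (A fun w => al η (w.1 g0)) - 1)| ≤
      |1 - (1 - x) * r0| * η := by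
    rw [abs_mul]
    exact mul_le_mul_of_nonneg_left hal (abs_nonneg _)
  have q2 : |(1 - x) * ex (g1 _) w Vi| ≤ lam g0 / (s2 * n) := by
    have hlam := h g0
    have e1 : (1 - x) * (lam g0 / ((1 - x) * (s2 * n)) * ex (g1 _) w (A fun w => sg (w.1 g0))) =
        lam g0 / (s2 * n) * ex (g1 _) w (A fun w => sg (w.1 g0)) := by
      field_simp
    rw [hVi1, e1, abs_mul, abs_of_nonneg (by positivity : (0 : ℝ) ≤ lam g0 / (s2 * n))]
    exact mul_le_of_le_one_right (by positivity) hsg1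
  have q3 : |(1 - x) * ex (g1 _) w Vr| ≤
      (|r0| + 1) * (1 + η) * stk n ν b cB cF a η x g0 := by
    rw [abs_mul, abs_of_pos h1x]
    calc (1 - x) * |ex (g1 _) w Vr| ≤ 1 * |ex (g1 _) w Vr| :=
          mul_le_mul_of_nonneg_right (by linarith) (abs_nonneg _)
      _ ≤ _ := by rw [one_mul]; exact hVr1
  have e9 : (1 - (1 - x) * r0) * ex (g1 _) w (A fun w => al η (w.1 g0)) +
        (1 - x) * (ex (g1 _) w Vi + ex (g1 _) w Vr) - (1 - (1 - x) * r0) =
      (1 - (1 - x) * r0) * (ex (g1 _) w (A fun w => al η (w.1 g0)) - 1) +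
        (1 - x) * ex (g1 _) w Vi + (1 - x) * ex (g1 _) w Vr := by ring
  rw [e9]
  refine (abs_add_le _ _).trans (add_le_add ((abs_add_le _ _).trans (add_le_add q1 q2)) q3)

end Vale.Agent.P146.H646
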