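import Vale.Agent.P146.H420B.GgrC
import Vale.Agent.P146.H281.U3
import Vale.Agent.P146.H646.I2fU

/-! The linear identity of the row of a hidden site in the ensemble `U`, tested with the conditional
means, when modulated levels are revealed (route GGR): the number `D` of `H585.U.row_one`. -/

open MeasureTheory ProbabilityTheory

namespace Vale.Agent.P146.H646

open Vale.Agent.P157.Lv hiding Dep
open Vale.Agent.P146.H196 Vale.Agent.P146.H475 Vale.Agent.P146.H816 Vale.Agent.P146.H325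
  Vale.Agent.P146.H347 Vale.Agent.P146.H347.U Vale.Agent.P146.H281.U

set_option linter.unusedSectionVars false

section def1

variable {Θ : Type} [MeasurableSpace Θ] {LB LF : Type} [Fintype LB] [DecidableEq LB]
  [Fintype LF] [DecidableEq LF]

/-- the conditional means -/
noncomputable abbrev MU (n : ℕ) (ν : Measure Θ) (b : ℝ) (cB : LB → ℝ) (cF : LF → ℝ)
    (a : LF → Θ → ℝ) (x : ℝ) (K : Finset (Co n LB LF)) (r : Θ → ℝ) (j : Fin n) :
    (Co n LB LF → ℝ) → ℝ :=
  cxU n ν b cB cF a x K (avU n ν b cB cF a (fun w => r w.1 * sp w.2 j))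

/-- the sum of the squares of the conditional means of the pairs in `S` -/
noncomputable def R2U (n : ℕ) (ν : Measure Θ) (b : ℝ) (cB : LB → ℝ) (cF : LF → ℝ)
    (a : LF → Θ → ℝ) (x : ℝ) (K : Finset (Co n LB LF)) (S : Finset (Fin n)) : ℝ :=
  ∑ j ∈ S, ∑ l ∈ S, exU n ν b cB cF a x (fun z =>
    cxU n ν b cB cF a x K (avU n ν b cB cF a (fun w => sp w.2 j * sp w.2 l)) z ^ 2)

/-- the energy of the response of the conditional means to the modulated field -/
noncomputable def X2U (n : ℕ) (ν : Measure Θ) (b : ℝ) (cB : LB → ℝ) (cF : LF → ℝ)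
    (a : LF → Θ → ℝ) (x : ℝ) (K : Finset (Co n LB LF)) (r : Θ → ℝ) (S : Finset (Fin n)) : ℝ :=
  ∑ j ∈ S, ∑ i ∈ S, exU n ν b cB cF a x (fun z =>
    H420B.Xr (muU ν n) (SU b cB cF a) x K (fun (i : Fin n) w => sp w.2 i) (fun w => r w.1)
      (fun (j : Fin n) w => sp w.2 j) j i z ^ 2)

end def1

/-- the error of the linear identity -/
noncomputable def errD (η r0 gg vr D m R2 R2S X2 st q : ℝ) : ℝ :=
  (√(8 * (1 + η) ^ 2 * √R2 / D) + gg * √√R2S +
    √(m * ((|r0| + 1) * (1 + η)) ^ 2 * st)) * √q + vr * (√X2 * √(2 * R2S + 2 * (m ^ 2 * st)))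

variable {G : Type} [Fintype G] [DecidableEq G] {n : ℕ} {LB LF : Type} [Fintype LB]
  [DecidableEq LB] [Fintype LF] [DecidableEq LF] {b : ℝ} {cB : LB → ℝ} {cF : LF → ℝ}
  {a : LF → (G → ℝ) → ℝ} {lam c : G → ℝ} {η x : ℝ} {g0 : G} {Lm : Finset LF}

/-- **(I2) tested with the conditional means, modulated levels revealed (GGR).** -/
theorem dU (h : ∀ g, 0 < lam g) (hA : AmU a η) (hM : Mods a η g0 Lm) (hx0 : 0 ≤ x)
    (hx : x < 1) (hs : 0 < ∑ l ∈ Lm, cF l ^ 2) {r0 : ℝ}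
    (hc : c g0 = (∑ l ∈ Lm, cF l ^ 2) * n * (1 - (1 - x) * r0)) (BL : Finset LB)
    (FL : Finset LF) {S S1 : Finset (Fin n)} (hS : S ⊆ S1) {i0 : Fin n} (hi0 : i0 ∉ S)
    (hne : (S1 \ S).Nonempty) :
    |exU n (nuG lam η c) b cB cF a x (fun z => ∑ j ∈ S,
          MU n (nuG lam η c) b cB cF a x (Kset S BL FL) (fun θ => al η (θ g0)) j z *
          H615.Th (avU n (nuG lam η c) b cB cF a) x (fun w => al η (w.1 g0))
            (fun w => sp w.2 i0) (fun j w => sp w.2 j) j z)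
        - (1 - (1 - x) * r0) * exU n (nuG lam η c) b cB cF a x (fun z => H615.m2 S (fun j =>
          MU n (nuG lam η c) b cB cF a x (Kset S BL FL) (fun θ => al η (θ g0)) j) z)|
      ≤ errD η r0 (lam g0 / ((∑ l ∈ Lm, cF l ^ 2) * n))
          ((∑ l ∈ Lm.filter (· ∈ FL), cF l ^ 2) / ((∑ l ∈ Lm, cF l ^ 2) * n))
          (S1 \ S).card S.card
          (R2U n (nuG lam η c) b cB cF a x (Kset S1 BL FL) Finset.univ)
          (R2U n (nuG lam η c) b cB cF a x (Kset S BL FL) S)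
          (X2U n (nuG lam η c) b cB cF a x (Kset S BL FL) (fun θ => al η (θ g0)) S)
          (stk n (nuG lam η c) b cB cF a η x g0)
          (exU n (nuG lam η c) b cB cF a x (fun z => H615.m2 S (fun j =>
            MU n (nuG lam η c) b cB cF a x (Kset S BL FL) (fun θ => al η (θ g0)) j) z)) := by
  classical
  have hη := hA.nn
  have hν := finite_nuG h hη c
  have h0 := nuG_ne h hη c
  have hG := gmU (n := n) b cB cF η hν h0 hA
  have hw := wtU (n := n) (LB := LB) b cB cF hν h0 hA x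
  have : Nonempty (Fin n) := ⟨i0⟩
  have hn : (0 : ℝ) < n := by
    have : 0 < n := lt_of_le_of_lt (Nat.zero_le _) i0.2
    exact_mod_cast this
  have hr : Measurable fun θ : G → ℝ => al η (θ g0) :=
    (measurable_al η).comp (measurable_pi_apply g0)
  have hrη : ∀ θ : G → ℝ, |al η (θ g0) - 1| ≤ η := fun θ => abs_al_sub hη (θ g0)
  have hra : ∀ θ : G → ℝ, |al η (θ g0)| ≤ 1 + η := fun θ => by
    have h1 := al_mem hη (θ g0)
    rw [abs_le]; constructor <;> linarith [h1.1, h1.2]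
  have k1 := i2R_U (n := n) (x := x) hν h0 b cB cF hA hr hη hrη hx0 hx.le r0 BL FL hS hi0 hne
  have bt : ∀ j : Fin n, Bm fun w : (G → ℝ) × Xs n => sp w.2 j := fun j => H347.U.bm_spU j
  have ht1 : ∀ (j : Fin n) (w : (G → ℝ) × Xs n), |sp w.2 j| ≤ 1 := fun j w =>
    (abs_one_sp w.2 j).le
  have hms : H420B.MS (SU b cB cF a : Co n LB LF → (G → ℝ) × Xs n → ℝ)
      (fun (i : Fin n) (l : {l // l ∈ Lm}) => fd LB i l.1) (fun l => cF l.1)
      (fun i w => sp w.2 i) (fun w => al η (w.1 g0)) (fun w => ins η (w.1 g0))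
      (fun w => sg (w.1 g0)) := ms_U hη hM
  have hvG : H420B.vG (fun l : {l // l ∈ Lm} => cF l.1) = ∑ l ∈ Lm, cF l ^ 2 := vG_U
  have hK : ∀ (i : Fin n) (l : {l // l ∈ Lm}), fd LB i l.1 ∈ Kset S BL FL ↔
      i ∈ S ∧ l ∈ (Finset.univ.filter fun l : {l // l ∈ Lm} => l.1 ∈ FL) := by
    intro i l
    rw [Finset.mem_filter]
    simp only [Finset.mem_univ, true_and]
    exact fd_memK i l.1
  have k2 := H420B.ggr_M (x := x) (r0 := r0) (σ := fun (i : Fin n) (w : (G → ℝ) × Xs n) =>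
    sp w.2 i) (τ := fun (j : Fin n) (w : (G → ℝ) × Xs n) => sp w.2 j) hG hms
    (by rw [hvG]; exact hs) hx (h g0).le hη (fun w => hra w.1) bt ht1
    (fun j => aibp_U_sp h hA hM fun σ => sp σ j)
    (by rw [hvG, Fintype.card_fin]; exact hc) hK S
  rw [hvG, Fintype.card_fin] at k2
  set ν := nuG lam η c with hνd
  set s2 := ∑ l ∈ Lm, cF l ^ 2 with hs2
  set w := Zxm (muU ν n) 1 (SU b cB cF a : Co n LB LF → _) x with hwd
  set A : ((G → ℝ) × Xs n → ℝ) → (Co n LB LF → ℝ) → ℝ :=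
    avm (muU ν n) 1 (SU b cB cF a) with hAd
  set K : Finset (Co n LB LF) := Kset S BL FL with hKd
  have hSt := sitesU (n := n) b cB cF a hν hr hra
  set V : Fin n → (Co n LB LF → ℝ) → ℝ := fun j =>
    Va (muU ν n) 1 r0 (SU b cB cF a) (fun (i : Fin n) w => sp w.2 i) (fun w => al η (w.1 g0))
      (fun (j : Fin n) w => sp w.2 j) j with hV
  set M : Fin n → (Co n LB LF → ℝ) → ℝ := fun j =>
    cx (g1 _) K w (A fun w => al η (w.1 g0) * sp w.2 j) with hMd
  have bV : ∀ j, BM (V j) := fun j => hSt.bm_Va hG 1 r0 j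
  have bM : ∀ j, BM (M j) := fun j => hSt.bm_av hG 1 j |> hw.bm_cx K
  have e1 : ∀ j, ex (g1 _) w (fun z => M j z * cx (g1 _) K w (V j) z) =
      ex (g1 _) w (fun z => M j z * V j z) := fun j =>
    ex_cx hw (dep_cx K) (bM j) (bV j)
  have hq : ex (g1 _) w (fun z => H615.m2 S M z) = ∑ j ∈ S, ex (g1 _) w (fun z => M j z ^ 2) :=
    hw.ex_sum S fun j _ => (bM j).sq
  set q := ex (g1 _) w (fun z => H615.m2 S M z) with hqd
  set B := ∑ j ∈ S, ex (g1 _) w (fun z => M j z * V j z) with hB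
  set TT := ex (g1 _) w (fun z => ∑ j ∈ S, M j z *
    H615.Th A x (fun w => al η (w.1 g0)) (fun w => sp w.2 i0) (fun j w => sp w.2 j) j z) with hTT
  have k1' : |TT - (1 - (1 - x) * r0) * q - (1 - x) * B| ≤
      √(8 * (1 + η) ^ 2 * √(R2U n ν b cB cF a x (Kset S1 BL FL) Finset.univ) /
        (S1 \ S).card) * √q := k1
  have hB' : ∑ j ∈ S, ex (g1 _) w (fun z => M j z * cx (g1 _) K w (V j) z) = B :=
    Finset.sum_congr rfl fun j _ => e1 j
  have hst : ex (g1 _) w (A fun w => 1 - ins η (w.1 g0)) = stk n ν b cB cF a η x g0 := rfl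
  have bst : Bm fun w : (G → ℝ) × Xs n => 1 - ins η (w.1 g0) := (Bm.const 1).sub (bm_insU η g0)
  have b2 : BM (A fun w => 1 - ins η (w.1 g0)) := H347.bm hG 1 bst
  -- the pair functions
  have hpair : ∑ j ∈ S, ∑ i ∈ S, ex (g1 _) w (fun z =>
      cx (g1 _) K w (A fun w => sp w.2 j * ins η (w.1 g0) * sp w.2 i) z ^ 2) ≤
      2 * R2U n ν b cB cF a x K S + 2 * ((S.card : ℝ) ^ 2 * stk n ν b cB cF a η x g0) := by
    have f1 : ∀ j ∈ S, ∀ i ∈ S, ex (g1 _) w (fun z =>
        cx (g1 _) K w (A fun w => sp w.2 j * ins η (w.1 g0) * sp w.2 i) z ^ 2) ≤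
        2 * ex (g1 _) w (fun z => cx (g1 _) K w (A fun w => sp w.2 j * sp w.2 i) z ^ 2) +
          2 * stk n ν b cB cF a η x g0 := by
      intro j _ i _
      have b3 : BM (A fun w => sp w.2 j * sp w.2 i) := H347.bm hG 1 ((bt j).mul (bt i))
      have b4 : BM (A fun w => sp w.2 j * ins η (w.1 g0) * sp w.2 i) :=
        H347.bm hG 1 (((bt j).mul (bm_insU η g0)).mul (bt i))
      rw [← hst, ← ex_cx' hw b2 (K := K), ← hw.ex_const_mul, ← hw.ex_const_mul,
        ← hw.ex_add ((BM.const 2).mul (hw.bm_cx K b3).sq) ((BM.const 2).mul (hw.bm_cx K b2))]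
      exact hw.ex_mono (hw.bm_cx K b4).sq (((BM.const 2).mul (hw.bm_cx K b3).sq).add
        ((BM.const 2).mul (hw.bm_cx K b2))) fun z =>
          H420B.cx_I_le hG hms bt ht1 K j i z
    refine (Finset.sum_le_sum fun j hj => Finset.sum_le_sum fun i hi => f1 j hj i hi).trans ?_
    simp only [Finset.sum_add_distrib, Finset.sum_const, nsmul_eq_mul, ← Finset.mul_sum]
    refine le_of_eq ?_
    unfold R2U
    ring
  have hLr : ∑ l ∈ (Finset.univ.filter fun l : {l // l ∈ Lm} => l.1 ∈ FL), cF l.1 ^ 2 =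
      ∑ l ∈ Lm.filter (· ∈ FL), cF l ^ 2 := by
    rw [Finset.sum_filter, Finset.sum_filter]
    exact Finset.sum_coe_sort Lm fun l => if l ∈ FL then cF l ^ 2 else 0
  have hx1 : 0 < 1 - x := by linarith
  have k3 : |(1 - x) * B| ≤
      (lam g0 / (s2 * n) * √√(R2U n ν b cB cF a x K S) +
        √(S.card * ((|r0| + 1) * (1 + η)) ^ 2 * stk n ν b cB cF a η x g0)) * √q +
      (∑ l ∈ Lm.filter (· ∈ FL), cF l ^ 2) / (s2 * n) *
        (√(X2U n ν b cB cF a x K (fun θ => al η (θ g0)) S) *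
          √(2 * R2U n ν b cB cF a x K S + 2 * ((S.card : ℝ) ^ 2 * stk n ν b cB cF a η x g0))) := by
    have k2' : |B| ≤ (lam g0 / ((1 - x) * (s2 * n)) * √√(R2U n ν b cB cF a x K S) +
        √(S.card * ((|r0| + 1) * (1 + η)) ^ 2 * stk n ν b cB cF a η x g0)) * √q +
      (∑ l ∈ Lm.filter (· ∈ FL), cF l ^ 2) / ((1 - x) * (s2 * n)) *
        (√(X2U n ν b cB cF a x K (fun θ => al η (θ g0)) S) *
          √(∑ j ∈ S, ∑ i ∈ S, ex (g1 _) w (fun z =>
            cx (g1 _) K w (A fun w => sp w.2 j * ins η (w.1 g0) * sp w.2 i) z ^ 2))) := by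
      rw [← hB', ← hLr, hq]
      exact k2
    rw [abs_mul, abs_of_pos hx1]
    have hvr : 0 ≤ (∑ l ∈ Lm.filter (· ∈ FL), cF l ^ 2) / (s2 * n) :=
      div_nonneg (Finset.sum_nonneg fun _ _ => sq_nonneg _) (by positivity)
    have hXn := Real.sqrt_nonneg (X2U n ν b cB cF a x K (fun θ => al η (θ g0)) S)
    have hsn := Real.sqrt_nonneg (S.card * ((|r0| + 1) * (1 + η)) ^ 2 *
      stk n ν b cB cF a η x g0)
    have hqn := Real.sqrt_nonneg q
    calc (1 - x) * |B| ≤ (1 - x) * ((lam g0 / ((1 - x) * (s2 * n)) *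
          √√(R2U n ν b cB cF a x K S) +
        √(S.card * ((|r0| + 1) * (1 + η)) ^ 2 * stk n ν b cB cF a η x g0)) * √q +
      (∑ l ∈ Lm.filter (· ∈ FL), cF l ^ 2) / ((1 - x) * (s2 * n)) *
        (√(X2U n ν b cB cF a x K (fun θ => al η (θ g0)) S) *
          √(∑ j ∈ S, ∑ i ∈ S, ex (g1 _) w (fun z =>
            cx (g1 _) K w (A fun w => sp w.2 j * ins η (w.1 g0) * sp w.2 i) z ^ 2)))) :=
          mul_le_mul_of_nonneg_left k2' hx1.le
      _ = (lam g0 / (s2 * n) * √√(R2U n ν b cB cF a x K S) + (1 - x) *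
        √(S.card * ((|r0| + 1) * (1 + η)) ^ 2 * stk n ν b cB cF a η x g0)) * √q +
      (∑ l ∈ Lm.filter (· ∈ FL), cF l ^ 2) / (s2 * n) *
        (√(X2U n ν b cB cF a x K (fun θ => al η (θ g0)) S) *
          √(∑ j ∈ S, ∑ i ∈ S, ex (g1 _) w (fun z =>
            cx (g1 _) K w (A fun w => sp w.2 j * ins η (w.1 g0) * sp w.2 i) z ^ 2))) := by
          field_simp
      _ ≤ _ := by
          refine add_le_add (mul_le_mul_of_nonneg_right (add_le_add le_rfl ?_) hqn)
            (mul_le_mul_of_nonneg_left (mul_le_mul_of_nonneg_left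
              (Real.sqrt_le_sqrt hpair) hXn) hvr)
          exact mul_le_of_le_one_left hsn (by linarith)
  show |TT - (1 - (1 - x) * r0) * q| ≤ errD η r0 (lam g0 / (s2 * n))
          ((∑ l ∈ Lm.filter (· ∈ FL), cF l ^ 2) / (s2 * n))
          (S1 \ S).card S.card
          (R2U n ν b cB cF a x (Kset S1 BL FL) Finset.univ)
          (R2U n ν b cB cF a x K S)
          (X2U n ν b cB cF a x K (fun θ => al η (θ g0)) S)
          (stk n ν b cB cF a η x g0) q
  unfold errD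
  have e5 : TT - (1 - (1 - x) * r0) * q =
      (TT - (1 - (1 - x) * r0) * q - (1 - x) * B) + (1 - x) * B := by ring
  rw [e5]
  refine (abs_add_le _ _).trans ((add_le_add k1' k3).trans (le_of_eq ?_))
  ring

end Vale.Agent.P146.H646
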