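import Vale.Agent.P146.H646.DU
import Vale.Agent.P146.H118.RkU

/-! The response energy of `dU` is the response number `H118.RXU`. -/

open MeasureTheory ProbabilityTheory

namespace Vale.Agent.P146.H646

open Vale.Agent.P157.Lv hiding Dep
open Vale.Agent.P146.H196 Vale.Agent.P146.H475 Vale.Agent.P146.H816 Vale.Agent.P146.H325
  Vale.Agent.P146.H347 Vale.Agent.P146.H347.U Vale.Agent.P146.H281.U Vale.Agent.P146.H118
  Vale.Agent.P146.H246 Vale.Agent.P146.H9.U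

set_option linter.unusedSectionVars false

section gen

variable {ι s J Ω : Type} [Fintype ι] [DecidableEq ι] [Fintype s] [DecidableEq s] [Fintype J]
  [DecidableEq J] [MeasurableSpace Ω] {μ : Measure Ω} {S : ι → Ω → ℝ} {M0 : ℝ}

/-- the two forms of the response -/
lemma xr_eq_rg (hG : GM μ S M0) (x : ℝ) (K : Finset ι) {σ : s → Ω → ℝ} {a : Ω → ℝ}
    {τ : J → Ω → ℝ} (j : J) (i : s) (b1 : Bm fun w => a w * τ j w)
    (b2 : Bm fun w => a w * σ i w) (z : ι → ℝ) :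
    H420B.Xr μ S x K σ a τ j i z =
      rg μ S x K (fun w => a w * τ j w) (fun w => a w * σ i w) z := by
  have hw := H347.wt hG 1 x
  have c1 := H347.bm hG 1 (b1.mul b2)
  have c2 := (H347.bm hG 1 b1).mul (H347.bm hG 1 b2)
  unfold H420B.Xr rg cg
  rw [cx_sub hw c1 ((BM.const _).mul c2), cx_const_mul hw]

end gen

variable {Θ A : Type} [MeasurableSpace Θ] [Fintype A] [DecidableEq A] {n : ℕ} {LB LF : Type}
  [Fintype LB] [DecidableEq LB] [Fintype LF] [DecidableEq LF] {ν : Measure Θ} {b M0 M1 x : ℝ}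
  {cB : LB → ℝ} {cF : LF → ℝ} {κ : LF → A} {α : A → Θ → ℝ} {VF : A → ℝ} {BL : Finset LB}
  {FL : Finset LF} {t : ℝ} {u : A → ℝ}

/-- **the response energy of `dU` in the letters of `H118.RkU`** -/
theorem x2U_eq (hG : GM (muU ν n) (SbU n b VF α) M0)
    (hG1 : GM (muU ν n) (SU b cB cF fun l => α (κ l) : Co n LB LF → Θ × Xs n → ℝ) M1)
    (hV : ∀ k, 0 < VF k) (hs : ShU κ cB cF BL FL VF t u) (k : A) (hr : Measurable (α k))
    {C : ℝ} (hC : ∀ θ, |α k θ| ≤ C) (S : Finset (Fin n)) :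
    X2U n ν b cB cF (fun l => α (κ l)) x (Kset S BL FL) (α k) S =
      RXU (muU ν n) b VF α x k S t u := by
  have hw := H347.wt hG1 1 x
  have b1 : ∀ j : Fin n, Bm fun w : Θ × Xs n => α k w.1 * sp w.2 j := fun j =>
    bm_fun_sp hr hC j
  rw [← rxU_eq hG hG1 hV hs x k S]
  have e1 : ∀ (j i : Fin n) z, H420B.Xr (muU ν n) (SU b cB cF fun l => α (κ l)) x
      (Kset S BL FL) (fun (i : Fin n) (w : Θ × Xs n) => sp w.2 i) (fun w => α k w.1)
      (fun (j : Fin n) w => sp w.2 j) j i z =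
      rg (muU ν n) (SU b cB cF fun l => α (κ l)) x (Kset S BL FL)
        (fun w => α k w.1 * sp w.2 j) (fun w => α k w.1 * sp w.2 i) z := fun j i z =>
    xr_eq_rg hG1 x (Kset S BL FL) j i (b1 j) (b1 i) z
  have bX : ∀ j i : Fin n, BM (rg (muU ν n) (SU b cB cF fun l => α (κ l) :
      Co n LB LF → Θ × Xs n → ℝ) x (Kset S BL FL)
        (fun w => α k w.1 * sp w.2 j) (fun w => α k w.1 * sp w.2 i)) := by
    intro j i
    have c1 := H347.bm hG1 1 ((b1 j).mul (b1 i))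
    have c2 := (H347.bm hG1 1 (b1 j)).mul (H347.bm hG1 1 (b1 i))
    exact (hw.bm_cx _ (c1.sub ((BM.const _).mul c2))).sub ((BM.const _).mul
      ((hw.bm_cx _ (H347.bm hG1 1 (b1 j))).mul (hw.bm_cx _ (H347.bm hG1 1 (b1 i)))))
  unfold X2U
  simp only [e1]
  show ∑ j ∈ S, ∑ i ∈ S, ex (g1 _) (Zxm (muU ν n) 1 (SU b cB cF fun l => α (κ l)) x) _ =
    ex (g1 _) (Zxm (muU ν n) 1 (SU b cB cF fun l => α (κ l)) x) _
  rw [hw.ex_sum S fun j _ => BM.sum S fun i _ => (bX j i).sq]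
  refine Finset.sum_congr rfl fun j _ => ?_
  rw [hw.ex_sum S fun i _ => (bX j i).sq]

/-- **the number `D` in normalised letters** -/
theorem errD_norm {η r0 gg vr D m R2 R2S X2 st q N c cS X q' : ℝ} (hN : 0 < N) (hη : 0 ≤ η)
    (hgg : 0 ≤ gg) (hvr : vr ≤ 1 / N) (hD : 0 < D) (hm0 : 0 ≤ m) (hm : m ≤ N)
    (hst : 0 ≤ st) (hc0 : 0 ≤ c) (hc : R2 ≤ (N * c) ^ 2) (hcS0 : 0 ≤ cS)
    (hcS : R2S ≤ (N * cS) ^ 2) (hX : X2 ≤ N ^ 2 * X) (hq : q ≤ N * q') :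
    errD η r0 gg vr D m R2 R2S X2 st q ≤
      N * ((√(8 * (1 + η) ^ 2 * c / D) + gg * √cS + (|r0| + 1) * (1 + η) * √st) * √q' +
        √X * √(2 * cS ^ 2 + 2 * st)) := by
  have hN1 : √N * √N = N := Real.mul_self_sqrt hN.le
  have hN0 := Real.sqrt_nonneg N
  have a1 : √R2 ≤ N * c := by
    rw [← Real.sqrt_sq (mul_nonneg hN.le hc0)]; exact Real.sqrt_le_sqrt hc
  have a2 : √√R2S ≤ √N * √cS := by
    rw [← Real.sqrt_mul hN.le]
    refine Real.sqrt_le_sqrt ?_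
    rw [← Real.sqrt_sq (mul_nonneg hN.le hcS0)]; exact Real.sqrt_le_sqrt hcS
  have a3 : √q ≤ √N * √q' := by
    rw [← Real.sqrt_mul hN.le]; exact Real.sqrt_le_sqrt hq
  have a4 : √(8 * (1 + η) ^ 2 * √R2 / D) ≤ √N * √(8 * (1 + η) ^ 2 * c / D) := by
    rw [← Real.sqrt_mul hN.le]
    refine Real.sqrt_le_sqrt ?_
    rw [← mul_div_assoc, div_le_div_iff_of_pos_right hD]
    have : 0 ≤ 8 * (1 + η) ^ 2 := by positivity
    nlinarith [mul_le_mul_of_nonneg_left a1 this]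
  have hr : 0 ≤ (|r0| + 1) * (1 + η) := by positivity
  have a5 : √(m * ((|r0| + 1) * (1 + η)) ^ 2 * st) ≤ √N * ((|r0| + 1) * (1 + η) * √st) := by
    have e : √N * ((|r0| + 1) * (1 + η) * √st) = √(N * ((|r0| + 1) * (1 + η)) ^ 2 * st) := by
      rw [Real.sqrt_mul (by positivity), Real.sqrt_mul hN.le, Real.sqrt_sq hr]
      ring
    rw [e]
    refine Real.sqrt_le_sqrt ?_
    exact mul_le_mul_of_nonneg_right (mul_le_mul_of_nonneg_right hm (sq_nonneg _)) hst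
  have a6 : √X2 ≤ N * √X := by
    calc √X2 ≤ √(N ^ 2 * X) := Real.sqrt_le_sqrt hX
      _ = N * √X := by rw [Real.sqrt_mul (sq_nonneg N), Real.sqrt_sq hN.le]
  have a7 : √(2 * R2S + 2 * (m ^ 2 * st)) ≤ N * √(2 * cS ^ 2 + 2 * st) := by
    calc √(2 * R2S + 2 * (m ^ 2 * st)) ≤ √(N ^ 2 * (2 * cS ^ 2 + 2 * st)) := by
          refine Real.sqrt_le_sqrt ?_
          have h2 : m ^ 2 ≤ N ^ 2 := pow_le_pow_left₀ hm0 hm 2
          nlinarith [mul_le_mul_of_nonneg_right h2 hst]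
      _ = _ := by rw [Real.sqrt_mul (sq_nonneg N), Real.sqrt_sq hN.le]
  set u1 := √(8 * (1 + η) ^ 2 * c / D)
  set u2 := √cS
  set u3 := (|r0| + 1) * (1 + η) * √st
  have hu1 : 0 ≤ u1 := Real.sqrt_nonneg _
  have hu2 : 0 ≤ u2 := Real.sqrt_nonneg _
  have hu3 : 0 ≤ u3 := mul_nonneg hr (Real.sqrt_nonneg _)
  have b1 : √(8 * (1 + η) ^ 2 * √R2 / D) + gg * √√R2S +
      √(m * ((|r0| + 1) * (1 + η)) ^ 2 * st) ≤ √N * (u1 + gg * u2 + u3) := by
    have := mul_le_mul_of_nonneg_left a2 hgg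
    nlinarith
  have b2 : (√(8 * (1 + η) ^ 2 * √R2 / D) + gg * √√R2S +
      √(m * ((|r0| + 1) * (1 + η)) ^ 2 * st)) * √q ≤
      (√N * (u1 + gg * u2 + u3)) * (√N * √q') := by
    refine mul_le_mul b1 a3 (Real.sqrt_nonneg _) ?_
    positivity
  have b3 : √X2 * √(2 * R2S + 2 * (m ^ 2 * st)) ≤
      (N * √X) * (N * √(2 * cS ^ 2 + 2 * st)) :=
    mul_le_mul a6 a7 (Real.sqrt_nonneg _) (by positivity)
  have b4 : vr * (√X2 * √(2 * R2S + 2 * (m ^ 2 * st))) ≤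
      1 / N * ((N * √X) * (N * √(2 * cS ^ 2 + 2 * st))) := by
    refine (mul_le_mul_of_nonneg_right hvr (by positivity)).trans ?_
    exact mul_le_mul_of_nonneg_left b3 (by positivity)
  unfold errD
  refine (add_le_add b2 b4).trans (le_of_eq ?_)
  have e1 : (√N * (u1 + gg * u2 + u3)) * (√N * √q') = (√N * √N) * ((u1 + gg * u2 + u3) * √q') := by
    ring
  have e2 : 1 / N * ((N * √X) * (N * √(2 * cS ^ 2 + 2 * st))) =
      N * (√X * √(2 * cS ^ 2 + 2 * st)) := by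
    field_simp
  rw [e1, e2, hN1]
  ring

end Vale.Agent.P146.H646
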