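import Vale.Agent.P146.H646.Blk

/-! Block [W0] (P146): the row of a hidden site sees the average row, up to sampling error.

`act π` permutes the Gaussian coordinates when the sites are permuted by `π`; the weight `w` is
invariant; `K S` = the coordinates inside the site set `S`. For an equivariant family `Θ i j` of
bounded functions, `i₀ ∉ S ⊂ S₁` and a vector `Q` which depends on `K S` only, the inner product of
`Q` with the row `i₀` is the inner product with the average row up to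
`√(2 a₀ / |S₁ \ S|) ‖Q‖`, `a₀` = norm squared of a row conditioned on `K S₁`. -/

open MeasureTheory

namespace Vale.Agent.P146.H646

set_option linter.unusedSectionVars false

variable {κ ι : Type*} [Fintype κ] [DecidableEq κ] [Fintype ι] [DecidableEq ι]
variable {μ : κ → Measure ℝ} [∀ e, IsProbabilityMeasure (μ e)] {w Ψ Φ Q : (κ → ℝ) → ℝ}

/-! ### linearity and Cauchy–Schwarz for `ex` -/

lemma ex_eq_cx (z : κ → ℝ) : ex μ w Ψ = cx μ ∅ w Ψ z := by
  unfold ex cx wn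
  simp only [glue_empty]

namespace Wt

variable (hw : Wt μ w)
include hw

theorem ex_add (h : BM Ψ) (h' : BM Φ) :
    ex μ w (fun z => Ψ z + Φ z) = ex μ w Ψ + ex μ w Φ := by
  rw [ex_eq_cx (0 : κ → ℝ), ex_eq_cx (w := w) (Ψ := Ψ) (0 : κ → ℝ),
    ex_eq_cx (w := w) (Ψ := Φ) (0 : κ → ℝ)]
  exact cx_add hw h h' _

theorem ex_sub (h : BM Ψ) (h' : BM Φ) :
    ex μ w (fun z => Ψ z - Φ z) = ex μ w Ψ - ex μ w Φ := by
  rw [ex_eq_cx (0 : κ → ℝ), ex_eq_cx (w := w) (Ψ := Ψ) (0 : κ → ℝ),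
    ex_eq_cx (w := w) (Ψ := Φ) (0 : κ → ℝ)]
  exact cx_sub hw h h' _

theorem ex_const_mul (c : ℝ) : ex μ w (fun z => c * Ψ z) = c * ex μ w Ψ := by
  rw [ex_eq_cx (0 : κ → ℝ), ex_eq_cx (w := w) (Ψ := Ψ) (0 : κ → ℝ)]
  exact cx_const_mul hw c _

theorem ex_sum {J : Type*} (s : Finset J) {f : J → (κ → ℝ) → ℝ} (h : ∀ i ∈ s, BM (f i)) :
    ex μ w (fun z => ∑ i ∈ s, f i z) = ∑ i ∈ s, ex μ w (f i) := by
  rw [ex_eq_cx (0 : κ → ℝ), cx_sum hw s h]
  exact Finset.sum_congr rfl fun i _ => (ex_eq_cx _).symm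

theorem ex_mono (h : BM Ψ) (h' : BM Φ) (hle : ∀ z, Ψ z ≤ Φ z) : ex μ w Ψ ≤ ex μ w Φ := by
  rw [ex_eq_cx (0 : κ → ℝ), ex_eq_cx (w := w) (Ψ := Φ) (0 : κ → ℝ)]
  exact cx_mono hw h h' hle _

theorem ex_one : ex μ w (fun _ : κ → ℝ => (1 : ℝ)) = 1 := by
  rw [ex_eq_cx (0 : κ → ℝ)]
  exact cx_one hw _

theorem ex_zero : ex μ w (fun _ : κ → ℝ => (0 : ℝ)) = 0 := by
  have := hw.ex_const_mul (Ψ := fun _ => 1) 0
  simpa using this

theorem ex_nonneg (h : BM Ψ) (h0 : ∀ z, 0 ≤ Ψ z) : 0 ≤ ex μ w Ψ := by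
  have := hw.ex_mono (BM.const 0) h h0
  rwa [hw.ex_zero] at this

end Wt

lemma BM.sq (h : BM Ψ) : BM (fun z => Ψ z ^ 2) := by
  simpa only [_root_.sq] using h.mul h

/-- the inner product of two random vectors. -/
noncomputable def ip {J : Type*} [Fintype J] (μ : κ → Measure ℝ) (w : (κ → ℝ) → ℝ)
    (X Y : J → (κ → ℝ) → ℝ) : ℝ :=
  ∑ j, ex μ w (fun z => X j z * Y j z)

namespace Wt

variable {J : Type*} [Fintype J] (hw : Wt μ w) {X Y X' Y' : J → (κ → ℝ) → ℝ}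
include hw

lemma ip_nonneg (hX : ∀ j, BM (X j)) : 0 ≤ ip μ w X X :=
  Finset.sum_nonneg fun j _ => hw.ex_nonneg ((hX j).mul (hX j)) fun _ => mul_self_nonneg _

lemma ip_comm : ip μ w X Y = ip μ w Y X :=
  Finset.sum_congr rfl fun j _ => by simp only [mul_comm]

lemma ip_add_smul (hX : ∀ j, BM (X j)) (hY : ∀ j, BM (Y j)) (t : ℝ) :
    ip μ w (fun j z => X j z + t * Y j z) (fun j z => X j z + t * Y j z)
      = ip μ w X X + 2 * t * ip μ w X Y + t ^ 2 * ip μ w Y Y := by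
  unfold ip
  rw [Finset.mul_sum, Finset.mul_sum, ← Finset.sum_add_distrib, ← Finset.sum_add_distrib]
  refine Finset.sum_congr rfl fun j _ => ?_
  rw [← hw.ex_const_mul, ← hw.ex_const_mul, ← hw.ex_add ((hX j).mul (hX j))
    ((BM.const _).mul ((hX j).mul (hY j))), ← hw.ex_add (((hX j).mul (hX j)).add
    ((BM.const _).mul ((hX j).mul (hY j)))) ((BM.const _).mul ((hY j).mul (hY j)))]
  congr 1
  funext z
  ring

/-- Cauchy–Schwarz. -/
theorem ip_sq_le (hX : ∀ j, BM (X j)) (hY : ∀ j, BM (Y j)) :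
    ip μ w X Y ^ 2 ≤ ip μ w X X * ip μ w Y Y := by
  have h : ∀ t : ℝ, 0 ≤ ip μ w Y Y * (t * t) + 2 * ip μ w X Y * t + ip μ w X X := by
    intro t
    have h1 := hw.ip_nonneg (X := fun j z => X j z + t * Y j z)
      (fun j => (hX j).add ((BM.const t).mul (hY j)))
    rw [hw.ip_add_smul hX hY] at h1
    nlinarith
  have h2 := discrim_le_zero h
  unfold discrim at h2
  nlinarith

theorem abs_ip_le (hX : ∀ j, BM (X j)) (hY : ∀ j, BM (Y j)) :
    |ip μ w X Y| ≤ Real.sqrt (ip μ w X X) * Real.sqrt (ip μ w Y Y) := by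
  rw [← Real.sqrt_mul (hw.ip_nonneg hX)]
  exact Real.abs_le_sqrt (hw.ip_sq_le hX hY)

/-- `‖∑ t i • V i‖²` for vectors with equal norms and equal mutual inner products, `∑ t = 0`. -/
theorem ip_comb {R : Type*} [DecidableEq R] (s : Finset R) (V : R → J → (κ → ℝ) → ℝ)
    (hV : ∀ i j, BM (V i j)) (t : R → ℝ) (a0 a1 : ℝ)
    (h0 : ∀ i ∈ s, ip μ w (V i) (V i) = a0)
    (h1 : ∀ i ∈ s, ∀ l ∈ s, i ≠ l → ip μ w (V i) (V l) = a1) (ht : ∑ i ∈ s, t i = 0) :
    ip μ w (fun j z => ∑ i ∈ s, t i * V i j z) (fun j z => ∑ i ∈ s, t i * V i j z)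
      = (a0 - a1) * ∑ i ∈ s, t i ^ 2 := by
  have e1 : ip μ w (fun j z => ∑ i ∈ s, t i * V i j z) (fun j z => ∑ i ∈ s, t i * V i j z)
      = ∑ i ∈ s, ∑ l ∈ s, t i * t l * ip μ w (V i) (V l) := by
    have e2 : ∀ j, ex μ w (fun z => (∑ i ∈ s, t i * V i j z) * (∑ i ∈ s, t i * V i j z))
        = ∑ i ∈ s, ∑ l ∈ s, t i * t l * ex μ w (fun z => V i j z * V l j z) := by
      intro j
      have : (fun z => (∑ i ∈ s, t i * V i j z) * (∑ i ∈ s, t i * V i j z))
          = fun z => ∑ i ∈ s, ∑ l ∈ s, (t i * t l) * (V i j z * V l j z) := by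
        funext z
        rw [Finset.sum_mul_sum]
        exact Finset.sum_congr rfl fun i _ => Finset.sum_congr rfl fun l _ => by ring
      rw [this, hw.ex_sum s fun i _ => BM.sum s fun l _ =>
        (BM.const _).mul ((hV i j).mul (hV l j))]
      refine Finset.sum_congr rfl fun i _ => ?_
      rw [hw.ex_sum s fun l _ => (BM.const _).mul ((hV i j).mul (hV l j))]
      exact Finset.sum_congr rfl fun l _ => hw.ex_const_mul _
    unfold ip
    rw [Finset.sum_congr rfl fun j _ => e2 j, Finset.sum_comm]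
    refine Finset.sum_congr rfl fun i _ => ?_
    rw [Finset.sum_comm]
    exact Finset.sum_congr rfl fun l _ => (Finset.mul_sum _ _ _).symm
  rw [e1]
  have e3 : ∀ i ∈ s, ∑ l ∈ s, t i * t l * ip μ w (V i) (V l) = (a0 - a1) * t i ^ 2 := by
    intro i hi
    have e4 : ∀ l ∈ s, t i * t l * ip μ w (V i) (V l)
        = a1 * t i * t l + (if l = i then (a0 - a1) * t i ^ 2 else 0) := by
      intro l hl
      by_cases h : l = i
      · subst h
        rw [h0 l hl]; simp; ring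
      · rw [h1 i hi l hl (Ne.symm h)]; simp [h]; ring
    rw [Finset.sum_congr rfl e4, Finset.sum_add_distrib, ← Finset.mul_sum, ht, mul_zero, zero_add,
      Finset.sum_ite_eq' s i, if_pos hi]
  rw [Finset.sum_congr rfl e3, Finset.mul_sum]

end Wt

/-! ### site symmetry -/

lemma mp_perm (e : κ ≃ κ) (hμ : ∀ c, μ (e c) = μ c) :
    MeasurePreserving (fun (z : κ → ℝ) c => z (e c)) (Measure.pi μ) (Measure.pi μ) := by
  have h := (measurePreserving_piCongrLeft μ e).symm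
  have h1 : (fun c => μ (e c)) = μ := funext hμ
  have h2 : ((MeasurableEquiv.piCongrLeft (fun _ : κ => ℝ) e).symm : (κ → ℝ) → (κ → ℝ))
      = fun z c => z (e c) := by
    funext z c
    rfl
  rw [← h2]
  exact ⟨h.measurable, by rw [h.map_eq]; exact congrArg Measure.pi h1⟩

/-- site symmetry of a law: `act π` permutes the coordinates, `K S` are the coordinates inside the
site set `S`. -/
structure Sym (μ : κ → Measure ℝ) (w : (κ → ℝ) → ℝ) (act : Equiv.Perm ι → κ ≃ κ)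
    (K : Finset ι → Finset κ) : Prop where
  mu : ∀ π c, μ (act π c) = μ c
  wt : ∀ π z, w (fun c => z (act π c)) = w z
  mem : ∀ (π : Equiv.Perm ι) (S S' : Finset ι), (∀ i, π i ∈ S' ↔ i ∈ S) →
    ∀ c, act π c ∈ K S' ↔ c ∈ K S
  fix : ∀ (π : Equiv.Perm ι) (S : Finset ι), (∀ i ∈ S, π i = i) → ∀ c ∈ K S, act π c = c
  mono : ∀ S S' : Finset ι, S ⊆ S' → K S ⊆ K S'

variable {act : Equiv.Perm ι → κ ≃ κ} {K : Finset ι → Finset κ}

namespace Sym

variable (hs : Sym μ w act K)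
include hs

lemma mp (π : Equiv.Perm ι) :
    MeasurePreserving (fun (z : κ → ℝ) c => z (act π c)) (Measure.pi μ) (Measure.pi μ) :=
  mp_perm (act π) (hs.mu π)

lemma meas_act (π : Equiv.Perm ι) : Measurable (fun (z : κ → ℝ) c => z (act π c)) :=
  (hs.mp π).measurable

lemma glue_act (π : Equiv.Perm ι) {S S' : Finset ι} (h : ∀ i, π i ∈ S' ↔ i ∈ S) (z z' : κ → ℝ) :
    (fun c => glue (K S') z z' (act π c))
      = glue (K S) (fun c => z (act π c)) (fun c => z' (act π c)) := by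
  funext c
  by_cases hc : c ∈ K S
  · rw [glue_mem hc, glue_mem ((hs.mem π S S' h c).2 hc)]
  · rw [glue_not_mem hc, glue_not_mem (fun h' => hc ((hs.mem π S S' h c).1 h'))]

/-- conditional means of an equivariant function. -/
lemma cx_act (hw : Wt μ w) (π : Equiv.Perm ι) {S S' : Finset ι} (h : ∀ i, π i ∈ S' ↔ i ∈ S)
    (hΨ : BM Ψ) (z : κ → ℝ) :
    cx μ (K S) w Ψ (fun c => z (act π c)) = cx μ (K S') w (fun z => Ψ (fun c => z (act π c))) z :=
  (cx_equiv hw (hs.mp π) (hs.wt π) (hs.glue_act π h) hΨ z).symm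

lemma ex_act (hw : Wt μ w) (π : Equiv.Perm ι) (hΨ : BM Ψ) :
    ex μ w (fun z => Ψ (fun c => z (act π c))) = ex μ w Ψ :=
  ex_equiv hw (hs.mp π) (hs.wt π) hΨ.meas

/-- a function of the coordinates inside `S` does not see a permutation which fixes `S`. -/
lemma dep_act {S : Finset ι} (hQ : Dep (K S) Q) (π : Equiv.Perm ι) (h : ∀ i ∈ S, π i = i)
    (z : κ → ℝ) : Q (fun c => z (act π c)) = Q z := by
  have e : glue (K S) (fun c => z (act π c)) z = z := by
    funext c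
    by_cases hc : c ∈ K S
    · rw [glue_mem hc, hs.fix π S h c hc]
    · rw [glue_not_mem hc]
  rw [← hQ (fun c => z (act π c)) z, e]

end Sym

/-- equivariant families of bounded functions: `i` is a site (the row), `j : J` a column; `ρ π` is
the action of the site permutation `π` on the columns (`J = ι`, `ρ = id` for the bonds of the row,
`J = Unit` or `Option ι` to include the own field). -/
structure Eqv {J : Type*} (act : Equiv.Perm ι → κ ≃ κ) (ρ : Equiv.Perm ι → Equiv.Perm J)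
    (Θ : ι → J → (κ → ℝ) → ℝ) : Prop where
  bm : ∀ i j, BM (Θ i j)
  eq : ∀ π i j z, Θ i j (fun c => z (act π c)) = Θ (π i) (ρ π j) z

lemma swap_mem_iff {S1 : Finset ι} {i l : ι} (hi : i ∈ S1) (hl : l ∈ S1) (k : ι) :
    Equiv.swap i l k ∈ S1 ↔ k ∈ S1 := by
  rcases eq_or_ne k i with h | h
  · subst h; simp [hi, hl]
  rcases eq_or_ne k l with h' | h'
  · subst h'; simp [hi, hl]
  rw [Equiv.swap_apply_of_ne_of_ne h h']

section row

variable {J : Type*} [Fintype J] {ρ : Equiv.Perm ι → Equiv.Perm J}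
variable (hw : Wt μ w) (hs : Sym μ w act K) {Θ : ι → J → (κ → ℝ) → ℝ} (hΘ : Eqv act ρ Θ)
include hw hs hΘ

/-- rows conditioned on the coordinates inside `S₁`: mutual inner products are invariant. -/
lemma ip_row_perm (S1 : Finset ι) (π : Equiv.Perm ι) (h : ∀ i, π i ∈ S1 ↔ i ∈ S1) (i l : ι) :
    ip μ w (fun j => cx μ (K S1) w (Θ (π i) j)) (fun j => cx μ (K S1) w (Θ (π l) j))
      = ip μ w (fun j => cx μ (K S1) w (Θ i j)) (fun j => cx μ (K S1) w (Θ l j)) := by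
  unfold ip
  rw [← Equiv.sum_comp (ρ π)]
  refine Finset.sum_congr rfl fun j _ => ?_
  rw [← hs.ex_act hw π ((hw.bm_cx (K S1) (hΘ.bm i j)).mul (hw.bm_cx (K S1) (hΘ.bm l j)))]
  congr 1
  funext z
  rw [hs.cx_act hw π h (hΘ.bm i j), hs.cx_act hw π h (hΘ.bm l j)]
  simp only [hΘ.eq]

lemma ip_row_diag {S1 : Finset ι} {i l : ι} (hi : i ∈ S1) (hl : l ∈ S1) :
    ip μ w (fun j => cx μ (K S1) w (Θ l j)) (fun j => cx μ (K S1) w (Θ l j))
      = ip μ w (fun j => cx μ (K S1) w (Θ i j)) (fun j => cx μ (K S1) w (Θ i j)) := by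
  have := ip_row_perm hw hs hΘ S1 (Equiv.swap i l) (swap_mem_iff hi hl) i i
  simpa only [Equiv.swap_apply_left] using this

lemma ip_row_off {S1 : Finset ι} {i i' l l' : ι} (hi : i ∈ S1) (hi' : i' ∈ S1) (hl : l ∈ S1)
    (hl' : l' ∈ S1) (h : i ≠ i') (h' : l ≠ l') :
    ip μ w (fun j => cx μ (K S1) w (Θ l j)) (fun j => cx μ (K S1) w (Θ l' j))
      = ip μ w (fun j => cx μ (K S1) w (Θ i j)) (fun j => cx μ (K S1) w (Θ i' j)) := by
  have h1 := ip_row_perm hw hs hΘ S1 (Equiv.swap i l) (swap_mem_iff hi hl) i i'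
  rw [Equiv.swap_apply_left] at h1
  set m := Equiv.swap i l i' with hm
  have hmS : m ∈ S1 := (swap_mem_iff hi hl i').2 hi'
  have hml : m ≠ l := by
    intro e
    rw [hm] at e
    have : i' = i := by
      have := congrArg (Equiv.swap i l) e
      simpa using this
    exact h this.symm
  have h2 := ip_row_perm hw hs hΘ S1 (Equiv.swap m l') (swap_mem_iff hmS hl') l m
  rw [Equiv.swap_apply_left, Equiv.swap_apply_of_ne_of_ne hml.symm h'] at h2
  rw [h2, h1]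

/-- the rows of hidden sites are indistinguishable for `Q`. -/
lemma ip_hidden {S : Finset ι} {T : Finset J}
    (hT : ∀ π : Equiv.Perm ι, (∀ i ∈ S, π i = i) → ∀ j ∈ T, ρ π j = j)
    {Q : J → (κ → ℝ) → ℝ} (hQ : ∀ j, BM (Q j))
    (hQd : ∀ j, Dep (K S) (Q j)) (hQ0 : ∀ j, j ∉ T → Q j = fun _ => 0) {i l : ι} (hi : i ∉ S)
    (hl : l ∉ S) : ip μ w (Θ i) Q = ip μ w (Θ l) Q := by
  have hfix : ∀ k ∈ S, Equiv.swap i l k = k := by
    intro k hk
    refine Equiv.swap_apply_of_ne_of_ne ?_ ?_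
    · rintro rfl; exact hi hk
    · rintro rfl; exact hl hk
  unfold ip
  refine Finset.sum_congr rfl fun j _ => ?_
  rw [← hs.ex_act hw (Equiv.swap i l) ((hΘ.bm i j).mul (hQ j))]
  by_cases hj : j ∈ T
  · congr 1
    funext z
    rw [hΘ.eq, hs.dep_act (hQd j) _ hfix, Equiv.swap_apply_left, hT _ hfix j hj]
  · rw [hQ0 j hj]
    simp only [mul_zero]

/-- **[W0], inner product form.** -/
theorem row_ip {S S1 : Finset ι} (hS : S ⊆ S1) {i0 : ι} (hi0 : i0 ∉ S) (hne : (S1 \ S).Nonempty)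
    {T : Finset J} (hT : ∀ π : Equiv.Perm ι, (∀ i ∈ S, π i = i) → ∀ j ∈ T, ρ π j = j)
    {Q : J → (κ → ℝ) → ℝ} (hQ : ∀ j, BM (Q j)) (hQd : ∀ j, Dep (K S) (Q j))
    (hQ0 : ∀ j, j ∉ T → Q j = fun _ => 0) {i1 : ι} (hi1 : i1 ∈ S1) :
    |ip μ w (Θ i0) Q - (Fintype.card ι : ℝ)⁻¹ * ∑ i, ip μ w (Θ i) Q|
      ≤ Real.sqrt (2 * ip μ w (fun j => cx μ (K S1) w (Θ i1 j)) (fun j => cx μ (K S1) w (Θ i1 j))
          / (S1 \ S).card) * Real.sqrt (ip μ w Q Q) := by
  set a0 := ip μ w (fun j => cx μ (K S1) w (Θ i1 j)) (fun j => cx μ (K S1) w (Θ i1 j)) with ha0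
  set c : ι → ℝ := fun i => ip μ w (Θ i) Q with hc
  set D := S1 \ S with hD
  set V : ι → J → (κ → ℝ) → ℝ := fun i j => cx μ (K S1) w (Θ i j) with hV
  have hVb : ∀ i j, BM (V i j) := fun i j => hw.bm_cx _ (hΘ.bm i j)
  have h0 : ∀ i ∈ S1, ip μ w (V i) (V i) = a0 := fun i hi => ip_row_diag hw hs hΘ hi1 hi
  have ha00 : 0 ≤ a0 := hw.ip_nonneg fun j => hVb i1 j
  obtain ⟨a1, h1, ha1⟩ : ∃ a1, (∀ i ∈ S1, ∀ l ∈ S1, i ≠ l → ip μ w (V i) (V l) = a1)
      ∧ |a1| ≤ a0 := by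
    by_cases hex : ∃ i ∈ S1, ∃ l ∈ S1, i ≠ l
    · obtain ⟨i, hi, l, hl, hil⟩ := hex
      refine ⟨ip μ w (V i) (V l), fun i' hi' l' hl' h' =>
        ip_row_off hw hs hΘ hi hl hi' hl' hil h', ?_⟩
      refine (hw.abs_ip_le (hVb i) (hVb l)).trans_eq ?_
      rw [h0 i hi, h0 l hl, Real.mul_self_sqrt ha00]
    · push Not at hex
      exact ⟨0, fun i hi l hl h => absurd (hex i hi l hl) h, by simpa using ha00⟩
  have hs1 : (0 : ℝ) < S1.card := by exact_mod_cast Finset.card_pos.2 ⟨i1, hi1⟩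
  have hDp : (0 : ℝ) < D.card := by exact_mod_cast Finset.card_pos.2 hne
  have hDS : D ⊆ S1 := Finset.sdiff_subset
  have hDle : (D.card : ℝ) ≤ S1.card := by exact_mod_cast Finset.card_le_card hDS
  set r : ℝ := D.card / S1.card with hr
  have hr0 : 0 ≤ r := by positivity
  have hr1 : r ≤ 1 := by rw [hr, div_le_one hs1]; exact hDle
  have hrs : r * S1.card = D.card := by rw [hr]; field_simp
  set t : ι → ℝ := fun i => (if i ∈ D then 1 else 0) - r with htd
  have hDf : S1.filter (fun i => i ∈ D) = D := by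
    ext i; simp only [Finset.mem_filter]
    exact ⟨fun h => h.2, fun h => ⟨hDS h, h⟩⟩
  have hsum1 : ∀ f : ι → ℝ, ∑ i ∈ S1, (if i ∈ D then f i else 0) = ∑ i ∈ D, f i := by
    intro f
    rw [← Finset.sum_filter, hDf]
  have ht0 : ∑ i ∈ S1, t i = 0 := by
    simp only [htd]
    rw [Finset.sum_sub_distrib, hsum1 (fun _ => 1)]
    simp only [Finset.sum_const, nsmul_eq_mul]
    linarith
  have ht2 : ∑ i ∈ S1, t i ^ 2 ≤ D.card := by
    have : ∀ i ∈ S1, t i ^ 2 = (if i ∈ D then (1 - 2 * r) else 0) + r ^ 2 := by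
      intro i _
      simp only [htd]
      split_ifs <;> ring
    rw [Finset.sum_congr rfl this, Finset.sum_add_distrib, hsum1 (fun _ => 1 - 2 * r)]
    simp only [Finset.sum_const, nsmul_eq_mul]
    nlinarith [mul_nonneg hr0 hDp.le]
  -- the hidden rows
  have hcc : ∀ i, i ∉ S → c i = c i0 := fun i hi => ip_hidden hw hs hΘ hT hQ hQd hQ0 hi hi0
  -- inner products with the conditioned rows
  have hVc : ∀ i, ip μ w (V i) Q = c i := by
    intro i
    simp only [hc, ip, hV]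
    refine Finset.sum_congr rfl fun j _ => ?_
    have := ex_cx hw ((hQd j).mono (hs.mono S S1 hS)) (hQ j) (hΘ.bm i j)
    simpa only [mul_comm] using this
  have hXQ : ip μ w (fun j z => ∑ i ∈ S1, t i * V i j z) Q = ∑ i ∈ S1, t i * c i := by
    unfold ip
    have : ∀ j, ex μ w (fun z => (∑ i ∈ S1, t i * V i j z) * Q j z)
        = ∑ i ∈ S1, t i * ex μ w (fun z => V i j z * Q j z) := by
      intro j
      have e : (fun z => (∑ i ∈ S1, t i * V i j z) * Q j z)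
          = fun z => ∑ i ∈ S1, t i * (V i j z * Q j z) := by
        funext z
        rw [Finset.sum_mul]
        exact Finset.sum_congr rfl fun i _ => by ring
      rw [e, hw.ex_sum S1 fun i _ => (BM.const _).mul ((hVb i j).mul (hQ j))]
      exact Finset.sum_congr rfl fun i _ => hw.ex_const_mul _
    rw [Finset.sum_congr rfl fun j _ => this j, Finset.sum_comm]
    refine Finset.sum_congr rfl fun i _ => ?_
    rw [← Finset.mul_sum, ← hVc i]
    rfl
  have hsumt : ∑ i ∈ S1, t i * c i = D.card * c i0 - r * ∑ i ∈ S1, c i := by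
    have e : ∀ i ∈ S1, t i * c i = (if i ∈ D then c i else 0) - r * c i := by
      intro i _
      simp only [htd]
      split_ifs <;> ring
    rw [Finset.sum_congr rfl e, Finset.sum_sub_distrib, hsum1 c, ← Finset.mul_sum]
    congr 1
    rw [Finset.sum_congr rfl fun i hi => hcc i (Finset.mem_sdiff.1 hi).2, Finset.sum_const,
      nsmul_eq_mul]
  have hX : ∀ j, BM (fun z => ∑ i ∈ S1, t i * V i j z) := fun j =>
    BM.sum S1 fun i _ => (BM.const _).mul (hVb i j)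
  have hCS := hw.abs_ip_le hX hQ
  rw [hw.ip_comb S1 V hVb t a0 a1 h0 h1 ht0, hXQ, hsumt] at hCS
  have hb1 : (a0 - a1) * ∑ i ∈ S1, t i ^ 2 ≤ 2 * a0 * D.card := by
    have h2 : a0 - a1 ≤ 2 * a0 := by linarith [neg_abs_le a1]
    have h3 : 0 ≤ ∑ i ∈ S1, t i ^ 2 := Finset.sum_nonneg fun i _ => sq_nonneg _
    calc (a0 - a1) * ∑ i ∈ S1, t i ^ 2 ≤ 2 * a0 * ∑ i ∈ S1, t i ^ 2 :=
          mul_le_mul_of_nonneg_right h2 h3
      _ ≤ 2 * a0 * D.card := mul_le_mul_of_nonneg_left ht2 (by linarith)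
  have hb2 : Real.sqrt (2 * a0 * D.card) = D.card * Real.sqrt (2 * a0 / D.card) := by
    have hx : 2 * a0 * (D.card : ℝ) = (D.card : ℝ) ^ 2 * (2 * a0 / D.card) := by field_simp
    rw [hx, Real.sqrt_mul (by positivity), Real.sqrt_sq hDp.le]
  have hb3 : |(D.card : ℝ) * c i0 - r * ∑ i ∈ S1, c i|
      ≤ D.card * (Real.sqrt (2 * a0 / D.card) * Real.sqrt (ip μ w Q Q)) := by
    rw [← mul_assoc, ← hb2]
    exact hCS.trans (mul_le_mul_of_nonneg_right (Real.sqrt_le_sqrt hb1) (Real.sqrt_nonneg _))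
  -- all rows
  have hall : ∑ i, c i = ∑ i ∈ S1, c i + ((Fintype.card ι : ℝ) - S1.card) * c i0 := by
    rw [← Finset.sum_add_sum_compl S1 c]
    congr 1
    rw [Finset.sum_congr rfl fun i hi => hcc i fun h => (Finset.mem_compl.1 hi) (hS h),
      Finset.sum_const, nsmul_eq_mul, Finset.card_compl, Nat.cast_sub (Finset.card_le_univ S1)]
  have hn : (0 : ℝ) < Fintype.card ι := by exact_mod_cast Fintype.card_pos_iff.2 ⟨i1⟩
  have hs1n : (S1.card : ℝ) ≤ Fintype.card ι := by exact_mod_cast Finset.card_le_univ S1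
  have hfin : (c i0 - (Fintype.card ι : ℝ)⁻¹ * ∑ i, c i) * (Fintype.card ι * D.card)
      = S1.card * (D.card * c i0 - r * ∑ i ∈ S1, c i) := by
    rw [hall]
    have : (S1.card : ℝ) * (r * ∑ i ∈ S1, c i) = D.card * ∑ i ∈ S1, c i := by
      rw [← mul_assoc, mul_comm (S1.card : ℝ) r, hrs]
    rw [mul_sub, this]
    field_simp
    ring
  show |c i0 - (Fintype.card ι : ℝ)⁻¹ * ∑ i, c i|
    ≤ Real.sqrt (2 * a0 / D.card) * Real.sqrt (ip μ w Q Q)
  have hpos : (0 : ℝ) < Fintype.card ι * D.card := mul_pos hn hDp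
  refine le_of_mul_le_mul_right ?_ hpos
  rw [← abs_of_pos hpos, ← abs_mul, abs_of_pos hpos, hfin, abs_mul, abs_of_pos hs1]
  calc (S1.card : ℝ) * |D.card * c i0 - r * ∑ i ∈ S1, c i|
      ≤ S1.card * (D.card * (Real.sqrt (2 * a0 / D.card) * Real.sqrt (ip μ w Q Q))) :=
        mul_le_mul_of_nonneg_left hb3 hs1.le
    _ ≤ Fintype.card ι * (D.card * (Real.sqrt (2 * a0 / D.card) * Real.sqrt (ip μ w Q Q))) :=
        mul_le_mul_of_nonneg_right hs1n (by positivity)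
    _ = _ := by ring

/-- **[W0], `L²` form**: the row of a hidden site, conditioned on the coordinates inside `S`, is the
average row conditioned on the coordinates inside `S`, up to `2 a₀ / |S₁ \ S|` in mean square. -/
theorem row_l2 {S S1 : Finset ι} (hS : S ⊆ S1) {i0 : ι} (hi0 : i0 ∉ S) (hne : (S1 \ S).Nonempty)
    {T : Finset J} (hT : ∀ π : Equiv.Perm ι, (∀ i ∈ S, π i = i) → ∀ j ∈ T, ρ π j = j)
    {i1 : ι} (hi1 : i1 ∈ S1) :
    ∑ j ∈ T, ex μ w (fun z => cx μ (K S) w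
        (fun z => Θ i0 j z - (Fintype.card ι : ℝ)⁻¹ * ∑ i, Θ i j z) z ^ 2)
      ≤ 2 * (∑ j, ex μ w (fun z => cx μ (K S1) w (Θ i1 j) z ^ 2)) / (S1 \ S).card := by
  classical
  set Θb : J → (κ → ℝ) → ℝ := fun j z => Θ i0 j z - (Fintype.card ι : ℝ)⁻¹ * ∑ i, Θ i j z
    with hΘb
  have hbm : ∀ j, BM (Θb j) := fun j =>
    (hΘ.bm i0 j).sub ((BM.const _).mul (BM.sum _ fun i _ => hΘ.bm i j))
  set Q : J → (κ → ℝ) → ℝ := fun j => if j ∈ T then cx μ (K S) w (Θb j) else fun _ => 0 with hQdef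
  have hQ : ∀ j, BM (Q j) := by
    intro j
    by_cases hj : j ∈ T
    · simp only [hQdef, if_pos hj]; exact hw.bm_cx _ (hbm j)
    · simp only [hQdef, if_neg hj]; exact BM.const 0
  have hQd : ∀ j, Dep (K S) (Q j) := by
    intro j
    by_cases hj : j ∈ T
    · simp only [hQdef, if_pos hj]; exact dep_cx _
    · simp only [hQdef, if_neg hj]; exact fun _ _ => rfl
  have hQ0 : ∀ j, j ∉ T → Q j = fun _ => 0 := fun j hj => by simp only [hQdef, if_neg hj]
  have h1 := row_ip hw hs hΘ hS hi0 hne hT hQ hQd hQ0 hi1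
  have e1 : ip μ w (Θ i0) Q - (Fintype.card ι : ℝ)⁻¹ * ∑ i, ip μ w (Θ i) Q = ip μ w Q Q := by
    unfold ip
    rw [Finset.sum_comm, Finset.mul_sum, ← Finset.sum_sub_distrib]
    refine Finset.sum_congr rfl fun j _ => ?_
    rw [← hw.ex_sum Finset.univ fun i _ => (hΘ.bm i j).mul (hQ j), ← hw.ex_const_mul,
      ← hw.ex_sub ((hΘ.bm i0 j).mul (hQ j))
        ((BM.const _).mul (BM.sum _ fun i _ => (hΘ.bm i j).mul (hQ j)))]
    by_cases hj : j ∈ T
    · have h2 := ex_cx hw (hQd j) (hQ j) (hbm j)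
      have h3 : (fun z => Q j z * Q j z) = fun z => Q j z * cx μ (K S) w (Θb j) z := by
        funext z; simp only [hQdef, if_pos hj]
      rw [h3, h2]
      congr 1
      funext z
      simp only [hΘb]
      rw [← Finset.sum_mul]
      ring
    · rw [hQ0 j hj]
      simp
  have e2 : ip μ w Q Q = ∑ j ∈ T, ex μ w (fun z => cx μ (K S) w (Θb j) z ^ 2) := by
    unfold ip
    have : ∀ j, ex μ w (fun z => Q j z * Q j z)
        = if j ∈ T then ex μ w (fun z => cx μ (K S) w (Θb j) z ^ 2) else 0 := by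
      intro j
      by_cases hj : j ∈ T
      · simp only [hQdef, if_pos hj, sq]
      · simp only [hQdef, if_neg hj, mul_zero]
        exact hw.ex_zero
    rw [Finset.sum_congr rfl fun j _ => this j, ← Finset.sum_filter]
    congr 1
    ext j; simp
  have e3 : ip μ w (fun j => cx μ (K S1) w (Θ i1 j)) (fun j => cx μ (K S1) w (Θ i1 j))
      = ∑ j, ex μ w (fun z => cx μ (K S1) w (Θ i1 j) z ^ 2) := by
    unfold ip
    exact Finset.sum_congr rfl fun j _ => by simp only [sq]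
  rw [e1, e3] at h1
  rw [← e2]
  set q := ip μ w Q Q with hq
  have hq0 : 0 ≤ q := hw.ip_nonneg hQ
  rw [abs_of_nonneg hq0] at h1
  set A := 2 * (∑ j, ex μ w (fun z => cx μ (K S1) w (Θ i1 j) z ^ 2)) / ((S1 \ S).card : ℝ)
    with hA
  have hA0 : 0 ≤ A := by
    rw [hA]
    refine div_nonneg (mul_nonneg zero_le_two (Finset.sum_nonneg fun j _ => ?_)) (Nat.cast_nonneg _)
    exact hw.ex_nonneg (hw.bm_cx _ (hΘ.bm i1 j)).sq fun _ => sq_nonneg _
  rcases hq0.eq_or_lt with h | h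
  · rw [← h]; exact hA0
  · have h4 : Real.sqrt q * Real.sqrt q ≤ Real.sqrt A * Real.sqrt q := by
      rw [Real.mul_self_sqrt hq0]; exact h1
    have h5 := le_of_mul_le_mul_right h4 (Real.sqrt_pos.2 h)
    exact (Real.sqrt_le_sqrt_iff hA0).1 h5

end row

/-! ### the size of a row -/

section norm

variable {J : Type*} [Fintype J] (hw : Wt μ w)
include hw

/-- `(E Ψ)² ≤ E Ψ²`. -/
theorem Wt.ex_sq_le (h : BM Ψ) : ex μ w Ψ ^ 2 ≤ ex μ w (fun z => Ψ z ^ 2) := by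
  rw [ex_eq_cx (0 : κ → ℝ), ex_eq_cx (w := w) (Ψ := fun z => Ψ z ^ 2) (0 : κ → ℝ)]
  exact cx_sq_le hw h _

/-- a vector `f` of first moments `⟨h σ_j⟩`, `|h| ≤ C`, against the second moments
`g j l = ⟨σ_j σ_l⟩`: after conditioning, `|E[f|F]|² ≤ C² |E[g|F]|_F`. -/
theorem cx_norm {f : J → (κ → ℝ) → ℝ} {g : J → J → (κ → ℝ) → ℝ} (hf : ∀ j, BM (f j))
    (hg : ∀ j l, BM (g j l)) {C : ℝ}
    (h : ∀ (u : J → ℝ) (z : κ → ℝ),
      (∑ j, u j * f j z) ^ 2 ≤ C ^ 2 * ∑ j, ∑ l, u j * u l * g j l z)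
    (K : Finset κ) (z : κ → ℝ) :
    ∑ j, cx μ K w (f j) z ^ 2 ≤ C ^ 2 * Real.sqrt (∑ j, ∑ l, cx μ K w (g j l) z ^ 2) := by
  set m : J → ℝ := fun j => cx μ K w (f j) z with hm
  set P := ∑ j, m j ^ 2 with hP
  have hP0 : 0 ≤ P := Finset.sum_nonneg fun j _ => sq_nonneg _
  set G := ∑ j, ∑ l, cx μ K w (g j l) z ^ 2 with hG
  have hG0 : 0 ≤ G := Finset.sum_nonneg fun j _ => Finset.sum_nonneg fun l _ => sq_nonneg _
  have hb1 : ∀ j, BM (fun z => m j * f j z) := fun j => (BM.const _).mul (hf j)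
  have hb2 : ∀ j l, BM (fun z => m j * m l * g j l z) := fun j l => (BM.const _).mul (hg j l)
  have e1 : cx μ K w (fun z => ∑ j, m j * f j z) z = P := by
    rw [cx_sum hw Finset.univ fun j _ => hb1 j]
    refine Finset.sum_congr rfl fun j _ => ?_
    rw [cx_const_mul hw]
    simp only [hm]; ring
  have e2 : cx μ K w (fun z => C ^ 2 * ∑ j, ∑ l, m j * m l * g j l z) z
      = C ^ 2 * ∑ j, ∑ l, m j * m l * cx μ K w (g j l) z := by
    rw [cx_const_mul hw, cx_sum hw Finset.univ fun j _ => BM.sum _ fun l _ => hb2 j l]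
    congr 1
    refine Finset.sum_congr rfl fun j _ => ?_
    rw [cx_sum hw Finset.univ fun l _ => hb2 j l]
    exact Finset.sum_congr rfl fun l _ => cx_const_mul hw _ _
  have h1 : P ^ 2 ≤ C ^ 2 * ∑ j, ∑ l, m j * m l * cx μ K w (g j l) z := by
    rw [← e2, ← e1]
    refine (cx_sq_le hw (BM.sum _ fun j _ => hb1 j) z).trans ?_
    exact cx_mono hw (BM.sum _ fun j _ => hb1 j).sq
      ((BM.const _).mul (BM.sum _ fun j _ => BM.sum _ fun l _ => hb2 j l)) (fun z' => h m z') z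
  have h2 : ∑ j, ∑ l, m j * m l * cx μ K w (g j l) z ≤ P * Real.sqrt G := by
    have h3 := Finset.sum_mul_sq_le_sq_mul_sq (Finset.univ : Finset (J × J))
      (fun p => m p.1 * m p.2) (fun p => cx μ K w (g p.1 p.2) z)
    have e3 : ∑ p : J × J, m p.1 * m p.2 * cx μ K w (g p.1 p.2) z
        = ∑ j, ∑ l, m j * m l * cx μ K w (g j l) z := Fintype.sum_prod_type _
    have e4 : ∑ p : J × J, cx μ K w (g p.1 p.2) z ^ 2 = G := Fintype.sum_prod_type _
    have e5 : ∑ p : J × J, (m p.1 * m p.2) ^ 2 = P ^ 2 := by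
      rw [Fintype.sum_prod_type, hP, sq, Finset.sum_mul_sum]
      exact Finset.sum_congr rfl fun j _ => Finset.sum_congr rfl fun l _ => by ring
    rw [e3, e4, e5] at h3
    have h4 := Real.abs_le_sqrt h3
    rw [Real.sqrt_mul (sq_nonneg _), Real.sqrt_sq hP0] at h4
    exact (le_abs_self _).trans h4
  rcases hP0.eq_or_lt with h5 | h5
  · rw [← h5]; positivity
  · have h6 : P * P ≤ C ^ 2 * Real.sqrt G * P := by
      calc P * P = P ^ 2 := (sq P).symm
        _ ≤ C ^ 2 * (P * Real.sqrt G) := h1.trans (mul_le_mul_of_nonneg_left h2 (sq_nonneg _))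
        _ = _ := by ring
    exact le_of_mul_le_mul_right h6 h5

/-- the same in mean: `E |E[f|F]|² ≤ C² (E |E[g|F]|_F²)^{1/2}`. -/
theorem ex_norm {f : J → (κ → ℝ) → ℝ} {g : J → J → (κ → ℝ) → ℝ} (hf : ∀ j, BM (f j))
    (hg : ∀ j l, BM (g j l)) {C : ℝ}
    (h : ∀ (u : J → ℝ) (z : κ → ℝ),
      (∑ j, u j * f j z) ^ 2 ≤ C ^ 2 * ∑ j, ∑ l, u j * u l * g j l z)
    (K : Finset κ) :
    ∑ j, ex μ w (fun z => cx μ K w (f j) z ^ 2)
      ≤ C ^ 2 * Real.sqrt (∑ j, ∑ l, ex μ w (fun z => cx μ K w (g j l) z ^ 2)) := by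
  have hbf : ∀ j, BM (fun z => cx μ K w (f j) z ^ 2) := fun j => (hw.bm_cx K (hf j)).sq
  have hbg : ∀ j l, BM (fun z => cx μ K w (g j l) z ^ 2) := fun j l => (hw.bm_cx K (hg j l)).sq
  rw [← hw.ex_sum Finset.univ fun j _ => hbf j]
  set X : (κ → ℝ) → ℝ := fun z => ∑ j, cx μ K w (f j) z ^ 2 with hX
  have hXb : BM X := BM.sum _ fun j _ => hbf j
  have e1 : ∑ j, ∑ l, ex μ w (fun z => cx μ K w (g j l) z ^ 2)
      = ex μ w (fun z => ∑ j, ∑ l, cx μ K w (g j l) z ^ 2) := by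
    rw [hw.ex_sum Finset.univ fun j _ => BM.sum _ fun l _ => hbg j l]
    exact Finset.sum_congr rfl fun j _ => (hw.ex_sum Finset.univ fun l _ => hbg j l).symm
  rw [e1]
  set G : (κ → ℝ) → ℝ := fun z => ∑ j, ∑ l, cx μ K w (g j l) z ^ 2 with hG
  have hGb : BM G := BM.sum _ fun j _ => BM.sum _ fun l _ => hbg j l
  have hG0 : ∀ z, 0 ≤ G z := fun z =>
    Finset.sum_nonneg fun j _ => Finset.sum_nonneg fun l _ => sq_nonneg _
  have h1 : ex μ w X ^ 2 ≤ (C ^ 2) ^ 2 * ex μ w G := by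
    rw [← hw.ex_const_mul]
    refine (hw.ex_sq_le hXb).trans (hw.ex_mono hXb.sq ((BM.const _).mul hGb) fun z => ?_)
    have h2 := cx_norm hw hf hg h K z
    have h3 : 0 ≤ X z := Finset.sum_nonneg fun j _ => sq_nonneg _
    calc X z ^ 2 ≤ (C ^ 2 * Real.sqrt (G z)) ^ 2 := pow_le_pow_left₀ h3 h2 2
      _ = (C ^ 2) ^ 2 * G z := by rw [mul_pow, Real.sq_sqrt (hG0 z)]
  have h4 := Real.abs_le_sqrt h1
  rw [Real.sqrt_mul (sq_nonneg _), Real.sqrt_sq (sq_nonneg C)] at h4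
  exact (le_abs_self _).trans h4

end norm

end Vale.Agent.P146.H646
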