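import Mathlib.Analysis.InnerProductSpace.Basic
import Mathlib.Tactic

/-! Sampling without replacement (P146, row identity in the sup-ensemble).

`ζ i` (`i` in a finite set of `m` rows) are vectors of a real inner product space (in the use:
`L²(P*)`-vector functions) with equal norms, equal mutual inner products and sum zero. Then the sum
over a set `S` of rows has norm squared `≤ |S| c₀`, and a vector `Q` which has the same inner product
with all `ζ i`, `i ∈ S` (in the use: `Q` is measurable w.r.t. a sigma-field that does not see the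
rows of `S`) satisfies `|<ζ i, Q>| ≤ |S|^{-1/2} √c₀ ‖Q‖`. -/

namespace Vale.Agent.P146.H646

open Finset

/-- algebraic form, for a matrix `B i j` of mutual expectations. -/
theorem swr_matrix {ι : Type*} [Fintype ι] [DecidableEq ι] (B : ι → ι → ℝ) (c0 c1 : ℝ)
    (h0 : ∀ i, B i i = c0) (h1 : ∀ i j, i ≠ j → B i j = c1) (hc : 0 ≤ c0)
    (hs : ∑ i, ∑ j, B i j = 0) (S : Finset ι) :
    ∑ i ∈ S, ∑ j ∈ S, B i j ≤ S.card * c0 := by
  have key : ∀ A : Finset ι, ∑ i ∈ A, ∑ j ∈ A, B i j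
      = A.card * c0 + A.card * ((A.card : ℝ) - 1) * c1 := by
    intro A
    have h2 : ∀ i ∈ A, ∑ j ∈ A, B i j = c0 + ((A.card : ℝ) - 1) * c1 := by
      intro i hi
      rw [← Finset.add_sum_erase A (fun j => B i j) hi]
      have : ∑ j ∈ A.erase i, B i j = ∑ j ∈ A.erase i, c1 :=
        Finset.sum_congr rfl fun j hj => h1 i j (Finset.ne_of_mem_erase hj).symm
      rw [this, h0, Finset.sum_const, Finset.card_erase_of_mem hi, nsmul_eq_mul,
        Nat.cast_sub (Finset.card_pos.2 ⟨i, hi⟩)]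
      simp
    rw [Finset.sum_congr rfl h2, Finset.sum_const, nsmul_eq_mul]
    ring
  have hu := key Finset.univ
  rw [hs] at hu
  rw [key S]
  set m : ℝ := ((Finset.univ : Finset ι).card : ℝ) with hm
  set s : ℝ := (S.card : ℝ) with hsd
  have hsm : s ≤ m := by
    rw [hm, hsd]; exact_mod_cast Finset.card_le_univ S
  have hs0 : 0 ≤ s := by rw [hsd]; positivity
  -- `s (s-1) c1 ≤ 0`
  have hgoal : s * (s - 1) * c1 ≤ 0 := by
    rcases Nat.eq_zero_or_pos S.card with h | h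
    · have : s = 0 := by rw [hsd, h]; simp
      rw [this]; simp
    · have hs1 : 1 ≤ s := by rw [hsd]; exact_mod_cast h
      rcases eq_or_lt_of_le hs1 with h' | h'
      · rw [← h']; simp
      · have hm1 : 1 < m := lt_of_lt_of_le h' hsm
        have hc1 : c1 ≤ 0 := by
          have h3 : m * (c0 + (m - 1) * c1) = 0 := by linarith
          have h4 : c0 + (m - 1) * c1 = 0 := by
            rcases mul_eq_zero.1 h3 with h5 | h5
            · linarith
            · exact h5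
          by_contra hneg
          push Not at hneg
          have : 0 < (m - 1) * c1 := mul_pos (by linarith) hneg
          linarith
        exact mul_nonpos_of_nonneg_of_nonpos (mul_nonneg hs0 (by linarith)) hc1
  linarith

variable {ι H : Type*} [Fintype ι] [DecidableEq ι] [NormedAddCommGroup H] [InnerProductSpace ℝ H]


theorem swr (ζ : ι → H) (c0 c1 : ℝ) (h0 : ∀ i, (inner ℝ (ζ i) (ζ i) : ℝ) = c0)
    (h1 : ∀ i j, i ≠ j → (inner ℝ (ζ i) (ζ j) : ℝ) = c1) (hs : ∑ i, ζ i = 0) (S : Finset ι) :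
    ‖∑ i ∈ S, ζ i‖ ^ 2 ≤ S.card * c0 := by
  rcases isEmpty_or_nonempty ι with he | ⟨⟨i0⟩⟩
  · have : S = ∅ := Finset.eq_empty_of_isEmpty S
    rw [this]; simp
  have hc : 0 ≤ c0 := by rw [← h0 i0]; exact real_inner_self_nonneg
  have e : ∀ A : Finset ι, ‖∑ i ∈ A, ζ i‖ ^ 2 = ∑ i ∈ A, ∑ j ∈ A, (inner ℝ (ζ i) (ζ j) : ℝ) := by
    intro A
    rw [← real_inner_self_eq_norm_sq, sum_inner]
    exact Finset.sum_congr rfl fun i _ => by rw [inner_sum]
  rw [e]
  refine swr_matrix (fun i j => (inner ℝ (ζ i) (ζ j) : ℝ)) c0 c1 h0 h1 hc ?_ S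
  have := e Finset.univ
  rw [hs] at this
  rw [← this]; simp

/-- dual form: a vector `Q` that does not distinguish the rows of `S`. -/
theorem swr_dual (ζ : ι → H) (c0 c1 : ℝ) (h0 : ∀ i, (inner ℝ (ζ i) (ζ i) : ℝ) = c0)
    (h1 : ∀ i j, i ≠ j → (inner ℝ (ζ i) (ζ j) : ℝ) = c1) (hs : ∑ i, ζ i = 0) (S : Finset ι) (Q : H)
    (hQ : ∀ i ∈ S, ∀ j ∈ S, (inner ℝ (ζ i) Q : ℝ) = (inner ℝ (ζ j) Q : ℝ)) {i : ι} (hi : i ∈ S) :
    |(inner ℝ (ζ i) Q : ℝ)| ≤ Real.sqrt (c0 / S.card) * ‖Q‖ := by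
  have hcard : (0 : ℝ) < S.card := by exact_mod_cast Finset.card_pos.2 ⟨i, hi⟩
  have h2 : (inner ℝ (∑ j ∈ S, ζ j) Q : ℝ) = S.card * (inner ℝ (ζ i) Q : ℝ) := by
    rw [sum_inner, Finset.sum_congr rfl (fun j hj => hQ j hj i hi), Finset.sum_const, nsmul_eq_mul]
  have h3 : |(S.card : ℝ) * (inner ℝ (ζ i) Q : ℝ)| ≤ ‖∑ j ∈ S, ζ j‖ * ‖Q‖ := by
    rw [← h2]; exact abs_real_inner_le_norm _ _
  have h4 : ‖∑ j ∈ S, ζ j‖ ≤ Real.sqrt (S.card * c0) := by
    rw [← Real.sqrt_sq (norm_nonneg _)]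
    exact Real.sqrt_le_sqrt (swr ζ c0 c1 h0 h1 hs S)
  have h5 : Real.sqrt (S.card * c0) = S.card * Real.sqrt (c0 / S.card) := by
    have hc0 : 0 ≤ c0 := by rw [← h0 i]; exact real_inner_self_nonneg
    have hx : (S.card : ℝ) * c0 = (S.card : ℝ) ^ 2 * (c0 / S.card) := by field_simp
    rw [hx, Real.sqrt_mul (by positivity), Real.sqrt_sq hcard.le]
  rw [abs_mul, abs_of_pos hcard] at h3
  have h6 : (S.card : ℝ) * |(inner ℝ (ζ i) Q : ℝ)| ≤ S.card * (Real.sqrt (c0 / S.card) * ‖Q‖) := by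
    calc (S.card : ℝ) * |(inner ℝ (ζ i) Q : ℝ)| ≤ ‖∑ j ∈ S, ζ j‖ * ‖Q‖ := h3
      _ ≤ (S.card * Real.sqrt (c0 / S.card)) * ‖Q‖ := by
          rw [← h5]; exact mul_le_mul_of_nonneg_right h4 (norm_nonneg _)
      _ = _ := by ring
  exact le_of_mul_le_mul_left h6 hcard

/-- the form used: `V i` exchangeable vectors (equal norms, equal mutual inner products), `Vb` their
average; a vector `Q` that does not distinguish the rows of `S` sees `V i` as `Vb` up to
`‖V‖ / √|S|`. -/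
theorem swr_avg (V : ι → H) (a0 a1 : ℝ) (h0 : ∀ i, (inner ℝ (V i) (V i) : ℝ) = a0)
    (h1 : ∀ i j, i ≠ j → (inner ℝ (V i) (V j) : ℝ) = a1) (Vb : H)
    (hb : Vb = (Fintype.card ι : ℝ)⁻¹ • ∑ i, V i) (S : Finset ι) (Q : H)
    (hQ : ∀ i ∈ S, ∀ j ∈ S, (inner ℝ (V i) Q : ℝ) = (inner ℝ (V j) Q : ℝ)) {i : ι} (hi : i ∈ S) :
    |(inner ℝ (V i - Vb) Q : ℝ)| ≤ Real.sqrt (a0 / S.card) * ‖Q‖ := by
  have hm : (0 : ℝ) < Fintype.card ι := by exact_mod_cast Fintype.card_pos_iff.2 ⟨i⟩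
  have hsum : ∀ l, (inner ℝ (V l) (∑ j, V j) : ℝ) = a0 + ((Fintype.card ι : ℝ) - 1) * a1 := by
    intro l
    rw [inner_sum, ← Finset.add_sum_erase _ _ (Finset.mem_univ l), h0]
    rw [Finset.sum_congr rfl (fun j hj => h1 l j (Finset.ne_of_mem_erase hj).symm),
      Finset.sum_const, Finset.card_erase_of_mem (Finset.mem_univ l), Finset.card_univ,
      nsmul_eq_mul, Nat.cast_sub (Fintype.card_pos_iff.2 ⟨i⟩)]
    simp
  set e : ℝ := (Fintype.card ι : ℝ)⁻¹ * (a0 + ((Fintype.card ι : ℝ) - 1) * a1) with he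
  have hVb : ∀ l, (inner ℝ (V l) Vb : ℝ) = e := by
    intro l; rw [hb, inner_smul_right, hsum]
  have hbb : (inner ℝ Vb Vb : ℝ) = e := by
    have : (inner ℝ Vb Vb : ℝ) = (inner ℝ ((Fintype.card ι : ℝ)⁻¹ • ∑ i, V i) Vb : ℝ) := by rw [← hb]
    rw [this, real_inner_smul_left, sum_inner, Finset.sum_congr rfl (fun l _ => hVb l),
      Finset.sum_const, Finset.card_univ, nsmul_eq_mul]
    field_simp
  have hVb' : ∀ l, (inner ℝ Vb (V l) : ℝ) = e := fun l => by rw [real_inner_comm]; exact hVb l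
  have he0 : 0 ≤ e := by rw [← hbb]; exact real_inner_self_nonneg
  have hz0 : ∀ l, (inner ℝ (V l - Vb) (V l - Vb) : ℝ) = a0 - e := by
    intro l
    rw [inner_sub_left, inner_sub_right, inner_sub_right, h0, hVb, hVb', hbb]; ring
  have hz1 : ∀ l j, l ≠ j → (inner ℝ (V l - Vb) (V j - Vb) : ℝ) = a1 - e := by
    intro l j hlj
    rw [inner_sub_left, inner_sub_right, inner_sub_right, h1 l j hlj, hVb, hVb', hbb]; ring
  have hzs : ∑ l, (V l - Vb) = 0 := by
    rw [Finset.sum_sub_distrib, Finset.sum_const, Finset.card_univ, hb, ← Nat.cast_smul_eq_nsmul ℝ,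
      smul_smul, mul_inv_cancel₀ hm.ne', one_smul, sub_self]
  have hQ' : ∀ l ∈ S, ∀ j ∈ S, (inner ℝ (V l - Vb) Q : ℝ) = (inner ℝ (V j - Vb) Q : ℝ) := by
    intro l hl j hj
    rw [inner_sub_left, inner_sub_left, hQ l hl j hj]
  refine (swr_dual (fun l => V l - Vb) (a0 - e) (a1 - e) hz0 hz1 hzs S Q hQ' hi).trans ?_
  refine mul_le_mul_of_nonneg_right (Real.sqrt_le_sqrt ?_) (norm_nonneg _)
  have hcard : (0 : ℝ) < S.card := by exact_mod_cast Finset.card_pos.2 ⟨i, hi⟩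
  exact div_le_div_of_nonneg_right (by linarith) hcard.le

end Vale.Agent.P146.H646
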